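import Vale.Agent.P359.Car

/-!
The fermionic Fock space on a finite ordered index set, as functions of finite sets, and the
identification of its particle sectors with antisymmetric functions of tuples.
-/

namespace Vale.Agent.P359.Fock

open scoped InnerProductSpace
open Finset RCLike

variable (𝕜 : Type*) [RCLike 𝕜] {ι : Type*} [LinearOrder ι]

/-- The sign of the position of `a` relative to `S`. -/
def sg (a : ι) (S : Finset ι) : 𝕜 := (-1) ^ (S.filter (· < a)).card

theorem sg_sq (a : ι) (S : Finset ι) : sg 𝕜 a S * sg 𝕜 a S = 1 := by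
  rw [sg, ← mul_pow]; simp

theorem sg_insert {a b : ι} {S : Finset ι} (hb : b ∉ S) :
    sg 𝕜 a (insert b S) = if b < a then -sg 𝕜 a S else sg 𝕜 a S := by
  unfold sg
  rw [filter_insert]
  split_ifs with h
  · rw [card_insert_of_notMem (by simp [hb]), pow_succ]; ring
  · rfl

theorem sg_insert_self (a : ι) (S : Finset ι) : sg 𝕜 a (insert a S) = sg 𝕜 a S := by
  unfold sg
  rw [filter_insert, if_neg (lt_irrefl a)]

theorem sg_erase {a b : ι} {S : Finset ι} (hb : b ∈ S) :
    sg 𝕜 a (S.erase b) = if b < a then -sg 𝕜 a S else sg 𝕜 a S := by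
  conv_rhs => rw [← insert_erase hb]
  rw [sg_insert 𝕜 (notMem_erase b S)]
  split_ifs <;> simp

variable (ι) in
/-- The Fock space. -/
abbrev Space := EuclideanSpace 𝕜 (Finset ι)

/-- Annihilation at `a`. -/
noncomputable def annOp (a : ι) : Module.End 𝕜 (Space 𝕜 ι) where
  toFun f := WithLp.toLp 2 fun S => if a ∈ S then 0 else sg 𝕜 a S * f (insert a S)
  map_add' f g := by ext S; by_cases h : a ∈ S <;> simp [h, mul_add]
  map_smul' c f := by ext S; by_cases h : a ∈ S <;> simp [h]; ring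

/-- Creation at `a`. -/
noncomputable def creOp (a : ι) : Module.End 𝕜 (Space 𝕜 ι) where
  toFun f := WithLp.toLp 2 fun S => if a ∈ S then sg 𝕜 a S * f (S.erase a) else 0
  map_add' f g := by ext S; by_cases h : a ∈ S <;> simp [h, mul_add]
  map_smul' c f := by ext S; by_cases h : a ∈ S <;> simp [h]; ring

theorem annOp_apply (a : ι) (f : Space 𝕜 ι) (S : Finset ι) :
    annOp 𝕜 a f S = if a ∈ S then 0 else sg 𝕜 a S * f (insert a S) := rfl

theorem creOp_apply (a : ι) (f : Space 𝕜 ι) (S : Finset ι) :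
    creOp 𝕜 a f S = if a ∈ S then sg 𝕜 a S * f (S.erase a) else 0 := rfl

variable [Fintype ι]

theorem adjoint_eq (a : ι) (x y : Space 𝕜 ι) :
    ⟪creOp 𝕜 a x, y⟫_𝕜 = ⟪x, annOp 𝕜 a y⟫_𝕜 := by
  simp only [PiLp.inner_apply, RCLike.inner_apply, creOp_apply, annOp_apply]
  simp only [apply_ite (starRingEnd 𝕜), map_zero, mul_ite, ite_mul, zero_mul, mul_zero,
    ← Finset.sum_filter, Finset.sum_ite, Finset.sum_const_zero, add_zero, zero_add]
  refine Finset.sum_bij' (fun S _ => S.erase a) (fun S _ => insert a S) ?_ ?_ ?_ ?_ ?_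
  all_goals intro S hS
  all_goals simp only [mem_filter, mem_univ, true_and] at hS ⊢
  · simp
  · simp
  · exact insert_erase hS
  · exact erase_insert hS
  · rw [insert_erase hS, ← sg_insert_self 𝕜 a (S.erase a), insert_erase hS, map_mul]
    simp [sg]
    ring

theorem anti_eq (a b : ι) : annOp 𝕜 a * annOp 𝕜 b = -(annOp 𝕜 b * annOp 𝕜 a) := by
  refine LinearMap.ext fun f => ?_
  ext S
  simp only [Module.End.mul_apply, LinearMap.neg_apply, WithLp.ofLp_neg, Pi.neg_apply, annOp_apply,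
    mem_insert]
  rcases eq_or_ne a b with rfl | hne
  · simp
  by_cases ha : a ∈ S <;> by_cases hb : b ∈ S <;> simp [ha, hb, hne, hne.symm]
  rw [Finset.insert_comm b a, sg_insert 𝕜 ha, sg_insert 𝕜 hb]
  rcases lt_or_gt_of_ne hne with h | h <;> simp [h, h.le, h.not_gt] <;> ring

theorem mix_eq (a b : ι) :
    annOp 𝕜 a * creOp 𝕜 b + creOp 𝕜 b * annOp 𝕜 a = if a = b then 1 else 0 := by
  refine LinearMap.ext fun f => ?_
  ext S
  simp only [LinearMap.add_apply, Module.End.mul_apply, WithLp.ofLp_add, Pi.add_apply, annOp_apply,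
    creOp_apply, mem_insert]
  rcases eq_or_ne a b with rfl | hne
  · simp only [if_true, Module.End.one_apply]
    by_cases ha : a ∈ S
    · simp only [ha, if_true, notMem_erase, if_false, zero_add, insert_erase ha]
      rw [← mul_assoc, ← sg_insert_self 𝕜 a (S.erase a), insert_erase ha, sg_sq, one_mul]
    · simp only [ha, if_false, true_or, if_true, add_zero, erase_insert ha]
      rw [sg_insert_self, ← mul_assoc, sg_sq, one_mul]
  · by_cases ha : a ∈ S <;> by_cases hb : b ∈ S <;> simp [ha, hb, hne, hne.symm]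
    rw [erase_insert_of_ne hne, sg_insert 𝕜 ha, sg_erase 𝕜 hb]
    rcases lt_or_gt_of_ne hne with h | h <;> simp [h, h.not_gt] <;> ring

variable (ι) in
/-- The Fock representation of the anticommutation relations. -/
noncomputable def car : Car 𝕜 (Space 𝕜 ι) ι where
  ann := annOp 𝕜
  cre := creOp 𝕜
  adj := adjoint_eq 𝕜
  anti := anti_eq 𝕜
  mix := mix_eq 𝕜

variable (ι) in
/-- The sector of `N` particles. -/
def sector (N : ℕ) : Submodule 𝕜 (Space 𝕜 ι) where
  carrier := {f | ∀ S : Finset ι, S.card ≠ N → f S = 0}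
  add_mem' hf hg S hS := by simp [hf S hS, hg S hS]
  zero_mem' := by simp
  smul_mem' c f hf S hS := by simp [hf S hS]

variable {𝕜}

theorem ann_mem {N : ℕ} {f : Space 𝕜 ι} (hf : f ∈ sector 𝕜 ι (N + 1)) (a : ι) :
    annOp 𝕜 a f ∈ sector 𝕜 ι N := by
  intro S hS
  rw [annOp_apply]
  split_ifs with h
  · rfl
  · rw [hf _ (by rw [card_insert_of_notMem h]; omega), mul_zero]

theorem cre_mem {N : ℕ} {f : Space 𝕜 ι} (hf : f ∈ sector 𝕜 ι N) (a : ι) :
    creOp 𝕜 a f ∈ sector 𝕜 ι (N + 1) := by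
  intro S hS
  rw [creOp_apply]
  split_ifs with h
  · rw [hf _ (by rw [card_erase_of_mem h]; have := card_pos.2 ⟨a, h⟩; omega), mul_zero]
  · rfl

theorem ann_sector_zero {f : Space 𝕜 ι} (hf : f ∈ sector 𝕜 ι 0) (a : ι) : annOp 𝕜 a f = 0 := by
  ext S
  rw [annOp_apply]
  split_ifs with h
  · rfl
  · rw [hf _ (by rw [card_insert_of_notMem h]; omega)]
    simp

theorem number_op {N : ℕ} {f : Space 𝕜 ι} (hf : f ∈ sector 𝕜 ι N) :
    ∑ a, creOp 𝕜 a (annOp 𝕜 a f) = (N : 𝕜) • f := by
  ext S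
  simp only [WithLp.ofLp_sum, Finset.sum_apply, creOp_apply, annOp_apply, notMem_erase, if_false,
    WithLp.ofLp_smul, Pi.smul_apply, smul_eq_mul]
  have h : ∀ a, (if a ∈ S then sg 𝕜 a S * (sg 𝕜 a (S.erase a) * f (insert a (S.erase a))) else 0)
      = if a ∈ S then f S else 0 := by
    intro a
    split_ifs with ha
    · rw [← mul_assoc, ← sg_insert_self 𝕜 a (S.erase a), insert_erase ha, sg_sq, one_mul]
    · rfl
  simp only [h, Finset.sum_ite_mem, univ_inter, sum_const, nsmul_eq_mul]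
  by_cases hS : S.card = N
  · rw [hS]
  · simp [hf S hS]

/-- The tuple function of a vector: iterated annihilation down to the vacuum. -/
noncomputable def wave : (N : ℕ) → Space 𝕜 ι → (Fin N → ι) → 𝕜
  | 0, f, _ => f ∅
  | N + 1, f, x =>
    ((Real.sqrt (N + 1))⁻¹ : ℝ) * wave N (annOp 𝕜 (x 0) f) (Fin.tail x)

theorem wave_succ (N : ℕ) (f : Space 𝕜 ι) (a : ι) (y : Fin N → ι) :
    wave (N + 1) f (Fin.cons a y) =
      ((Real.sqrt (N + 1))⁻¹ : ℝ) * wave N (annOp 𝕜 a f) y := by
  simp [wave]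

theorem sum_cons {M : Type*} [AddCommMonoid M] {N : ℕ} (F : (Fin (N + 1) → ι) → M) :
    ∑ x, F x = ∑ a, ∑ y, F (Fin.cons a y) := by
  rw [← Fintype.sum_prod_type' (f := fun a y => F (Fin.cons a y))]
  exact ((Fin.consEquiv fun _ : Fin (N + 1) => ι).sum_comp F).symm

theorem wave_inner : ∀ (N : ℕ) {f g : Space 𝕜 ι}, f ∈ sector 𝕜 ι N → g ∈ sector 𝕜 ι N →
    ∑ x, starRingEnd 𝕜 (wave N f x) * wave N g x = ⟪f, g⟫_𝕜 := by
  intro N
  induction N with
  | zero =>
    intro f g hf hg
    simp only [wave, PiLp.inner_apply, RCLike.inner_apply]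
    rw [Finset.sum_eq_single (∅ : Finset ι) (fun S _ hS => by
      rw [hf S (by simpa using hS)]; simp) (by simp)]
    simp [mul_comm]
  | succ N ih =>
    intro f g hf hg
    rw [sum_cons]
    simp only [wave_succ, map_mul, RCLike.conj_ofReal]
    have h : ∀ a, ∑ y, ((Real.sqrt (N + 1))⁻¹ : ℝ) * starRingEnd 𝕜 (wave N (annOp 𝕜 a f) y) *
        ((((Real.sqrt (N + 1))⁻¹ : ℝ) : 𝕜) * wave N (annOp 𝕜 a g) y) =
        ((((N : ℝ) + 1)⁻¹ : ℝ) : 𝕜) * ⟪annOp 𝕜 a f, annOp 𝕜 a g⟫_𝕜 := by
      intro a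
      rw [← ih (ann_mem hf a) (ann_mem hg a), Finset.mul_sum]
      refine Finset.sum_congr rfl fun y _ => ?_
      have e : (((N : ℝ) + 1)⁻¹) = (Real.sqrt (N + 1))⁻¹ * (Real.sqrt (N + 1))⁻¹ := by
        rw [← mul_inv, Real.mul_self_sqrt (by positivity)]
      rw [e, RCLike.ofReal_mul]
      ring
    simp only [h, ← Finset.mul_sum]
    have hn : ∑ a, ⟪annOp 𝕜 a f, annOp 𝕜 a g⟫_𝕜 = ((N : 𝕜) + 1) * ⟪f, g⟫_𝕜 := by
      simp only [← adjoint_eq, ← sum_inner, number_op hf, inner_smul_left]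
      simp
    rw [hn, ← mul_assoc]
    simp [Nat.cast_add_one_ne_zero]

theorem wave_add (N : ℕ) (f g : Space 𝕜 ι) (x : Fin N → ι) :
    wave N (f + g) x = wave N f x + wave N g x := by
  induction N generalizing f g with
  | zero => simp [wave]
  | succ N ih => simp [wave, ih, mul_add]

theorem wave_smul (N : ℕ) (c : 𝕜) (f : Space 𝕜 ι) (x : Fin N → ι) :
    wave N (c • f) x = c * wave N f x := by
  induction N generalizing f with
  | zero => simp [wave]
  | succ N ih => simp [wave, ih]; ring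

theorem wave_sub (N : ℕ) (f g : Space 𝕜 ι) (x : Fin N → ι) :
    wave N (f - g) x = wave N f x - wave N g x := by
  rw [eq_sub_iff_add_eq, ← wave_add, sub_add_cancel]

theorem wave_inj {N : ℕ} {f g : Space 𝕜 ι} (hf : f ∈ sector 𝕜 ι N) (hg : g ∈ sector 𝕜 ι N)
    (h : ∀ x, wave N f x = wave N g x) : f = g := by
  have h0 : ∀ x, wave N (f - g) x = 0 := fun x => by rw [wave_sub, h, sub_self]
  have := wave_inner N (Submodule.sub_mem _ hf hg) (Submodule.sub_mem _ hf hg)
  simp only [h0, mul_zero, Finset.sum_const_zero] at this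
  exact sub_eq_zero.1 (inner_self_eq_zero.1 this.symm)

/-- Every function of `N`-tuples that changes sign under transpositions is a wave function. -/
theorem wave_surj : ∀ (N : ℕ) (ψ : (Fin N → ι) → 𝕜),
    (∀ i j : Fin N, i ≠ j → ∀ x, ψ (x ∘ Equiv.swap i j) = -ψ x) →
    ∃ f ∈ sector 𝕜 ι N, ∀ x, wave N f x = ψ x := by
  intro N
  induction N with
  | zero =>
    intro ψ _
    refine ⟨WithLp.toLp 2 fun S => if S.card = 0 then ψ Fin.elim0 else 0, fun S hS => ?_,
      fun x => ?_⟩
    · exact if_neg hS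
    · simp only [wave, card_empty, if_true]
      exact congrArg ψ (funext fun i => i.elim0)
  | succ N ih =>
    intro ψ hψ
    have hslice : ∀ a, ∀ i j : Fin N, i ≠ j → ∀ y : Fin N → ι,
        ψ (Fin.cons a (y ∘ Equiv.swap i j)) = -ψ (Fin.cons a y) := by
      intro a i j hij y
      rw [← hψ i.succ j.succ (by simpa using hij) (Fin.cons a y)]
      congr 1
      funext k
      refine Fin.cases ?_ (fun k => ?_) k
      · simp [Equiv.swap_apply_of_ne_of_ne (Fin.succ_ne_zero i).symm (Fin.succ_ne_zero j).symm]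
      · simp only [Fin.cons_succ, Function.comp_apply]
        rw [(Fin.succ_injective N).swap_apply]
        simp
    choose F hF hFw using fun a => ih (fun y => ψ (Fin.cons a y)) (hslice a)
    have hcross : ∀ a b, annOp 𝕜 b (F a) = -annOp 𝕜 a (F b) := by
      intro a b
      cases N with
      | zero => rw [ann_sector_zero (hF a), ann_sector_zero (hF b), neg_zero]
      | succ M =>
        refine wave_inj (ann_mem (hF a) b) (Submodule.neg_mem _ (ann_mem (hF b) a)) fun z => ?_
        rw [show -annOp 𝕜 a (F b) = (-1 : 𝕜) • annOp 𝕜 a (F b) by simp, wave_smul]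
        have e : ∀ p q, wave M (annOp 𝕜 q (F p)) z =
            ((Real.sqrt (M + 1)) : 𝕜) * ψ (Fin.cons p (Fin.cons q z)) := by
          intro p q
          rw [← hFw p (Fin.cons q z), wave_succ, ← mul_assoc, ← RCLike.ofReal_mul,
            mul_inv_cancel₀ (by positivity), RCLike.ofReal_one, one_mul]
        rw [e, e]
        have hs : ψ (Fin.cons b (Fin.cons a z)) = -ψ (Fin.cons a (Fin.cons b z)) := by
          rw [← hψ 0 1 (by simp) (Fin.cons a (Fin.cons b z))]
          congr 1
          funext k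
          refine Fin.cases ?_ (fun k => Fin.cases ?_ (fun k => ?_) k) k
          · simp [Equiv.swap_apply_left]
          · simp [Equiv.swap_apply_right]
          · rw [Function.comp_apply, Equiv.swap_apply_of_ne_of_ne (Fin.succ_ne_zero _)
              (by simp [Fin.ext_iff])]
            simp
        rw [hs]; ring
    have hstep : ∀ a b, annOp 𝕜 b (creOp 𝕜 a (F a)) =
        (if b = a then F a else 0) + creOp 𝕜 a (annOp 𝕜 a (F b)) := by
      intro a b
      have h1 := LinearMap.congr_fun (mix_eq 𝕜 b a) (F a)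
      simp only [LinearMap.add_apply, Module.End.mul_apply] at h1
      rw [hcross a b, map_neg] at h1
      rw [← sub_eq_iff_eq_add, sub_eq_add_neg, h1]
      split_ifs <;> simp
    refine ⟨((Real.sqrt (N + 1))⁻¹ : ℝ) • ∑ a, creOp 𝕜 a (F a), ?_, fun x => ?_⟩
    · rw [RCLike.real_smul_eq_coe_smul (K := 𝕜)]
      exact Submodule.smul_mem _ _ (Submodule.sum_mem _ fun a _ => cre_mem (hF a) a)
    · rw [RCLike.real_smul_eq_coe_smul (K := 𝕜), wave_smul, wave, map_sum]
      simp only [hstep, Finset.sum_add_distrib, Finset.sum_ite_eq, Finset.mem_univ, if_true,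
        number_op (hF (x 0))]
      rw [wave_add, wave_smul, hFw, Fin.cons_self_tail]
      have hne : (Real.sqrt (N + 1)) ≠ 0 := by positivity
      have e : (((Real.sqrt (N + 1))⁻¹ : ℝ) : 𝕜) * (((Real.sqrt (N + 1))⁻¹ : ℝ) : 𝕜) *
          ((N : 𝕜) + 1) = 1 := by
        have h2 : (Real.sqrt (N + 1))⁻¹ * (Real.sqrt (N + 1))⁻¹ * ((N : ℝ) + 1) = 1 := by
          rw [← mul_inv, Real.mul_self_sqrt (by positivity), inv_mul_cancel₀ (by positivity)]
        exact_mod_cast congrArg (fun r : ℝ => (r : 𝕜)) h2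
      linear_combination ψ x * e

end Vale.Agent.P359.Fock
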