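import Vale.Agent.P359.Car

/-!
A symmetric positive operator with `T² ≥ γ T` is at least `γ` off its kernel.
-/

namespace Vale.Agent.P359

open scoped InnerProductSpace
open Finset RCLike

variable {𝕜 E : Type*} [RCLike 𝕜] [NormedAddCommGroup E] [InnerProductSpace 𝕜 E]

/-- If `γ⟨x,Tx⟩ ≤ ‖Tx‖²`, then `γ‖x‖² ≤ ⟨x,Tx⟩` for `x` orthogonal to the kernel. -/
theorem spectral_gap [FiniteDimensional 𝕜 E] {T : E →ₗ[𝕜] E} (hT : T.IsSymmetric)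
    (hpos : ∀ x, 0 ≤ re ⟪x, T x⟫_𝕜) {γ : ℝ} (h : ∀ x, γ * re ⟪x, T x⟫_𝕜 ≤ ‖T x‖ ^ 2)
    {x : E} (hx : ∀ v, T v = 0 → ⟪v, x⟫_𝕜 = 0) :
    γ * ‖x‖ ^ 2 ≤ re ⟪x, T x⟫_𝕜 := by
  set b := hT.eigenvectorBasis rfl with hb
  set e := hT.eigenvalues rfl with he
  have hev : ∀ i, T (b i) = (e i : 𝕜) • b i := fun i => hT.apply_eigenvectorBasis rfl i
  have hterm : ∀ i, γ * ‖⟪b i, x⟫_𝕜‖ ^ 2 ≤ e i * ‖⟪b i, x⟫_𝕜‖ ^ 2 := by
    intro i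
    have h1 : re ⟪b i, T (b i)⟫_𝕜 = e i := by simp [hev, inner_smul_right]
    have h2 : ‖T (b i)‖ ^ 2 = e i ^ 2 := by simp [hev, norm_smul]
    rcases (hpos (b i)).lt_or_eq with hlt | heq
    · rw [h1] at hlt
      have h3 := h (b i)
      rw [h1, h2] at h3
      have h4 : γ ≤ e i := le_of_mul_le_mul_right (by linarith [sq (e i)]) hlt
      exact mul_le_mul_of_nonneg_right h4 (sq_nonneg _)
    · rw [h1] at heq
      simp [hx (b i) (by simp [hev, ← heq])]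
  have hsum : re ⟪x, T x⟫_𝕜 = ∑ i, e i * ‖⟪b i, x⟫_𝕜‖ ^ 2 := by
    rw [← b.sum_inner_mul_inner x (T x), map_sum]
    refine Finset.sum_congr rfl fun i _ => ?_
    rw [← hT, hev, inner_smul_left, RCLike.conj_ofReal, ← inner_conj_symm x (b i)]
    rw [mul_left_comm, RCLike.conj_mul, ← RCLike.ofReal_pow, ← RCLike.ofReal_mul, RCLike.ofReal_re]
  rw [hsum, ← b.sum_sq_norm_inner_right x, Finset.mul_sum]
  exact Finset.sum_le_sum fun i _ => hterm i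

/-- The same on an invariant subspace. -/
theorem spectral_gap_on [FiniteDimensional 𝕜 E] {T : E →ₗ[𝕜] E} (hT : T.IsSymmetric)
    (hpos : ∀ x, 0 ≤ re ⟪x, T x⟫_𝕜) (V : Submodule 𝕜 E) (hV : ∀ x ∈ V, T x ∈ V) {γ : ℝ}
    (h : ∀ x ∈ V, γ * re ⟪x, T x⟫_𝕜 ≤ ‖T x‖ ^ 2) {x : E} (hxV : x ∈ V)
    (hx : ∀ v ∈ V, T v = 0 → ⟪v, x⟫_𝕜 = 0) :
    γ * ‖x‖ ^ 2 ≤ re ⟪x, T x⟫_𝕜 :=
  spectral_gap (T := T.restrict hV) (hT.restrict_invariant hV) (fun y => hpos y)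
    (fun y => h y y.2) (x := ⟨x, hxV⟩) (fun v hv => hx v v.2 (congrArg Subtype.val hv))

end Vale.Agent.P359
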