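import Vale.Agent.P359.Defs
import Vale.Agent.P359.Fock
import Vale.Agent.P359.Spectral

/-!
The bridge between the first-quantised pseudopotential and the Fock pair Hamiltonian, and the
gap criterion.
-/

open Finset RCLike
open scoped InnerProductSpace

namespace Vale.Agent.P359

/-- Index of a pair channel: the total index is `m + 1`. -/
abbrev Chan (Q : ℕ) := Fin (2 * Q - 1)

/-- The normalised coefficient table of the pair channels. -/
noncomputable def coef (Q : ℕ) (m : Chan Q) (a b : Fin (Q + 1)) : ℝ :=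
  pairVec Q ((m : ℕ) + 1) a b / Real.sqrt (2 * pairZ Q ((m : ℕ) + 1))

theorem pairVec_swap (Q s : ℕ) (a b : Fin (Q + 1)) : pairVec Q s a b = -pairVec Q s b a := by
  unfold pairVec
  by_cases h : (a : ℕ) + b = s
  · rw [if_pos h, if_pos (by omega), mul_comm (Q.choose a : ℝ)]; ring
  · rw [if_neg h, if_neg (by omega), neg_zero]

theorem coef_anti (Q : ℕ) (m : Chan Q) (a b : Fin (Q + 1)) : coef Q m a b = -coef Q m b a := by
  rw [coef, coef, pairVec_swap, neg_div]

theorem pairZ_pos {Q s : ℕ} (h1 : 1 ≤ s) (h2 : s < 2 * Q) : 0 < pairZ Q s := by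
  obtain ⟨a, b, hab, hne⟩ : ∃ a b : Fin (Q + 1), (a : ℕ) + b = s ∧ (a : ℕ) ≠ b := by
    rcases le_or_gt s Q with h | h
    · exact ⟨⟨0, by omega⟩, ⟨s, by omega⟩, by simp, by simp; omega⟩
    · exact ⟨⟨s - Q, by omega⟩, ⟨Q, by omega⟩, by simp; omega, by simp; omega⟩
  have hp : 0 < pairVec Q s a b ^ 2 := by
    refine sq_pos_of_ne_zero ?_
    rw [pairVec, if_pos hab]
    refine mul_ne_zero ?_ ?_
    · exact sub_ne_zero.2 fun h => hne (by exact_mod_cast h.symm)
    · refine (Real.sqrt_pos.2 (mul_pos ?_ ?_)).ne' <;>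
        exact_mod_cast Nat.choose_pos (Nat.lt_succ_iff.1 (Fin.is_lt _))
  calc 0 < pairVec Q s a b ^ 2 := hp
    _ ≤ ∑ b', pairVec Q s a b' ^ 2 :=
        single_le_sum (f := fun b' => pairVec Q s a b' ^ 2) (fun _ _ => sq_nonneg _) (mem_univ b)
    _ ≤ pairZ Q s := single_le_sum (f := fun a' => ∑ b', pairVec Q s a' b' ^ 2)
        (fun _ _ => sum_nonneg fun _ _ => sq_nonneg _) (mem_univ a)

theorem coef_orth (Q : ℕ) (m n : Chan Q) :
    2 * ∑ a, ∑ b, coef Q m a b * coef Q n a b = if m = n then 1 else 0 := by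
  rcases eq_or_ne m n with rfl | h
  · rw [if_pos rfl]
    have hz := pairZ_pos (Q := Q) (s := (m : ℕ) + 1) (by omega) (by have := m.2; omega)
    simp only [coef, div_mul_div_comm, ← Finset.sum_div]
    rw [Real.mul_self_sqrt (by positivity), mul_div_assoc', div_eq_one_iff_eq (by positivity)]
    simp [pairZ, sq]
  · rw [if_neg h]
    refine mul_eq_zero_of_right _ (sum_eq_zero fun a _ => sum_eq_zero fun b _ => ?_)
    have hne : (m : ℕ) + 1 ≠ (n : ℕ) + 1 := fun e => h (Fin.ext (by omega))
    simp only [coef, pairVec]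
    split_ifs with h1 h2 h2
    · exact absurd (h1.symm.trans h2) hne
    all_goals simp

/-- The Fock space of the lowest Landau level at flux `Q`. -/
abbrev FockQ (Q : ℕ) := Fock.Space ℂ (Fin (Q + 1))

/-- The anticommutation relations at flux `Q`. -/
noncomputable abbrev carQ (Q : ℕ) : Car ℂ (FockQ Q) (Fin (Q + 1)) := Fock.car ℂ (Fin (Q + 1))

theorem fermionic_perm {N Q : ℕ} {ψ : Occ N Q → ℂ} (hψ : Fermionic ψ) (σ : Equiv.Perm (Fin N))
    (x : Occ N Q) : ψ (x ∘ σ) = ((Equiv.Perm.sign σ : ℤ) : ℂ) * ψ x := by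
  induction σ using Equiv.Perm.swap_induction_on generalizing x with
  | one => simp
  | swap_mul σ i j hij ih =>
    rw [Equiv.Perm.coe_mul, ← Function.comp_assoc, ih, hψ i j hij]
    simp [Equiv.Perm.sign_mul, Equiv.Perm.sign_swap hij]

theorem braket_pairOp_eq {N Q : ℕ} {ψ : Occ (N + 2) Q → ℂ} (hψ : Fermionic ψ) {i j : Fin (N + 2)}
    (hij : i ≠ j) : braket ψ (pairOp i j ψ) = braket ψ (pairOp 0 1 ψ) := by
  obtain ⟨σ, h0, h1⟩ : ∃ σ : Equiv.Perm (Fin (N + 2)), σ i = 0 ∧ σ j = 1 := by
    refine ⟨Equiv.swap (Equiv.swap i 0 j) 1 * Equiv.swap i 0, ?_, ?_⟩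
    · rw [Equiv.Perm.mul_apply, Equiv.swap_apply_left, Equiv.swap_apply_of_ne_of_ne ?_ (by simp)]
      intro h
      exact hij ((Equiv.swap i 0).injective (by rw [Equiv.swap_apply_left]; exact h))
    · rw [Equiv.Perm.mul_apply, Equiv.swap_apply_left]
  let e : Occ (N + 2) Q ≃ Occ (N + 2) Q := Equiv.arrowCongr σ.symm (Equiv.refl _)
  simp only [braket]
  refine (Fintype.sum_equiv e _ _ fun y => ?_).symm
  have hey : e y = y ∘ σ := rfl
  rw [hey]
  simp only [pairOp, Function.comp_apply, h0, h1]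
  have hup : ∀ c d, Function.update (Function.update (y ∘ σ) i c) j d =
      Function.update (Function.update y 0 c) 1 d ∘ σ := by
    intro c d
    rw [Function.update_comp_equiv, Function.update_comp_equiv, ← h0, ← h1,
      Equiv.symm_apply_apply, Equiv.symm_apply_apply]
  simp only [hup, fermionic_perm hψ, Finset.mul_sum, star_mul']
  rcases Int.units_eq_one_or (Equiv.Perm.sign σ) with h | h <;> simp [h]

theorem update_cons_cons {N : ℕ} {α : Type*} (a b c d : α) (z : Fin N → α) :
    Function.update (Function.update (Fin.cons a (Fin.cons b z) : Fin (N + 1 + 1) → α) 0 c) 1 d =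
      Fin.cons c (Fin.cons d z) := by
  rw [Fin.update_cons_zero, show (1 : Fin (N + 2)) = Fin.succ 0 from rfl, ← Fin.cons_update,
    Fin.update_cons_zero]

/-- The overlap of the pairSlice of the first two particles with a channel. -/
noncomputable def pairSlice {N Q : ℕ} (m : Chan Q) (ψ : Occ (N + 2) Q → ℂ) (z : Occ N Q) : ℂ :=
  ∑ a, ∑ b, (coef Q m a b : ℂ) * ψ (Fin.cons a (Fin.cons b z))

theorem sum_range_chan {Q : ℕ} {M : Type*} [AddCommMonoid M] (F : ℕ → M)
    (h : ∀ s, s = 0 ∨ 2 * Q ≤ s → F s = 0) :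
    ∑ s ∈ range (2 * Q + 1), F s = ∑ m : Chan Q, F ((m : ℕ) + 1) := by
  rw [Fin.sum_univ_eq_sum_range (fun m => F (m + 1)), sum_range_succ', h 0 (Or.inl rfl), add_zero]
  rcases Nat.eq_zero_or_pos Q with rfl | hQ
  · simp
  rw [show 2 * Q = (2 * Q - 1) + 1 by omega, sum_range_succ,
    h _ (Or.inr (by omega)), add_zero]
  simp [show (2 * Q - 1) + 1 - 1 = 2 * Q - 1 by omega]

theorem pairVec_zero {Q s : ℕ} (h : s = 0 ∨ 2 * Q ≤ s) (a b : Fin (Q + 1)) :
    pairVec Q s a b = 0 := by
  unfold pairVec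
  split_ifs with hs
  · have : (a : ℕ) = b := by omega
    simp [this]
  · rfl

theorem braket_pairOp01 {N Q : ℕ} (ψ : Occ (N + 2) Q → ℂ) :
    (braket ψ (pairOp 0 1 ψ)).re = 2 * ∑ z : Occ N Q, ∑ m, ‖pairSlice m ψ z‖ ^ 2 := by
  have key : braket ψ (pairOp 0 1 ψ) = 2 * ∑ z : Occ N Q, ∑ m,
      starRingEnd ℂ (pairSlice m ψ z) * pairSlice m ψ z := by
    have hp : ∀ a b c d, (proj1 Q a b c d : ℂ) =
        2 * ∑ m : Chan Q, (coef Q m a b : ℂ) * (coef Q m c d : ℂ) := by
      intro a b c d
      have hr : proj1 Q a b c d = 2 * ∑ m : Chan Q, coef Q m a b * coef Q m c d := by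
        rw [proj1, sum_range_chan _ (fun s hs => by simp [pairVec_zero hs]), Finset.mul_sum]
        refine sum_congr rfl fun m _ => ?_
        have hz := pairZ_pos (Q := Q) (s := (m : ℕ) + 1) (by omega) (by have := m.2; omega)
        rw [coef, coef, div_mul_div_comm, Real.mul_self_sqrt (by positivity)]
        field_simp
      rw [hr]; push_cast; rfl
    simp only [braket, pairOp]
    simp only [Fock.sum_cons]
    simp only [update_cons_cons]
    simp only [Fin.cons_zero,
      show (1 : Fin (N + 2)) = Fin.succ 0 from rfl, Fin.cons_succ, hp, pairSlice, map_sum, map_mul,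
      Complex.conj_ofReal, Finset.mul_sum, Finset.sum_mul, Complex.star_def]
    simp only [← Fintype.sum_prod_type']
    exact Fintype.sum_equiv
      ⟨fun p => (p.2.2.1, p.2.2.2.2.2, p.2.2.2.1, p.2.2.2.2.1, p.1, p.2.1),
        fun p => (p.2.2.2.2.1, p.2.2.2.2.2, p.1, p.2.2.1, p.2.2.2.1, p.2.1),
        fun p => rfl, fun p => rfl⟩ _ _ fun p => by
        simp only [Equiv.coe_fn_mk]
        ring
  rw [key]
  simp only [Complex.conj_mul', Complex.mul_re, Complex.re_sum, Complex.im_sum]
  norm_cast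
  simp

theorem two_mul_card_pairs (n : ℕ) : 2 * (pairs n).card + n = n * n := by
  have h1 : (pairs n).card = (univ.filter fun p : Fin n × Fin n => p.2 < p.1).card :=
    card_equiv (Equiv.prodComm _ _) (by simp [pairs])
  have h2 : (univ.filter fun p : Fin n × Fin n => p.1 = p.2).card = n := by
    rw [show (univ.filter fun p : Fin n × Fin n => p.1 = p.2) = univ.image fun i => (i, i) by
      ext ⟨a, b⟩; simp [eq_comm]]
    rw [card_image_of_injective _ fun a b h => (Prod.ext_iff.1 h).1]
    simp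
  have e : pairs n ∪ ((univ.filter fun p : Fin n × Fin n => p.2 < p.1) ∪
      (univ.filter fun p : Fin n × Fin n => p.1 = p.2)) = univ := by
    ext p
    rcases lt_trichotomy p.1 p.2 with h | h | h <;> simp [pairs, h]
  have h3 := card_union_of_disjoint (s := pairs n)
    (t := (univ.filter fun p : Fin n × Fin n => p.2 < p.1) ∪
      (univ.filter fun p : Fin n × Fin n => p.1 = p.2)) (by
        rw [disjoint_left]
        intro p hp
        simp only [pairs, mem_filter, mem_univ, true_and] at hp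
        simp [hp.le, hp.ne])
  rw [e, card_union_of_disjoint (by
    rw [disjoint_left]
    intro p hp
    simp only [mem_filter, mem_univ, true_and] at hp ⊢
    exact hp.ne'), ← h1, h2] at h3
  simp at h3
  omega

theorem pair_mem {N Q : ℕ} {f : FockQ Q} (hf : f ∈ Fock.sector ℂ (Fin (Q + 1)) (N + 2))
    (m : Chan Q) : (carQ Q).pair (coef Q) m f ∈ Fock.sector ℂ (Fin (Q + 1)) N := by
  simp only [Car.pair, LinearMap.sum_apply, LinearMap.smul_apply, Module.End.mul_apply]
  exact Submodule.sum_mem _ fun a _ => Submodule.sum_mem _ fun b _ =>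
    Submodule.smul_mem _ _ (Fock.ann_mem (Fock.ann_mem hf a) b)

theorem wave_sum {ι α : Type*} [LinearOrder ι] [Fintype ι] (N : ℕ) (s : Finset α)
    (f : α → Fock.Space ℂ ι) (x : Fin N → ι) :
    Fock.wave N (∑ i ∈ s, f i) x = ∑ i ∈ s, Fock.wave N (f i) x := by
  induction s using Finset.cons_induction with
  | empty => simpa using Fock.wave_smul N (0 : ℂ) (0 : Fock.Space ℂ ι) x
  | cons i s hi ih => rw [sum_cons hi, sum_cons hi, Fock.wave_add, ih]

theorem wave_pair {N Q : ℕ} (f : FockQ Q) (m : Chan Q) (z : Occ N Q) :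
    Fock.wave N ((carQ Q).pair (coef Q) m f) z =
      ((Real.sqrt (N + 2) * Real.sqrt (N + 1) : ℝ) : ℂ) * pairSlice m (Fock.wave (N + 2) f) z := by
  simp only [Car.pair, LinearMap.sum_apply, LinearMap.smul_apply, Module.End.mul_apply, wave_sum,
    Fock.wave_smul, pairSlice, Finset.mul_sum, Fock.wave_succ, carQ, Fock.car]
  refine sum_congr rfl fun a _ => sum_congr rfl fun b _ => ?_
  have h1 : Real.sqrt (N + 2) ≠ 0 := by positivity
  have h2 : Real.sqrt (N + 1) ≠ 0 := by positivity
  have e : ((N + 1 : ℕ) : ℝ) + 1 = (N : ℝ) + 2 := by push_cast; ring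
  simp only [e]
  simp only [RCLike.ofReal_eq_complex_ofReal]
  push_cast
  field_simp
  refine (eq_div_iff (Complex.ofReal_ne_zero.2 h1)).2 ?_
  ring

/-- The first-quantised energy is the Fock energy. -/
theorem energy_eq_form {N Q : ℕ} {f : FockQ Q} (hf : f ∈ Fock.sector ℂ (Fin (Q + 1)) (N + 2))
    (hψ : Fermionic (Fock.wave (N + 2) f)) :
    energy (Fock.wave (N + 2) f) = re ⟪f, (carQ Q).ham (coef Q) f⟫_ℂ := by
  set ψ := Fock.wave (N + 2) f with hdef
  have hE : braket ψ (ham ψ) = ∑ p ∈ pairs (N + 2), braket ψ (pairOp p.1 p.2 ψ) := by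
    simp only [braket, ham, Finset.mul_sum]
    exact sum_comm
  have hn : ∀ m, ‖(carQ Q).pair (coef Q) m f‖ ^ 2 =
      ((N : ℝ) + 2) * (N + 1) * ∑ z : Occ N Q, ‖pairSlice m ψ z‖ ^ 2 := by
    intro m
    have h := Fock.wave_inner N (pair_mem hf m) (pair_mem hf m)
    simp only [Complex.conj_mul', wave_pair, norm_mul, mul_pow, Complex.norm_real,
      Real.norm_eq_abs, inner_self_eq_norm_sq_to_K] at h
    have h' := congrArg Complex.re h
    simp only [Complex.re_sum] at h'
    norm_cast at h'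
    simp only [sq_abs, mul_pow] at h'
    rw [Real.sq_sqrt (by positivity), Real.sq_sqrt (by positivity)] at h'
    have h'' : _ = ‖(carQ Q).pair (coef Q) m f‖ ^ 2 := h'
    push_cast at h''
    rw [← hdef] at *
    rw [← h'', Finset.mul_sum]
  rw [Car.form_ham, energy, hE, sum_congr rfl (g := fun _ => braket ψ (pairOp 0 1 ψ))
    (fun p hp => braket_pairOp_eq hψ (ne_of_lt (show p.1 < p.2 by simpa [pairs] using hp))),
    sum_const, nsmul_eq_mul, Complex.mul_re]
  simp only [Complex.natCast_re, Complex.natCast_im, zero_mul, sub_zero, braket_pairOp01, hn,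
    ← Finset.mul_sum]
  rw [sum_comm, ← mul_assoc]
  congr 1
  have h : (2 * ((pairs (N + 2)).card : ℝ)) + ((N : ℝ) + 2) = ((N : ℝ) + 2) * ((N : ℝ) + 2) := by
    exact_mod_cast two_mul_card_pairs (N + 2)
  linarith

theorem ham_mem {N Q : ℕ} {f : FockQ Q} (hf : f ∈ Fock.sector ℂ (Fin (Q + 1)) (N + 2)) :
    (carQ Q).ham (coef Q) f ∈ Fock.sector ℂ (Fin (Q + 1)) (N + 2) := by
  simp only [Car.ham, LinearMap.sum_apply, Module.End.mul_apply]
  refine Submodule.sum_mem _ fun m _ => ?_
  simp only [Car.pairCre, LinearMap.sum_apply, LinearMap.smul_apply, Module.End.mul_apply]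
  exact Submodule.sum_mem _ fun a _ => Submodule.sum_mem _ fun b _ =>
    Submodule.smul_mem _ _ (Fock.cre_mem (Fock.cre_mem (pair_mem hf m) b) a)

theorem fermionic_wave {Q : ℕ} : ∀ (N : ℕ) (f : FockQ Q), f ∈ Fock.sector ℂ (Fin (Q + 1)) N →
    Fermionic (Fock.wave N f) := by
  intro N
  induction N with
  | zero => exact fun _ _ i => i.elim0
  | succ N ih =>
    intro f hf
    have hdec : ∀ x : Occ (N + 1) Q, Fock.wave (N + 1) f x =
        ((Real.sqrt (N + 1))⁻¹ : ℝ) * Fock.wave N (Fock.annOp ℂ (x 0) f) (Fin.tail x) :=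
      fun x => rfl
    have htail : ∀ p q : Fin N, p ≠ q → ∀ x : Occ (N + 1) Q,
        Fock.wave (N + 1) f (x ∘ Equiv.swap p.succ q.succ) = -Fock.wave (N + 1) f x := by
      intro p q hpq x
      have h0 : (x ∘ Equiv.swap p.succ q.succ) 0 = x 0 := by
        simp [Equiv.swap_apply_of_ne_of_ne (Fin.succ_ne_zero p).symm (Fin.succ_ne_zero q).symm]
      have ht : Fin.tail (x ∘ Equiv.swap p.succ q.succ) = Fin.tail x ∘ Equiv.swap p q := by
        funext k
        simp only [Fin.tail, Function.comp_apply]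
        rw [(Fin.succ_injective N).swap_apply]
      rw [hdec, hdec, h0, ht, ih _ (Fock.ann_mem hf _) p q hpq, mul_neg]
    cases N with
    | zero => intro i j hij; exact absurd (Fin.ext (by omega)) hij
    | succ M =>
      have h01 : ∀ x : Occ (M + 2) Q,
          Fock.wave (M + 2) f (x ∘ Equiv.swap 0 1) = -Fock.wave (M + 2) f x := by
        intro x
        have key : ∀ (a b : Fin (Q + 1)) (z : Occ M Q),
            Fock.wave (M + 2) f (Fin.cons b (Fin.cons a z)) =
              -Fock.wave (M + 2) f (Fin.cons a (Fin.cons b z)) := by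
          intro a b z
          have h := LinearMap.congr_fun (Fock.anti_eq ℂ a b) f
          simp only [Module.End.mul_apply, LinearMap.neg_apply] at h
          rw [Fock.wave_succ, Fock.wave_succ, Fock.wave_succ, Fock.wave_succ, h,
            show -(Fock.annOp ℂ b (Fock.annOp ℂ a f)) = (-1 : ℂ) • Fock.annOp ℂ b (Fock.annOp ℂ a f)
              by simp, Fock.wave_smul]
          ring
        have e1 : x = Fin.cons (x 0) (Fin.cons (x 1) (Fin.tail (Fin.tail x))) := by
          funext k
          refine Fin.cases ?_ (fun k => Fin.cases ?_ (fun k => ?_) k) k <;> simp [Fin.tail]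
        have e2 : x ∘ Equiv.swap 0 1 = Fin.cons (x 1) (Fin.cons (x 0) (Fin.tail (Fin.tail x))) := by
          funext k
          refine Fin.cases ?_ (fun k => Fin.cases ?_ (fun k => ?_) k) k
          · simp
          · simp [Equiv.swap_apply_right]
          · rw [Function.comp_apply, Equiv.swap_apply_of_ne_of_ne (Fin.succ_ne_zero _)
              (by simp [Fin.ext_iff])]
            simp [Fin.tail]
        rw [e2, key]
        exact congrArg Neg.neg (congrArg (Fock.wave (M + 2) f) e1.symm)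
      have hzero : ∀ q : Fin (M + 1), ∀ x : Occ (M + 2) Q,
          Fock.wave (M + 2) f (x ∘ Equiv.swap 0 q.succ) = -Fock.wave (M + 2) f x := by
        intro q x
        rcases eq_or_ne q 0 with rfl | hq
        · exact h01 x
        · have hc : (Equiv.swap 0 q.succ : Equiv.Perm (Fin (M + 2))) =
              Equiv.swap 1 q.succ * Equiv.swap 0 1 * Equiv.swap 1 q.succ := by
            have h := Equiv.swap_apply_apply (Equiv.swap 1 q.succ) (0 : Fin (M + 2)) 1
            rw [Equiv.swap_inv, Equiv.swap_apply_left, Equiv.swap_apply_of_ne_of_ne (by simp)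
              (Fin.succ_ne_zero q).symm] at h
            exact h
          rw [hc, Equiv.Perm.coe_mul, Equiv.Perm.coe_mul, ← Function.comp_assoc,
            ← Function.comp_assoc, show (1 : Fin (M + 2)) = Fin.succ 0 from rfl,
            htail 0 q hq.symm]
          rw [show Fin.succ 0 = (1 : Fin (M + 2)) from rfl, h01,
            show (1 : Fin (M + 2)) = Fin.succ 0 from rfl, htail 0 q hq.symm]
          simp
      intro i j hij x
      rcases Fin.eq_zero_or_eq_succ i with rfl | ⟨p, rfl⟩ <;>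
        rcases Fin.eq_zero_or_eq_succ j with rfl | ⟨q, rfl⟩
      · exact absurd rfl hij
      · exact hzero q x
      · rw [Equiv.swap_comm]; exact hzero p x
      · exact htail p q (fun h => hij (by rw [h])) x

/-- The gap criterion: a square bound in the Fock sector and uniqueness of the kernel give a gap
above the kernel vector `L`. -/
theorem gap_of_square {N Q : ℕ} {γ : ℝ} (L : Occ (N + 2) Q → ℂ)
    (huniq : ∀ φ : Occ (N + 2) Q → ℂ, Fermionic φ → energy φ = 0 → ∃ c : ℂ, φ = fun x => c * L x)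
    (hsq : ∀ f ∈ Fock.sector ℂ (Fin (Q + 1)) (N + 2),
      γ * re ⟪f, (carQ Q).ham (coef Q) f⟫_ℂ ≤ ‖(carQ Q).ham (coef Q) f‖ ^ 2)
    {ψ : Occ (N + 2) Q → ℂ} (hψ : Fermionic ψ) (horth : braket L ψ = 0) :
    γ * nsq ψ ≤ energy ψ := by
  obtain ⟨f, hf, hfψ⟩ := Fock.wave_surj (N + 2) ψ hψ
  have e : Fock.wave (N + 2) f = ψ := funext hfψ
  have hn : nsq ψ = ‖f‖ ^ 2 := by
    have h := congrArg Complex.re (Fock.wave_inner (N + 2) hf hf)
    simp only [Complex.conj_mul', inner_self_eq_norm_sq_to_K, Complex.re_sum, e] at h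
    norm_cast at h
  have hψ' : Fermionic (Fock.wave (N + 2) f) := by rw [e]; exact hψ
  rw [hn, ← e, energy_eq_form hf hψ']
  have hpos : ∀ x, 0 ≤ re ⟪x, (carQ Q).ham (coef Q) x⟫_ℂ := fun x => by
    rw [Car.form_ham]; exact Finset.sum_nonneg fun m _ => sq_nonneg _
  refine spectral_gap_on (T := (carQ Q).ham (coef Q)) ((carQ Q).ham_symmetric (coef Q)) hpos
    (Fock.sector ℂ (Fin (Q + 1)) (N + 2)) (fun x hx => ham_mem hx) hsq hf fun v hv hTv => ?_
  obtain ⟨c, hc⟩ := huniq _ (fermionic_wave _ v hv)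
    (by rw [energy_eq_form hv (fermionic_wave _ v hv), hTv]; simp)
  rw [← Fock.wave_inner (N + 2) hv hf, hc, e]
  simp only [map_mul, mul_assoc, ← Finset.mul_sum]
  rw [show ∑ x, starRingEnd ℂ (L x) * ψ x = braket L ψ from rfl, horth, mul_zero]

end Vale.Agent.P359
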