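import Mathlib

/-!
Operators with the canonical anticommutation relations, pair operators built from
antisymmetric coefficient tables, and the square of the pair Hamiltonian.
-/

namespace Vale.Agent.P359

open scoped InnerProductSpace
open Finset RCLike

/-- Annihilation and creation operators with the canonical anticommutation relations. -/
structure Car (𝕜 : Type*) (E : Type*) (ι : Type*) [RCLike 𝕜] [NormedAddCommGroup E]
    [InnerProductSpace 𝕜 E] [DecidableEq ι] where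
  ann : ι → Module.End 𝕜 E
  cre : ι → Module.End 𝕜 E
  adj : ∀ a x y, ⟪cre a x, y⟫_𝕜 = ⟪x, ann a y⟫_𝕜
  anti : ∀ a b, ann a * ann b = -(ann b * ann a)
  mix : ∀ a b, ann a * cre b + cre b * ann a = if a = b then 1 else 0

variable {𝕜 E ι μ : Type*} [RCLike 𝕜] [NormedAddCommGroup E] [InnerProductSpace 𝕜 E]
  [Fintype ι] [DecidableEq ι] [Fintype μ] [DecidableEq μ] (C : Car 𝕜 E ι) (A : μ → ι → ι → ℝ)

/-- The pair annihilator with coefficient table `A m`. -/
noncomputable def Car.pair (m : μ) : Module.End 𝕜 E :=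
  ∑ a, ∑ b, (A m a b : 𝕜) • (C.ann b * C.ann a)

/-- The pair creator with coefficient table `A m`. -/
noncomputable def Car.pairCre (m : μ) : Module.End 𝕜 E :=
  ∑ a, ∑ b, (A m a b : 𝕜) • (C.cre a * C.cre b)

/-- The pair Hamiltonian. -/
noncomputable def Car.ham : Module.End 𝕜 E := ∑ m, C.pairCre A m * C.pair A m

/-- The one-body coefficients of the commutator of a pair annihilator and a pair creator. -/
def Kk (m n : μ) (y b : ι) : ℝ := 4 * ∑ a, A m a b * A n a y

omit [Fintype μ] [DecidableEq μ] in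
theorem Car.adj_pair (m : μ) (x y : E) :
    ⟪C.pairCre A m x, y⟫_𝕜 = ⟪x, C.pair A m y⟫_𝕜 := by
  simp [Car.pair, Car.pairCre, sum_inner, inner_sum, inner_smul_left, inner_smul_right, C.adj]

omit [DecidableEq μ] in
theorem Car.inner_ham (x y : E) :
    ⟪x, C.ham A y⟫_𝕜 = ∑ m, ⟪C.pair A m x, C.pair A m y⟫_𝕜 := by
  simp only [Car.ham, LinearMap.sum_apply, inner_sum, Module.End.mul_apply]
  refine Finset.sum_congr rfl fun m _ => ?_
  rw [← inner_conj_symm, C.adj_pair, inner_conj_symm]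

omit [DecidableEq μ] in
theorem Car.ham_symmetric : LinearMap.IsSymmetric (C.ham A) := by
  intro x y
  rw [← inner_conj_symm, C.inner_ham, C.inner_ham, map_sum]
  simp [inner_conj_symm]

omit [DecidableEq μ] in
theorem Car.form_ham (x : E) : re ⟪x, C.ham A x⟫_𝕜 = ∑ m, ‖C.pair A m x‖ ^ 2 := by
  simp [C.inner_ham]

/-- Interchanging the two pairs of a fourfold sum. -/
theorem sum_pairs_comm {α M : Type*} [Fintype α] [AddCommMonoid M] (f : α → α → α → α → M) :
    ∑ x, ∑ y, ∑ a, ∑ b, f a b x y = ∑ a, ∑ b, ∑ x, ∑ y, f a b x y := by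
  rw [Finset.sum_comm_cycle]
  refine Finset.sum_congr rfl fun a _ => ?_
  rw [Finset.sum_comm_cycle]

omit [Fintype μ] [DecidableEq μ] in
theorem Car.pair_comm (m n : μ) : C.pair A m * C.pair A n = C.pair A n * C.pair A m := by
  have key : ∀ a b x y, C.ann b * C.ann a * (C.ann y * C.ann x) =
      C.ann y * C.ann x * (C.ann b * C.ann a) := by
    intro a b x y
    have step : ∀ p q r, C.ann p * C.ann q * C.ann r = C.ann r * (C.ann p * C.ann q) := by
      intro p q r
      rw [mul_assoc, C.anti q r, mul_neg, ← mul_assoc, C.anti p r, neg_mul, neg_neg, mul_assoc]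
    rw [← mul_assoc, step, mul_assoc, step, ← mul_assoc]
  simp only [Car.pair, Finset.sum_mul]
  simp only [Finset.mul_sum, smul_mul_assoc, mul_smul_comm, smul_smul]
  rw [← sum_pairs_comm]
  refine Finset.sum_congr rfl fun x _ => Finset.sum_congr rfl fun y _ =>
    Finset.sum_congr rfl fun a _ => Finset.sum_congr rfl fun b _ => ?_
  rw [key, mul_comm]

omit [Fintype ι] in
theorem Car.four (a b x y : ι) :
    C.ann b * C.ann a * (C.cre x * C.cre y) =
      (if a = x then if b = y then 1 else 0 else 0) - (if a = y then if b = x then 1 else 0 else 0)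
      - (if a = x then C.cre y * C.ann b else 0) + (if a = y then C.cre x * C.ann b else 0)
      + (if b = x then C.cre y * C.ann a else 0) - (if b = y then C.cre x * C.ann a else 0)
      + C.cre x * C.cre y * (C.ann b * C.ann a) := by
  have h : ∀ p q, C.ann p * C.cre q = (if p = q then 1 else 0) - C.cre q * C.ann p :=
    fun p q => eq_sub_of_add_eq (C.mix p q)
  have e1 : C.ann b * C.ann a * (C.cre x * C.cre y) =
      C.ann b * (C.ann a * C.cre x) * C.cre y := by noncomm_ring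
  rw [e1, h a x]
  have e2 : C.ann b * ((if a = x then (1 : Module.End 𝕜 E) else 0) - C.cre x * C.ann a) * C.cre y
      = (if a = x then C.ann b * C.cre y else 0)
        - C.ann b * C.cre x * (C.ann a * C.cre y) := by
    split_ifs <;> noncomm_ring
  rw [e2, h b y, h b x, h a y]
  have e3 : ((if b = x then (1 : Module.End 𝕜 E) else 0) - C.cre x * C.ann b) *
      ((if a = y then (1 : Module.End 𝕜 E) else 0) - C.cre y * C.ann a) =
      (if a = y then if b = x then 1 else 0 else 0) - (if b = x then C.cre y * C.ann a else 0)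
      - (if a = y then C.cre x * C.ann b else 0) + C.cre x * (C.ann b * C.cre y) * C.ann a := by
    split_ifs <;> noncomm_ring
  rw [e3, h b y]
  split_ifs <;> noncomm_ring

omit [Fintype μ] in
theorem Car.comm_pair (hA : ∀ m a b, A m a b = -A m b a)
    (hG : ∀ m n, 2 * ∑ a, ∑ b, A m a b * A n a b = if m = n then 1 else 0) (m n : μ) :
    C.pair A m * C.pairCre A n = (if m = n then 1 else 0)
      - (∑ y, ∑ b, (Kk A m n y b : 𝕜) • (C.cre y * C.ann b))
      + C.pairCre A n * C.pair A m := by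
  have hexp : C.pair A m * C.pairCre A n = ∑ a, ∑ b, ∑ x, ∑ y,
      ((A m a b : 𝕜) * (A n x y : 𝕜)) • (C.ann b * C.ann a * (C.cre x * C.cre y)) := by
    simp only [Car.pair, Car.pairCre, Finset.sum_mul]
    simp only [Finset.mul_sum, smul_mul_assoc, mul_smul_comm, smul_smul]
    simp only [mul_comm ((A m _ _ : ℝ) : 𝕜)]
  have hprod : C.pairCre A n * C.pair A m = ∑ a, ∑ b, ∑ x, ∑ y,
      ((A m a b : 𝕜) * (A n x y : 𝕜)) • (C.cre x * C.cre y * (C.ann b * C.ann a)) := by
    simp only [Car.pair, Car.pairCre, Finset.sum_mul]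
    simp only [Finset.mul_sum, smul_mul_assoc, mul_smul_comm, smul_smul]
    rw [← sum_pairs_comm]
  rw [hexp, hprod]
  simp only [C.four, smul_add, smul_sub, Finset.sum_add_distrib, Finset.sum_sub_distrib, smul_ite,
    smul_zero, Finset.sum_ite_eq, Finset.mem_univ, if_true, Finset.sum_ite_irrel,
    Finset.sum_const_zero]
  have hAn : ∀ a b, (A n b a : 𝕜) = -(A n a b : 𝕜) := fun a b => by
    rw [hA n b a]; push_cast; ring
  have hAm : ∀ a b, (A m b a : 𝕜) = -(A m a b : 𝕜) := fun a b => by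
    rw [hA m b a]; push_cast; ring
  have t1 : ∀ F : ι → ι → Module.End 𝕜 E,
      (∑ a, ∑ b, ∑ y, ((A m a b : 𝕜) * (A n a y : 𝕜)) • F y b) =
        ∑ y, ∑ b, (∑ a, (A m a b : 𝕜) * (A n a y : 𝕜)) • F y b := by
    intro F
    simp only [Finset.sum_smul]
    rw [Finset.sum_comm_cycle]
    exact Finset.sum_congr rfl fun y _ => Finset.sum_comm
  have c0 : (∑ a, ∑ b, ((A m a b : 𝕜) * (A n a b : 𝕜)) • (1 : Module.End 𝕜 E))
      - (∑ a, ∑ b, ((A m a b : 𝕜) * (A n b a : 𝕜)) • (1 : Module.End 𝕜 E))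
      = if m = n then 1 else 0 := by
    rw [show (∑ a, ∑ b, ((A m a b : 𝕜) * (A n b a : 𝕜)) • (1 : Module.End 𝕜 E)) =
      -∑ a, ∑ b, ((A m a b : 𝕜) * (A n a b : 𝕜)) • (1 : Module.End 𝕜 E) by
        simp only [← Finset.sum_neg_distrib]
        refine Finset.sum_congr rfl fun a _ => Finset.sum_congr rfl fun b _ => ?_
        rw [hAn a b, mul_neg, neg_smul]]
    simp only [sub_neg_eq_add, ← Finset.sum_smul, ← add_smul]
    rw [← two_mul]
    have h2 : (2 * ∑ a, ∑ b, (A m a b : 𝕜) * (A n a b : 𝕜)) = if m = n then 1 else 0 := by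
      have h3 := congrArg (fun r : ℝ => (r : 𝕜)) (hG m n)
      rcases eq_or_ne m n with h | h <;> simp only [h, if_true, if_false] at h3 ⊢ <;> push_cast at h3 <;> exact h3
    rw [h2]
    split_ifs <;> simp
  rw [← c0]
  have p2 : (∑ a, ∑ b, ∑ x, ((A m a b : 𝕜) * (A n x a : 𝕜)) • (C.cre x * C.ann b)) =
      -∑ y, ∑ b, (∑ a, (A m a b : 𝕜) * (A n a y : 𝕜)) • (C.cre y * C.ann b) := by
    rw [← t1]
    simp only [← Finset.sum_neg_distrib]
    refine Finset.sum_congr rfl fun a _ => Finset.sum_congr rfl fun b _ =>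
      Finset.sum_congr rfl fun x _ => ?_
    rw [hAn a x, mul_neg, neg_smul]
  have p3 : (∑ a, ∑ b, ∑ y, ((A m a b : 𝕜) * (A n b y : 𝕜)) • (C.cre y * C.ann a)) =
      -∑ y, ∑ b, (∑ a, (A m a b : 𝕜) * (A n a y : 𝕜)) • (C.cre y * C.ann b) := by
    rw [← t1, Finset.sum_comm]
    simp only [← Finset.sum_neg_distrib]
    refine Finset.sum_congr rfl fun b _ => Finset.sum_congr rfl fun a _ =>
      Finset.sum_congr rfl fun y _ => ?_
    rw [hAm b a, neg_mul, neg_smul]
  have p4 : (∑ a, ∑ b, ∑ x, ((A m a b : 𝕜) * (A n x b : 𝕜)) • (C.cre x * C.ann a)) =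
      ∑ y, ∑ b, (∑ a, (A m a b : 𝕜) * (A n a y : 𝕜)) • (C.cre y * C.ann b) := by
    rw [← t1, Finset.sum_comm]
    refine Finset.sum_congr rfl fun b _ => Finset.sum_congr rfl fun a _ =>
      Finset.sum_congr rfl fun y _ => ?_
    rw [hAm b a, hAn b y, neg_mul, mul_neg, neg_neg]
  rw [t1, p2, p3, p4]
  have hK : ∀ y b, ((Kk A m n y b : ℝ) : 𝕜) = 4 * ∑ a, (A m a b : 𝕜) * (A n a y : 𝕜) := by
    intro y b
    simp only [Kk]
    push_cast
    rfl
  simp only [hK, mul_smul, ← Finset.smul_sum]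
  module

omit [DecidableEq μ] in
theorem Car.norm_ham_sq [DecidableEq μ] (hA : ∀ m a b, A m a b = -A m b a)
    (hG : ∀ m n, 2 * ∑ a, ∑ b, A m a b * A n a b = if m = n then 1 else 0) (ψ : E) :
    ‖C.ham A ψ‖ ^ 2 = (∑ m, ∑ n, ‖C.pair A n (C.pair A m ψ)‖ ^ 2) + (∑ m, ‖C.pair A m ψ‖ ^ 2)
      - re (∑ m, ∑ n, ∑ y, ∑ b, (Kk A m n y b : 𝕜) *
          ⟪C.ann y (C.pair A m ψ), C.ann b (C.pair A n ψ)⟫_𝕜) := by
  have hd : ∀ m, C.pair A m (C.ham A ψ) = ∑ n, ((if m = n then C.pair A n ψ else 0)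
      - (∑ y, ∑ b, (Kk A m n y b : 𝕜) • C.cre y (C.ann b (C.pair A n ψ)))
      + C.pairCre A n (C.pair A n (C.pair A m ψ))) := by
    intro m
    simp only [Car.ham, LinearMap.sum_apply, map_sum, Module.End.mul_apply]
    refine Finset.sum_congr rfl fun n _ => ?_
    rw [← Module.End.mul_apply (C.pair A m) (C.pairCre A n), C.comm_pair A hA hG]
    rw [← Module.End.mul_apply (C.pair A n) (C.pair A m), ← C.pair_comm A m n]
    split_ifs <;>
      simp [LinearMap.add_apply, LinearMap.sub_apply, LinearMap.sum_apply]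
  have hin : ∀ (y : ι) (u v : E), ⟪u, C.cre y v⟫_𝕜 = ⟪C.ann y u, v⟫_𝕜 := fun y u v => by
    rw [← inner_conj_symm, C.adj, inner_conj_symm]
  have hin2 : ∀ (k : μ) (u v : E), ⟪u, C.pairCre A k v⟫_𝕜 = ⟪C.pair A k u, v⟫_𝕜 := fun k u v => by
    rw [← inner_conj_symm, C.adj_pair, inner_conj_symm]
  have hsq : ‖C.ham A ψ‖ ^ 2 = re (∑ m, ⟪C.pair A m ψ, C.pair A m (C.ham A ψ)⟫_𝕜) := by
    rw [← C.inner_ham, ← C.ham_symmetric A ψ, inner_self_eq_norm_sq]
  rw [hsq]
  simp only [hd, inner_sum, inner_add_right, inner_sub_right, inner_smul_right,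
    Finset.sum_add_distrib, Finset.sum_sub_distrib, map_add, map_sub, hin, hin2,
    Finset.sum_ite_eq, Finset.mem_univ, if_true]
  simp only [map_sum, inner_self_eq_norm_sq]
  ring

/-- The square bound from a one-body bound: `W` agrees with the commutator coefficients on the
vectors that occur, and `W` is at most `c` on families from `S`. -/
theorem Car.gap_bound (hA : ∀ m a b, A m a b = -A m b a)
    (hG : ∀ m n, 2 * ∑ a, ∑ b, A m a b * A n a b = if m = n then 1 else 0)
    (W : μ → μ → ι → ι → ℝ) (c : ℝ) (ψ : E)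
    (hW : re (∑ m, ∑ n, ∑ y, ∑ b, ((W m n y b - Kk A m n y b : ℝ) : 𝕜) *
        ⟪C.ann y (C.pair A m ψ), C.ann b (C.pair A n ψ)⟫_𝕜) = 0)
    (hc : re (∑ m, ∑ n, ∑ y, ∑ b, (W m n y b : 𝕜) *
        ⟪C.ann y (C.pair A m ψ), C.ann b (C.pair A n ψ)⟫_𝕜) ≤ c * ∑ m, ‖C.pair A m ψ‖ ^ 2) :
    (1 - c) * re ⟪ψ, C.ham A ψ⟫_𝕜 ≤ ‖C.ham A ψ‖ ^ 2 := by
  rw [C.norm_ham_sq A hA hG, C.form_ham]
  have hY : 0 ≤ ∑ m, ∑ n, ‖C.pair A n (C.pair A m ψ)‖ ^ 2 := by positivity
  simp only [map_sub, sub_mul, Finset.sum_sub_distrib] at hW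
  linarith

end Vale.Agent.P359
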