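import Vale.Agent.P359.Defs

/-!
# P359: `proj1` is the orthogonal projection of `U_Q ⊗ U_Q` onto total spin `Q - 1`

The spin matrices of `U_Q` in the basis `e_a` (weight `Q/2 - a`), the square of the total spin of
two particles, and the fact that the fixed space of the symmetric idempotent `proj1` is its
eigenspace of eigenvalue `(Q - 1) Q`.
-/

open Finset Matrix
open scoped Kronecker

namespace Vale.Agent.P359

variable {Q : ℕ}

/-- `S⁻ e_b = √((b+1)(Q-b)) e_(b+1)`. -/
noncomputable def lowerOp (Q : ℕ) : Matrix (Fin (Q + 1)) (Fin (Q + 1)) ℝ :=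
  Matrix.of fun a b => if (a : ℕ) = b + 1 then Real.sqrt ((a : ℝ) * ((Q : ℝ) + 1 - a)) else 0

/-- `S⁺`, the transpose of `S⁻`. -/
noncomputable def raiseOp (Q : ℕ) : Matrix (Fin (Q + 1)) (Fin (Q + 1)) ℝ := (lowerOp Q)ᵀ

/-- `S^z`. -/
noncomputable def weightOp (Q : ℕ) : Matrix (Fin (Q + 1)) (Fin (Q + 1)) ℝ :=
  Matrix.diagonal fun a => (Q : ℝ) / 2 - a

/-- The action on a pair of particles. -/
noncomputable def pairAct (A : Matrix (Fin (Q + 1)) (Fin (Q + 1)) ℝ) :
    Matrix (Fin (Q + 1) × Fin (Q + 1)) (Fin (Q + 1) × Fin (Q + 1)) ℝ :=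
  A ⊗ₖ 1 + 1 ⊗ₖ A

/-- The square of the total spin of two particles. -/
noncomputable def totalSpinSq (Q : ℕ) :
    Matrix (Fin (Q + 1) × Fin (Q + 1)) (Fin (Q + 1) × Fin (Q + 1)) ℝ :=
  pairAct (weightOp Q) * pairAct (weightOp Q) + (1 / 2 : ℝ) •
    (pairAct (raiseOp Q) * pairAct (lowerOp Q) + pairAct (lowerOp Q) * pairAct (raiseOp Q))

/-- `proj1` as a matrix. -/
noncomputable def projMatrix (Q : ℕ) :
    Matrix (Fin (Q + 1) × Fin (Q + 1)) (Fin (Q + 1) × Fin (Q + 1)) ℝ :=
  Matrix.of fun p q => proj1 Q p.1 p.2 q.1 q.2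

/-- The successor index, capped at `Q`. -/
def succIdx (a : Fin (Q + 1)) : Fin (Q + 1) := ⟨min ((a : ℕ) + 1) Q, by omega⟩

/-- The predecessor index, capped at `0`. -/
def predIdx (a : Fin (Q + 1)) : Fin (Q + 1) := ⟨(a : ℕ) - 1, by omega⟩

lemma sum_lower (b : Fin (Q + 1)) (g : Fin (Q + 1) → ℝ) :
    ∑ d, lowerOp Q b d * g d = Real.sqrt ((b : ℝ) * ((Q : ℝ) + 1 - b)) * g (predIdx b) := by
  rw [Finset.sum_eq_single (predIdx b) (fun d _ hd => ?_) (by simp)]
  · rcases Nat.eq_zero_or_pos (b : ℕ) with h | h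
    · simp [lowerOp, predIdx, h]
    · rw [lowerOp, Matrix.of_apply, if_pos (show (b : ℕ) = (predIdx b : ℕ) + 1 by
        simp only [predIdx]; omega)]
  · rw [lowerOp, Matrix.of_apply, if_neg (fun h => hd (Fin.ext (by simp only [predIdx]; omega))),
      zero_mul]

lemma sum_raise (a : Fin (Q + 1)) (g : Fin (Q + 1) → ℝ) :
    ∑ c, raiseOp Q a c * g c = Real.sqrt (((a : ℝ) + 1) * ((Q : ℝ) - a)) * g (succIdx a) := by
  rw [Finset.sum_eq_single (succIdx a) (fun c _ hc => ?_) (by simp)]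
  · rcases Nat.lt_or_ge (a : ℕ) Q with h | h
    · have e : (succIdx a : ℕ) = (a : ℕ) + 1 := by simp only [succIdx]; omega
      rw [raiseOp, Matrix.transpose_apply, lowerOp, Matrix.of_apply, if_pos e, e]
      push_cast
      congr 2
      ring
    · have ha : (a : ℝ) = Q := by
        have := a.isLt
        exact_mod_cast (by omega : (a : ℕ) = Q)
      rw [raiseOp, Matrix.transpose_apply, lowerOp, Matrix.of_apply,
        if_neg (by simp only [succIdx]; omega), ha]
      simp
  · rw [raiseOp, Matrix.transpose_apply, lowerOp, Matrix.of_apply,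
      if_neg (fun h => hc (Fin.ext (by simp only [succIdx]; omega))), zero_mul]

/-- `S² = j(j+1)` on one particle. -/
lemma spinSq_single (Q : ℕ) :
    weightOp Q * weightOp Q + (1 / 2 : ℝ) • (raiseOp Q * lowerOp Q + lowerOp Q * raiseOp Q) =
      ((Q : ℝ) * (Q + 2) / 4) • 1 := by
  ext a c
  simp only [Matrix.add_apply, Matrix.smul_apply, smul_eq_mul]
  rw [weightOp, Matrix.diagonal_mul_diagonal, Matrix.mul_apply, Matrix.mul_apply, sum_raise,
    sum_lower, Matrix.diagonal_apply, Matrix.one_apply]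
  have ha := a.isLt
  have haQ : (a : ℝ) ≤ Q := by exact_mod_cast Nat.lt_succ_iff.1 ha
  by_cases h : a = c
  · subst h
    rw [if_pos rfl, if_pos rfl]
    have e1 : Real.sqrt (((a : ℝ) + 1) * ((Q : ℝ) - a)) * lowerOp Q (succIdx a) a =
        ((a : ℝ) + 1) * ((Q : ℝ) - a) := by
      rcases Nat.lt_or_ge (a : ℕ) Q with h' | h'
      · have e : (succIdx a : ℕ) = (a : ℕ) + 1 := by simp only [succIdx]; omega
        rw [lowerOp, Matrix.of_apply, if_pos e, e]
        push_cast
        rw [show (Q : ℝ) + 1 - ((a : ℝ) + 1) = Q - a by ring]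
        exact Real.mul_self_sqrt (by nlinarith [(Nat.cast_nonneg a : (0 : ℝ) ≤ (a : ℕ))])
      · have : (a : ℝ) = Q := by exact_mod_cast (by omega : (a : ℕ) = Q)
        simp [this]
    have e2 : Real.sqrt ((a : ℝ) * ((Q : ℝ) + 1 - a)) * raiseOp Q (predIdx a) a =
        (a : ℝ) * ((Q : ℝ) + 1 - a) := by
      rw [raiseOp, Matrix.transpose_apply, lowerOp, Matrix.of_apply]
      rcases Nat.eq_zero_or_pos (a : ℕ) with h' | h'
      · simp [h']
      · rw [if_pos (show (a : ℕ) = (predIdx a : ℕ) + 1 by simp only [predIdx]; omega)]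
        exact Real.mul_self_sqrt (by nlinarith [(Nat.cast_nonneg a : (0 : ℝ) ≤ (a : ℕ))])
    rw [e1, e2]
    ring
  · have hac : (a : ℕ) ≠ c := fun h' => h (Fin.ext h')
    have e1 : Real.sqrt (((a : ℝ) + 1) * ((Q : ℝ) - a)) * lowerOp Q (succIdx a) c = 0 := by
      rcases Nat.lt_or_ge (a : ℕ) Q with h' | h'
      · rw [lowerOp, Matrix.of_apply, if_neg (by simp only [succIdx]; omega), mul_zero]
      · have : (a : ℝ) = Q := by exact_mod_cast (by omega : (a : ℕ) = Q)
        simp [this]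
    have e2 : Real.sqrt ((a : ℝ) * ((Q : ℝ) + 1 - a)) * raiseOp Q (predIdx a) c = 0 := by
      rw [raiseOp, Matrix.transpose_apply, lowerOp, Matrix.of_apply]
      rcases Nat.eq_zero_or_pos (a : ℕ) with h' | h'
      · simp [h']
      · rw [if_neg (by simp only [predIdx]; omega), mul_zero]
    rw [if_neg h, if_neg h, e1, e2]
    ring

lemma totalSpinSq_eq (Q : ℕ) : totalSpinSq Q = ((Q : ℝ) * (Q + 2) / 2) • 1 +
    (2 : ℝ) • (weightOp Q ⊗ₖ weightOp Q) + raiseOp Q ⊗ₖ lowerOp Q + lowerOp Q ⊗ₖ raiseOp Q := by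
  have hX := spinSq_single Q
  have h2 : ((Q : ℝ) * (Q + 2) / 2) • (1 : Matrix (Fin (Q + 1) × Fin (Q + 1))
      (Fin (Q + 1) × Fin (Q + 1)) ℝ) =
      (((Q : ℝ) * (Q + 2) / 4) • 1 : Matrix (Fin (Q + 1)) (Fin (Q + 1)) ℝ) ⊗ₖ 1 +
        1 ⊗ₖ (((Q : ℝ) * (Q + 2) / 4) • 1 : Matrix (Fin (Q + 1)) (Fin (Q + 1)) ℝ) := by
    rw [Matrix.smul_kronecker, Matrix.kronecker_smul, Matrix.one_kronecker_one, ← add_smul]
    congr 1
    ring
  rw [h2, ← hX]
  simp only [totalSpinSq, pairAct, add_mul, mul_add, ← Matrix.mul_kronecker_mul, one_mul, mul_one,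
    Matrix.add_kronecker, Matrix.kronecker_add, Matrix.smul_kronecker, Matrix.kronecker_smul,
    smul_add]
  module

/-- The action of the total spin squared, entry by entry. -/
lemma totalSpinSq_mulVec (ψ : Fin (Q + 1) × Fin (Q + 1) → ℝ) (a b : Fin (Q + 1)) :
    (totalSpinSq Q *ᵥ ψ) (a, b) =
      ((Q : ℝ) * (Q + 2) / 2 + 2 * ((Q : ℝ) / 2 - a) * ((Q : ℝ) / 2 - b)) * ψ (a, b) +
      Real.sqrt (((a : ℝ) + 1) * ((Q : ℝ) - a)) * Real.sqrt ((b : ℝ) * ((Q : ℝ) + 1 - b)) *
        ψ (succIdx a, predIdx b) +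
      Real.sqrt ((a : ℝ) * ((Q : ℝ) + 1 - a)) * Real.sqrt (((b : ℝ) + 1) * ((Q : ℝ) - b)) *
        ψ (predIdx a, succIdx b) := by
  rw [totalSpinSq_eq]
  simp only [Matrix.add_mulVec, Matrix.smul_mulVec, Matrix.one_mulVec, Pi.add_apply,
    Pi.smul_apply, smul_eq_mul]
  simp only [Matrix.mulVec, dotProduct, Fintype.sum_prod_type, Matrix.kroneckerMap_apply, mul_assoc,
    ← Finset.mul_sum, weightOp, Matrix.diagonal_apply]
  simp only [sum_raise, sum_lower, ite_mul, mul_ite, zero_mul, mul_zero, Finset.sum_ite_eq, mem_univ,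
    if_true]
  ring

/-- The pair state as a vector. -/
noncomputable def pairState (Q s : ℕ) : Fin (Q + 1) × Fin (Q + 1) → ℝ :=
  fun p => pairVec Q s p.1 p.2

lemma sqrt_choose_succ {a : ℕ} (ha : a < Q) :
    Real.sqrt (((a : ℝ) + 1) * ((Q : ℝ) - a)) * Real.sqrt (Q.choose (a + 1)) =
      ((Q : ℝ) - a) * Real.sqrt (Q.choose a) := by
  have hQa : (0 : ℝ) ≤ (Q : ℝ) - a := sub_nonneg.2 (by exact_mod_cast ha.le)
  rw [← Real.sqrt_mul (by positivity)]
  conv_rhs => rw [← Real.sqrt_sq hQa, ← Real.sqrt_mul (sq_nonneg _)]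
  congr 1
  have h := congrArg (Nat.cast : ℕ → ℝ) (Nat.choose_succ_right_eq Q a)
  push_cast [Nat.cast_sub ha.le] at h
  linear_combination ((Q : ℝ) - a) * h

lemma sqrt_choose_pred {a : ℕ} (ha : 0 < a) (haQ : a ≤ Q) :
    Real.sqrt ((a : ℝ) * ((Q : ℝ) + 1 - a)) * Real.sqrt (Q.choose (a - 1)) =
      (a : ℝ) * Real.sqrt (Q.choose a) := by
  obtain ⟨k, rfl⟩ : ∃ k, a = k + 1 := ⟨a - 1, by omega⟩
  simp only [Nat.add_sub_cancel]
  push_cast
  rw [show (Q : ℝ) + 1 - ((k : ℝ) + 1) = Q - k by ring]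
  have hk : (0 : ℝ) ≤ (Q : ℝ) - k := sub_nonneg.2 (by exact_mod_cast (by omega : k ≤ Q))
  rw [← Real.sqrt_mul (by positivity)]
  conv_rhs => rw [← Real.sqrt_sq (by positivity : (0 : ℝ) ≤ (k : ℝ) + 1),
    ← Real.sqrt_mul (sq_nonneg _)]
  congr 1
  have h := congrArg (Nat.cast : ℕ → ℝ) (Nat.choose_succ_right_eq Q k)
  push_cast [Nat.cast_sub (by omega : k ≤ Q)] at h
  linear_combination -((k : ℝ) + 1) * h

/-- The pair states have total spin `Q - 1`. -/
theorem totalSpinSq_pairState (Q s : ℕ) :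
    totalSpinSq Q *ᵥ pairState Q s = (((Q : ℝ) - 1) * Q) • pairState Q s := by
  funext p
  obtain ⟨a, b⟩ := p
  rw [totalSpinSq_mulVec]
  simp only [Pi.smul_apply, smul_eq_mul, pairState, pairVec]
  have ha := a.isLt
  have hb := b.isLt
  have hup : ∀ a b : Fin (Q + 1),
      Real.sqrt (((a : ℝ) + 1) * ((Q : ℝ) - a)) * Real.sqrt ((b : ℝ) * ((Q : ℝ) + 1 - b)) *
        Real.sqrt (Q.choose (succIdx a) * Q.choose (predIdx b)) =
      ((Q : ℝ) - a) * b * Real.sqrt (Q.choose a * Q.choose b) := by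
    intro a b
    have ha := a.isLt
    have hb := b.isLt
    rcases Nat.lt_or_ge (a : ℕ) Q with h1 | h1
    · rcases Nat.eq_zero_or_pos (b : ℕ) with h2 | h2
      · simp [h2]
      · rw [show (succIdx a : ℕ) = (a : ℕ) + 1 by simp only [succIdx]; omega,
          show (predIdx b : ℕ) = (b : ℕ) - 1 from rfl,
          Real.sqrt_mul (Nat.cast_nonneg (Q.choose ((a : ℕ) + 1))),
          Real.sqrt_mul (Nat.cast_nonneg (Q.choose a))]
        linear_combination
          Real.sqrt ((b : ℝ) * ((Q : ℝ) + 1 - b)) * Real.sqrt (Q.choose ((b : ℕ) - 1)) *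
            sqrt_choose_succ h1 +
          ((Q : ℝ) - a) * Real.sqrt (Q.choose a) * sqrt_choose_pred h2 (Nat.lt_succ_iff.1 hb)
    · have : (a : ℝ) = Q := by exact_mod_cast (by omega : (a : ℕ) = Q)
      simp [this]
  have hval : ∀ a b : Fin (Q + 1), (a : ℕ) < Q → 0 < (b : ℕ) →
      ((succIdx a : ℕ) + predIdx b = (a : ℕ) + b) ∧
      ((predIdx b : ℕ) : ℝ) - ((succIdx a : ℕ) : ℝ) = ((b : ℕ) : ℝ) - ((a : ℕ) : ℝ) - 2 := by
    intro a b h1 h2
    have e1 : (succIdx a : ℕ) = (a : ℕ) + 1 := by simp only [succIdx]; omega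
    have e2 : (predIdx b : ℕ) + 1 = b := by simp only [predIdx]; omega
    refine ⟨by omega, ?_⟩
    have e2' : ((predIdx b : ℕ) : ℝ) + 1 = ((b : ℕ) : ℝ) := by exact_mod_cast e2
    rw [e1]
    push_cast
    linarith
  have hterm : ∀ a b : Fin (Q + 1),
      Real.sqrt (((a : ℝ) + 1) * ((Q : ℝ) - a)) * Real.sqrt ((b : ℝ) * ((Q : ℝ) + 1 - b)) *
        (if (succIdx a : ℕ) + predIdx b = s then
          (((predIdx b : ℕ) : ℝ) - ((succIdx a : ℕ) : ℝ)) *
            Real.sqrt (Q.choose (succIdx a) * Q.choose (predIdx b)) else 0) =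
      if (a : ℕ) + b = s then
        ((Q : ℝ) - a) * b * ((b : ℝ) - a - 2) * Real.sqrt (Q.choose a * Q.choose b) else 0 := by
    intro a b
    have ha := a.isLt
    rcases Nat.lt_or_ge (a : ℕ) Q with h1 | h1
    · rcases Nat.eq_zero_or_pos (b : ℕ) with h2 | h2
      · simp [h2]
      · obtain ⟨e1, e2⟩ := hval a b h1 h2
        rw [e1, e2]
        split_ifs
        · linear_combination ((b : ℝ) - a - 2) * hup a b
        · exact mul_zero _
    · have : (a : ℝ) = Q := by exact_mod_cast (by omega : (a : ℕ) = Q)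
      simp [this]
  have hflip : Real.sqrt ((a : ℝ) * ((Q : ℝ) + 1 - a)) * Real.sqrt (((b : ℝ) + 1) * ((Q : ℝ) - b)) *
      (if (predIdx a : ℕ) + succIdx b = s then
        (((succIdx b : ℕ) : ℝ) - ((predIdx a : ℕ) : ℝ)) *
          Real.sqrt (Q.choose (predIdx a) * Q.choose (succIdx b)) else 0) =
      if (a : ℕ) + b = s then
        (a : ℝ) * ((Q : ℝ) - b) * ((b : ℝ) - a + 2) * Real.sqrt (Q.choose a * Q.choose b) else 0 := by
    have h := hterm b a
    rw [add_comm (succIdx b : ℕ) (predIdx a), add_comm (b : ℕ) a,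
      mul_comm (Q.choose (succIdx b) : ℝ), mul_comm (Q.choose b : ℝ)] at h
    split_ifs at h ⊢ <;> linear_combination -h
  rw [hterm a b, hflip]
  split_ifs <;> ring

/-- The first index on the antidiagonal of `p`. -/
def firstOn (Q : ℕ) (p : Fin (Q + 1) × Fin (Q + 1)) : Prop := (p.1 : ℕ) = 0 ∨ (p.2 : ℕ) = Q

/-- An eigenvector is determined by the first entry on each antidiagonal. -/
lemma eigen_eq_zero {ψ : Fin (Q + 1) × Fin (Q + 1) → ℝ}
    (h : totalSpinSq Q *ᵥ ψ = (((Q : ℝ) - 1) * Q) • ψ) (h0 : ∀ p, firstOn Q p → ψ p = 0) :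
    ψ = 0 := by
  suffices key : ∀ n, ∀ p : Fin (Q + 1) × Fin (Q + 1), (p.1 : ℕ) = n → ψ p = 0 from
    funext fun p => key _ p rfl
  intro n
  induction n using Nat.strong_induction_on with
  | _ n ih =>
    intro p hp
    obtain ⟨a, b⟩ := p
    simp only at hp
    by_cases hf : firstOn Q (a, b)
    · exact h0 _ hf
    simp only [firstOn, not_or] at hf
    have ha := a.isLt
    have hb := b.isLt
    have e := congrFun h (predIdx a, succIdx b)
    rw [totalSpinSq_mulVec] at e
    have hA : (predIdx a : ℕ) + 1 = a := by simp only [predIdx]; omega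
    have hB : (succIdx b : ℕ) = (b : ℕ) + 1 := by simp only [succIdx]; omega
    have z1 : ψ (predIdx a, succIdx b) = 0 := ih (predIdx a : ℕ) (by omega) _ rfl
    have z2 : ψ (predIdx (predIdx a), succIdx (succIdx b)) = 0 := ih (predIdx (predIdx a) : ℕ)
      (by simp only [predIdx]; omega) _ rfl
    have back : (succIdx (predIdx a), predIdx (succIdx b)) = (a, b) := by
      refine Prod.ext (Fin.ext ?_) (Fin.ext ?_)
      · simp only [succIdx, predIdx]; omega
      · simp only [succIdx, predIdx]; omega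
    rw [back, Pi.smul_apply, z1, z2] at e
    simp only [smul_eq_mul, mul_zero, add_zero, zero_add] at e
    have hA' : ((predIdx a : ℕ) : ℝ) + 1 = ((a : ℕ) : ℝ) := by exact_mod_cast hA
    have hB' : ((succIdx b : ℕ) : ℝ) = ((b : ℕ) : ℝ) + 1 := by exact_mod_cast hB
    have hbQ : ((b : ℕ) : ℝ) + 1 ≤ Q := by exact_mod_cast (by omega : (b : ℕ) + 1 ≤ Q)
    have haQ : ((a : ℕ) : ℝ) ≤ Q := by exact_mod_cast Nat.lt_succ_iff.1 ha
    refine (mul_eq_zero.1 e).resolve_left (mul_ne_zero ?_ ?_)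
    · refine Real.sqrt_ne_zero'.2 ?_
      rw [show ((predIdx a : ℕ) : ℝ) = (a : ℕ) - 1 by linarith]
      have : (1 : ℝ) ≤ (a : ℕ) := by exact_mod_cast Nat.one_le_iff_ne_zero.2 hf.1
      exact mul_pos (by linarith) (by linarith)
    · refine Real.sqrt_ne_zero'.2 ?_
      rw [hB']
      exact mul_pos (by positivity) (by linarith)

lemma pairState_orth (Q s t : ℕ) :
    ∑ p, pairState Q s p * pairState Q t p = if s = t then pairZ Q s else 0 := by
  rw [Fintype.sum_prod_type]
  split_ifs with h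
  · subst h
    simp [pairState, pairZ, pow_two]
  · refine Finset.sum_eq_zero fun a _ => Finset.sum_eq_zero fun b _ => ?_
    simp only [pairState, pairVec]
    split_ifs with h1 h2 <;> first | omega | simp

lemma projMatrix_mulVec (ψ : Fin (Q + 1) × Fin (Q + 1) → ℝ) : projMatrix Q *ᵥ ψ =
    ∑ s ∈ range (2 * Q + 1), ((∑ q, pairState Q s q * ψ q) / pairZ Q s) • pairState Q s := by
  funext p
  simp only [Matrix.mulVec, dotProduct, projMatrix, Matrix.of_apply, proj1, Finset.sum_mul,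
    Finset.sum_apply, Pi.smul_apply, smul_eq_mul, pairState, Finset.sum_div]
  rw [Finset.sum_comm]
  exact Finset.sum_congr rfl fun s _ => Finset.sum_congr rfl fun q _ => by ring

lemma projMatrix_pairState (Q s : ℕ) : projMatrix Q *ᵥ pairState Q s = pairState Q s := by
  by_cases hs : s ∈ range (2 * Q + 1)
  · rw [projMatrix_mulVec, Finset.sum_eq_single s (fun t _ ht => by simp [pairState_orth, ht])
      (fun h => absurd hs h), pairState_orth, if_pos rfl]
    by_cases hz : pairZ Q s = 0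
    · have h : pairState Q s = 0 := by
        funext p
        have h1 := (pairState_orth Q s s).trans (if_pos rfl)
        rw [hz] at h1
        have := (Finset.sum_eq_zero_iff_of_nonneg fun q _ => mul_self_nonneg (pairState Q s q)).1 h1 p
          (mem_univ p)
        exact mul_self_eq_zero.1 this
      simp [h]
    · rw [div_self hz, one_smul]
  · have h : pairState Q s = 0 := funext fun p => by
      have := p.1.isLt
      have := p.2.isLt
      simp only [mem_range] at hs
      simp [pairState, pairVec, show (p.1 : ℕ) + p.2 ≠ s by omega]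
    rw [h, Matrix.mulVec_zero]

/-- The fixed space of `proj1` is the total spin `Q - 1` eigenspace. -/
theorem projMatrix_mulVec_eq_self_iff (hQ : 0 < Q) (ψ : Fin (Q + 1) × Fin (Q + 1) → ℝ) :
    projMatrix Q *ᵥ ψ = ψ ↔ totalSpinSq Q *ᵥ ψ = (((Q : ℝ) - 1) * Q) • ψ := by
  constructor
  · intro h
    rw [← h, projMatrix_mulVec, Matrix.mulVec_sum, Finset.smul_sum]
    refine Finset.sum_congr rfl fun s _ => ?_
    rw [Matrix.mulVec_smul, totalSpinSq_pairState, smul_comm]
  · intro h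
    -- the combination of pair states with the same first entries
    let first : ℕ → Fin (Q + 1) × Fin (Q + 1) := fun s =>
      (⟨min (s - Q) Q, by omega⟩, ⟨min s Q, by omega⟩)
    let φ : Fin (Q + 1) × Fin (Q + 1) → ℝ :=
      ∑ s ∈ range (2 * Q + 1), (ψ (first s) / pairState Q s (first s)) • pairState Q s
    have hPφ : projMatrix Q *ᵥ φ = φ := by
      simp only [φ, Matrix.mulVec_sum, Matrix.mulVec_smul, projMatrix_pairState]
    suffices hφ : ψ - φ = 0 by rw [sub_eq_zero.1 hφ, hPφ]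
    refine eigen_eq_zero ?_ fun p hp => ?_
    · simp only [φ, Matrix.mulVec_sub, Matrix.mulVec_sum, Matrix.mulVec_smul,
        totalSpinSq_pairState, h, smul_sub, Finset.smul_sum]
      exact congrArg _ (Finset.sum_congr rfl fun s _ => smul_comm _ _ _)
    · obtain ⟨a, b⟩ := p
      have ha := a.isLt
      have hb := b.isLt
      simp only [firstOn] at hp
      have hf : first ((a : ℕ) + b) = (a, b) := by
        refine Prod.ext (Fin.ext ?_) (Fin.ext ?_) <;> simp only [first] <;> omega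
      rw [Pi.sub_apply, sub_eq_zero]
      simp only [φ, Finset.sum_apply, Pi.smul_apply, smul_eq_mul]
      rw [Finset.sum_eq_single ((a : ℕ) + b) (fun s _ hs => by simp [pairState, pairVec, hs.symm])
        (fun h' => absurd (mem_range.2 (by omega)) h'), hf]
      by_cases hz : pairState Q ((a : ℕ) + b) (a, b) = 0
      · rw [hz, mul_zero]
        have hab : (b : ℝ) = (a : ℝ) := by
          simp only [pairState, pairVec, if_true, mul_eq_zero, sub_eq_zero] at hz
          refine hz.resolve_right (Real.sqrt_ne_zero'.2 (mul_pos ?_ ?_))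
          · exact_mod_cast Nat.choose_pos (Nat.lt_succ_iff.1 ha)
          · exact_mod_cast Nat.choose_pos (Nat.lt_succ_iff.1 hb)
        have hab' : (b : ℕ) = a := by exact_mod_cast hab
        have e := congrFun h (a, b)
        rw [totalSpinSq_mulVec, Pi.smul_apply, smul_eq_mul] at e
        rcases hp with hp | hp
        · have hA : ((a : ℕ) : ℝ) = 0 := by exact_mod_cast hp
          simp only [hab, hA, zero_mul, mul_zero, Real.sqrt_zero, add_zero] at e
          have hQ' : (0 : ℝ) < Q := by exact_mod_cast hQ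
          nlinarith [e, hQ']
        · have hA : ((a : ℕ) : ℝ) = Q := by exact_mod_cast hab'.symm.trans hp
          simp only [hab, hA, sub_self, zero_mul, mul_zero, Real.sqrt_zero, add_zero] at e
          have hQ' : (0 : ℝ) < Q := by exact_mod_cast hQ
          nlinarith [e, hQ']
      · rw [div_mul_cancel₀ _ hz]

/-- `proj1` is symmetric. -/
theorem projMatrix_transpose (Q : ℕ) : (projMatrix Q)ᵀ = projMatrix Q := by
  ext p q
  simp only [Matrix.transpose_apply, projMatrix, Matrix.of_apply, proj1]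
  exact Finset.sum_congr rfl fun s _ => by ring

/-- `proj1` is idempotent. -/
theorem projMatrix_mul_self (Q : ℕ) : projMatrix Q * projMatrix Q = projMatrix Q := by
  refine Matrix.toLin'.injective (LinearMap.ext fun ψ => ?_)
  simp only [Matrix.toLin'_apply]
  rw [← Matrix.mulVec_mulVec, projMatrix_mulVec ψ, Matrix.mulVec_sum]
  simp only [Matrix.mulVec_smul, projMatrix_pairState]

end Vale.Agent.P359
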