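import Vale.Agent.P359.Psd

/-!
# P359: positive definiteness of a rational residual, decided in the kernel, and stable

`R` is the residual at `eps = 0` as a rational literal, `d` a list of positive weights and `B` an
integer factor: `checkQ` asks that `d R d - B Bᵀ` be strictly diagonally dominant. The weights absorb
the very different sizes of the unnormalised basis vectors. Then for coefficients tending to `R` the
form is eventually nonnegative on every family of vectors. Decide with `decide +kernel`, one residual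
per theorem.
-/

open Finset Filter RCLike
open scoped InnerProductSpace Topology

namespace Vale.Agent.P359.CertCheck

/-- Entry of a rational matrix given by its rows. -/
def rEnt (R : List (List ℚ)) (i j : ℕ) : ℚ := (R.getD i []).getD j 0

/-- Entry of `d R d - B Bᵀ`. -/
def sEnt (R : List (List ℚ)) (d : List ℚ) (B : List (List ℤ)) (i j : ℕ) : ℚ :=
  d.getD i 0 * rEnt R i j * d.getD j 0 - (Psd.dot (B.getD i []) (B.getD j []) : ℚ)

/-- One row of the test. -/
def checkRowQ (n : ℕ) (R : List (List ℚ)) (d : List ℚ) (B : List (List ℤ)) (i : ℕ) : Bool :=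
  decide (0 < d.getD i 0) && decide (((List.range n).map fun j =>
    if j = i then 0 else (|sEnt R d B i j| + |sEnt R d B j i|)).sum < 2 * sEnt R d B i i)

/-- The checker. -/
def checkQ (n : ℕ) (R : List (List ℚ)) (d : List ℚ) (B : List (List ℤ)) : Bool :=
  (List.range n).all (checkRowQ n R d B)

variable {n : ℕ} {R : List (List ℚ)} {d : List ℚ} {B : List (List ℤ)}

theorem weight_pos (h : checkQ n R d B = true) (i : Fin n) : (0 : ℝ) < (d.getD i 0 : ℚ) := by
  have hrow := List.all_eq_true.1 h (i : ℕ) (List.mem_range.2 i.2)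
  rw [checkRowQ, Bool.and_eq_true, decide_eq_true_eq] at hrow
  exact_mod_cast hrow.1

/-- A checked residual has a strict certificate after the scaling. -/
theorem cert_of_checkQ (h : checkQ n R d B = true) :
    ∃ (m : ℕ) (B' : Fin n → Fin m → ℝ), Psd.Cert
      (fun i j : Fin n => ((d.getD i 0 : ℚ) : ℝ) * (rEnt R i j : ℚ) * (d.getD j 0 : ℚ)) B' := by
  refine ⟨(B.map List.length).sum, fun i k => ((B.getD i []).getD k 0 : ℤ), fun i => ?_⟩
  have hr : ∀ a b : Fin n, ((d.getD a 0 : ℚ) : ℝ) * (rEnt R a b : ℚ) * (d.getD b 0 : ℚ) -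
      ∑ k : Fin (B.map List.length).sum, (((B.getD a []).getD k 0 : ℤ) : ℝ) * ((B.getD b []).getD k 0 : ℤ) =
      ((sEnt R d B a b : ℚ) : ℝ) := by
    intro a b
    rw [sEnt, Psd.dot_eq _ _ _ (Psd.length_getD_le B a)]
    push_cast
    rfl
  have hrow := List.all_eq_true.1 h (i : ℕ) (List.mem_range.2 i.2)
  rw [checkRowQ, Bool.and_eq_true, decide_eq_true_eq, decide_eq_true_eq,
    ← List.sum_toFinset _ List.nodup_range, List.toFinset_range] at hrow
  have hsum : ∑ j ∈ univ.erase i, (|sEnt R d B i j| + |sEnt R d B j i|) < 2 * sEnt R d B i i := by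
    refine lt_of_eq_of_lt ?_ hrow.2
    rw [← Fin.sum_univ_eq_sum_range
      (fun j => if j = (i : ℕ) then 0 else (|sEnt R d B i j| + |sEnt R d B j i|))]
    rw [← add_sum_erase _ _ (mem_univ i), if_pos rfl, zero_add]
    exact sum_congr rfl fun j hj => by rw [if_neg fun e => (mem_erase.1 hj).1 (Fin.ext e)]
  simp only [hr]
  exact_mod_cast hsum

variable {𝕜 E : Type*} [RCLike 𝕜] [NormedAddCommGroup E] [InnerProductSpace 𝕜 E]

/-- Coefficients tending to a checked residual eventually give a nonnegative form. -/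
theorem eventually_form_nonneg (h : checkQ n R d B = true) {α : Type*} {l : Filter α}
    {F : α → Fin n → Fin n → ℝ} (hF : ∀ i j, Tendsto (fun a => F a i j) l (𝓝 ((rEnt R i j : ℚ) : ℝ))) :
    ∀ᶠ a in l, ∀ φ : Fin n → E, 0 ≤ Psd.form (𝕜 := 𝕜) (F a) φ := by
  obtain ⟨m, B', hB⟩ := cert_of_checkQ h
  set w : Fin n → ℝ := fun i => ((d.getD i 0 : ℚ) : ℝ)
  have hev := hB.eventually_form_nonneg (𝕜 := 𝕜) (E := E) (F := fun a i j => w i * F a i j * w j)
    fun i j => (tendsto_const_nhds.mul (hF i j)).mul tendsto_const_nhds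
  refine hev.mono fun a ha φ => (ha fun i => (((w i)⁻¹ : ℝ) : 𝕜) • φ i).trans_eq ?_
  refine sum_congr rfl fun i _ => sum_congr rfl fun j _ => ?_
  have hi : w i ≠ 0 := (weight_pos h i).ne'
  have hj : w j ≠ 0 := (weight_pos h j).ne'
  simp only [inner_smul_left, inner_smul_right, conj_ofReal, re_ofReal_mul]
  field_simp

/-- The same for `eps = 1/Q` and coefficients continuous at `0`. -/
theorem eventually_form_nonneg_nat (h : checkQ n R d B = true) {F : ℝ → Fin n → Fin n → ℝ}
    (hc : ∀ i j, ContinuousAt (fun e => F e i j) 0) (h0 : ∀ i j, F 0 i j = ((rEnt R i j : ℚ) : ℝ)) :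
    ∀ᶠ Q : ℕ in atTop, ∀ φ : Fin n → E, 0 ≤ Psd.form (𝕜 := 𝕜) (F (1 / (Q : ℝ))) φ :=
  eventually_form_nonneg h fun i j => by
    rw [← h0 i j]
    exact (hc i j).tendsto.comp tendsto_one_div_atTop_nhds_zero_nat

/-- A coefficient positive at `eps = 0` is eventually nonnegative. -/
theorem eventually_nonneg_nat {f : ℝ → ℝ} {r : ℚ} (hr : 0 < r) (hc : ContinuousAt f 0) (h0 : f 0 = (r : ℝ)) :
    ∀ᶠ Q : ℕ in atTop, 0 ≤ f (1 / (Q : ℝ)) := by
  have h := hc.tendsto.comp tendsto_one_div_atTop_nhds_zero_nat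
  rw [h0] at h
  exact h.eventually_const_le (by exact_mod_cast hr)

end Vale.Agent.P359.CertCheck
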