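import Mathlib

/-!
The channels of a spin `q` pair state and a spin `(q+1)/2` fermion on the sphere with flux
`q + 1`: the eigenvalues `kap q n` and the coupled vectors `chan`, with elementary bounds
on the eigenvalues that are uniform in the flux.
-/

open Finset

namespace Vale.Agent.P359

/-- The ratio `C(q,n) / C(2q,n)`. -/
noncomputable def rr (q n : ℕ) : ℝ := (q.choose n : ℝ) / ((2 * q).choose n : ℝ)

/-- The eigenvalue of the exchange form in channel `n`. -/
noncomputable def kap (q n : ℕ) : ℝ :=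
  (-1) ^ n * (rr q n - n * rr q (n - 1) * ((q : ℝ) / (2 * q - n + 1) + 1))

/-- Unnormalised coefficient of the channel `n`, weight `M`, at pair index `i` and
fermion index `j`. -/
noncomputable def gCoef (P f n M i j : ℕ) : ℝ :=
  ∑ r ∈ range (n + 1), ∑ a ∈ range (P - n + 1), ∑ b ∈ range (f - n + 1),
    if r + a = i ∧ n - r + b = j ∧ a + b = M then
      (-1) ^ r * (n.choose r : ℝ) * ((P - n).choose a : ℝ) * ((f - n).choose b : ℝ) else 0

/-- The squared norm of the highest weight vector of channel `n`. -/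
noncomputable def chanZ (P f n : ℕ) : ℝ :=
  ∑ r ∈ range (n + 1), (n.choose r : ℝ) ^ 2 / ((P.choose r : ℝ) * (f.choose (n - r) : ℝ))

/-- The vector of weight `M` in channel `n` of `U_P ⊗ U_f`, in the orthonormal bases. -/
noncomputable def chan (P f n M i j : ℕ) : ℝ :=
  gCoef P f n M i j /
    (Real.sqrt ((P.choose i : ℝ) * (f.choose j : ℝ)) * Real.sqrt ((P + f - 2 * n).choose M : ℝ)
      * Real.sqrt (chanZ P f n))

theorem rr_nonneg (q n : ℕ) : 0 ≤ rr q n := by unfold rr; positivity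

theorem rr_eq_zero {q n : ℕ} (h : q < n) : rr q n = 0 := by
  simp [rr, Nat.choose_eq_zero_of_lt h]

theorem rr_succ {q n : ℕ} (h : n < 2 * q) :
    rr q (n + 1) = rr q n * (((q : ℝ) - n) / (2 * q - n)) := by
  rcases lt_or_ge q n with hq | hq
  · simp [rr_eq_zero hq, rr_eq_zero (lt_trans hq (Nat.lt_succ_self n))]
  have h1 := congrArg (fun k : ℕ => (k : ℝ)) (Nat.choose_succ_right_eq q n)
  have h2 := congrArg (fun k : ℕ => (k : ℝ)) (Nat.choose_succ_right_eq (2 * q) n)
  push_cast [Nat.cast_sub hq] at h1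
  push_cast [Nat.cast_sub h.le] at h2
  have hpos : (0 : ℝ) < ((2 * q).choose (n + 1) : ℝ) := by exact_mod_cast Nat.choose_pos h
  have hpos' : (0 : ℝ) < ((2 * q).choose n : ℝ) := by exact_mod_cast Nat.choose_pos h.le
  have hlt : (0 : ℝ) < 2 * (q : ℝ) - n := by
    have : (n : ℝ) < 2 * q := by exact_mod_cast h
    linarith
  unfold rr
  rw [div_mul_div_comm, div_eq_div_iff hpos.ne' (by positivity)]
  have hn : (0 : ℝ) < (n : ℝ) + 1 := by positivity
  apply mul_right_cancel₀ hn.ne'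
  calc _ = ((q.choose (n + 1) : ℝ) * (n + 1)) * (((2 * q).choose n : ℝ) * (2 * q - n)) := by ring
    _ = ((q.choose n : ℝ) * (q - n)) * (((2 * q).choose (n + 1) : ℝ) * (n + 1)) := by rw [h1, h2]
    _ = _ := by ring

theorem rr_anti (q n : ℕ) : rr q (n + 1) ≤ rr q n / 2 := by
  rcases lt_or_ge q (n + 1) with hq | hq
  · rw [rr_eq_zero hq]; have := rr_nonneg q n; linarith
  rw [rr_succ (by omega)]
  have hn : (n : ℝ) + 1 ≤ q := by exact_mod_cast hq
  have h0 : ((q : ℝ) - n) / (2 * q - n) ≤ 1 / 2 := by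
    rw [div_le_div_iff₀ (by linarith) (by norm_num)]
    have : (0 : ℝ) ≤ n := Nat.cast_nonneg n
    linarith
  have := mul_le_mul_of_nonneg_left h0 (rr_nonneg q n)
  linarith

theorem rr_le (q n : ℕ) : rr q n ≤ 1 / 2 ^ n := by
  induction n with
  | zero => simp [rr]
  | succ n ih =>
    refine (rr_anti q n).trans ?_
    rw [pow_succ, ← div_div]
    linarith

theorem factor_le {q m : ℕ} (hm : m ≤ q) :
    (q : ℝ) / (2 * q - m) + 1 ≤ 2 ∧ 0 ≤ (q : ℝ) / (2 * q - m) + 1 := by
  have h : (m : ℝ) ≤ q := by exact_mod_cast hm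
  rcases Nat.eq_zero_or_pos q with hq | hq
  · simp [hq]
  have hq' : (0 : ℝ) < q := by exact_mod_cast hq
  refine ⟨?_, ?_⟩
  · have : (q : ℝ) / (2 * q - m) ≤ 1 := (div_le_one (by linarith)).2 (by linarith)
    linarith
  · have : (0 : ℝ) ≤ (q : ℝ) / (2 * q - m) := div_nonneg hq'.le (by linarith)
    linarith

/-- `rr q m * (3q - m) / (2q - m) ≤ 3 / 2^(m+1)`. -/
theorem rr_factor_le (q m : ℕ) (hm : 2 ≤ m) :
    rr q m * ((q : ℝ) / (2 * q - m) + 1) ≤ 3 / 2 ^ (m + 1) := by
  induction m, hm using Nat.le_induction with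
  | base =>
    rcases lt_or_ge q 2 with hq | hq
    · rw [rr_eq_zero hq, zero_mul]; norm_num
    have h2 : (2 : ℝ) ≤ q := by exact_mod_cast hq
    have e : rr q 2 = ((q : ℝ) - 1) / (2 * (2 * q - 1)) := by
      rw [rr_succ (n := 1) (by omega), rr_succ (n := 0) (by omega)]
      simp [rr]
      field_simp
    rw [e]
    have h1 : (0 : ℝ) < 2 * q - 1 := by linarith
    have h3 : (0 : ℝ) < 2 * (q : ℝ) - 2 := by linarith
    push_cast
    rw [div_add_one h3.ne', div_mul_div_comm, div_le_div_iff₀ (by positivity) (by norm_num)]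
    nlinarith
  | succ m hm ih =>
    rcases lt_or_ge q (m + 1) with hq | hq
    · rw [rr_eq_zero hq, zero_mul]; positivity
    have hm' : (2 : ℝ) ≤ m := by exact_mod_cast hm
    have hq' : (m : ℝ) + 1 ≤ q := by exact_mod_cast hq
    have hA : (0 : ℝ) < 2 * (q : ℝ) - m := by linarith
    have hB : (0 : ℝ) < 2 * (q : ℝ) - (m + 1) := by linarith
    have key : ((q : ℝ) - m) / (2 * q - m) * ((q : ℝ) / (2 * q - (m + 1)) + 1) ≤
        1 / 2 * ((q : ℝ) / (2 * q - m) + 1) := by
      rw [div_add_one hB.ne', div_add_one hA.ne', div_mul_div_comm, div_mul_div_comm,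
        div_le_div_iff₀ (by positivity) (by positivity)]
      have hid : 0 ≤ 3 * (q : ℝ) * m - (m : ℝ) ^ 2 - q - m := by nlinarith
      nlinarith [mul_nonneg hA.le hid]
    rw [rr_succ (by omega)]
    push_cast
    calc rr q m * (((q : ℝ) - m) / (2 * q - m)) * ((q : ℝ) / (2 * q - ((m : ℝ) + 1)) + 1)
        ≤ rr q m * (1 / 2 * ((q : ℝ) / (2 * q - m) + 1)) := by
          rw [mul_assoc]; exact mul_le_mul_of_nonneg_left key (rr_nonneg q m)
      _ = 1 / 2 * (rr q m * ((q : ℝ) / (2 * q - m) + 1)) := by ring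
      _ ≤ 1 / 2 * (3 / 2 ^ (m + 1)) := by linarith
      _ = _ := by rw [pow_succ (2 : ℝ) (m + 1)]; ring

/-- In an even channel `n ≥ 2` the eigenvalue is nonpositive. -/
theorem kap_even_nonpos {q n : ℕ} (h2 : 2 ≤ n) (he : Even n) : kap q n ≤ 0 := by
  obtain ⟨m, rfl⟩ : ∃ m, n = m + 1 := ⟨n - 1, by omega⟩
  rw [kap, he.neg_one_pow, one_mul, Nat.add_sub_cancel]
  rcases lt_or_ge q m with hq | hq
  · simp [rr_eq_zero hq, rr_eq_zero (show q < m + 1 by omega)]
  have h := rr_anti q m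
  have h0 := rr_nonneg q m
  have h1 := factor_le hq
  have hm : (1 : ℝ) ≤ m := by exact_mod_cast (show 1 ≤ m by omega)
  have hf : 1 ≤ (q : ℝ) / (2 * q - m) + 1 := by
    have : (m : ℝ) ≤ q := by exact_mod_cast hq
    have : (0 : ℝ) ≤ (q : ℝ) / (2 * q - m) := div_nonneg (by positivity) (by linarith)
    linarith
  push_cast
  rw [show (2 : ℝ) * q - ((m : ℝ) + 1) + 1 = 2 * q - m by ring]
  nlinarith [mul_le_mul_of_nonneg_left hf (mul_nonneg (show (0 : ℝ) ≤ (m : ℝ) + 1 by linarith) h0)]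

/-- In an odd channel `n ≥ 3` the eigenvalue is at most `3 n / 2^n`, for every flux. -/
theorem kap_odd_le {q n : ℕ} (h3 : 3 ≤ n) (ho : Odd n) : kap q n ≤ 3 * n / 2 ^ n := by
  obtain ⟨m, rfl⟩ : ∃ m, n = m + 1 := ⟨n - 1, by omega⟩
  rw [kap, ho.neg_one_pow, Nat.add_sub_cancel]
  have h := mul_le_mul_of_nonneg_left (rr_factor_le q m (by omega))
    (show (0 : ℝ) ≤ (m : ℝ) + 1 by positivity)
  have h0 := rr_nonneg q (m + 1)
  push_cast
  rw [show (2 : ℝ) * q - ((m : ℝ) + 1) + 1 = 2 * q - m by ring,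
    show 3 * ((m : ℝ) + 1) / 2 ^ (m + 1) = ((m : ℝ) + 1) * (3 / 2 ^ (m + 1)) by ring]
  linarith

/-- All eigenvalues decay geometrically, uniformly in the flux. -/
theorem abs_kap_le (q n : ℕ) : |kap q n| ≤ (4 * n + 1) / 2 ^ n := by
  rw [kap, abs_mul, abs_pow, abs_neg, abs_one, one_pow, one_mul, add_div]
  refine (abs_sub _ _).trans ?_
  rw [abs_of_nonneg (rr_nonneg q n), add_comm]
  refine add_le_add ?_ (rr_le q n)
  rcases Nat.eq_zero_or_pos n with rfl | hn
  · simp
  obtain ⟨m, rfl⟩ : ∃ m, n = m + 1 := ⟨n - 1, by omega⟩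
  rw [Nat.add_sub_cancel]
  rcases lt_or_ge q m with hq | hq
  · simp [rr_eq_zero hq]; positivity
  push_cast
  rw [show (2 : ℝ) * q - ((m : ℝ) + 1) + 1 = 2 * q - m by ring]
  have h1 := factor_le hq
  have h0 := rr_nonneg q m
  rw [abs_of_nonneg (mul_nonneg (by positivity) h1.2)]
  calc ((m : ℝ) + 1) * rr q m * ((q : ℝ) / (2 * q - m) + 1)
      ≤ ((m : ℝ) + 1) * (1 / 2 ^ m) * 2 := by
        gcongr
        · exact h1.2
        · exact rr_le q m
        · exact h1.1
    _ = _ := by rw [pow_succ]; ring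

/-- The closed form of the tail. -/
noncomputable def tailT (n : ℕ) : ℝ :=
  9 / 2 * (4 / 3 * (n : ℝ) ^ 2 + 28 / 9 * n + 104 / 27) / 2 ^ n

/-- The positive eigenvalues from an odd channel `a` on, weighted by `3 (n+1) / 2`. -/
theorem kap_tail (q a L : ℕ) (ha : 3 ≤ a) (ho : Odd a) :
    ∑ k ∈ range L, max (kap q (a + 2 * k)) 0 * (3 / 2 * ((a + 2 * k : ℕ) + 1)) ≤ tailT a := by
  suffices h : ∑ k ∈ range L, max (kap q (a + 2 * k)) 0 * (3 / 2 * ((a + 2 * k : ℕ) + 1)) ≤
      tailT a - tailT (a + 2 * L) by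
    have : 0 ≤ tailT (a + 2 * L) := by unfold tailT; positivity
    linarith
  induction L with
  | zero => simp
  | succ L ih =>
    rw [sum_range_succ]
    have ho' : Odd (a + 2 * L) := ho.add_even (even_two_mul L)
    have h1 : max (kap q (a + 2 * L)) 0 ≤ 3 * ((a + 2 * L : ℕ) : ℝ) / 2 ^ (a + 2 * L) :=
      max_le (kap_odd_le (by omega) ho') (by positivity)
    have h2 : max (kap q (a + 2 * L)) 0 * (3 / 2 * (((a + 2 * L : ℕ) : ℝ) + 1)) ≤
        tailT (a + 2 * L) - tailT (a + 2 * L + 2) := by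
      refine (mul_le_mul_of_nonneg_right h1 (by positivity)).trans (le_of_eq ?_)
      simp only [tailT, pow_add]
      push_cast
      field_simp
      ring
    rw [show a + 2 * (L + 1) = a + 2 * L + 2 by ring]
    linarith

theorem tailT_fifteen : tailT 15 < 1 / 20 := by unfold tailT; norm_num

theorem tailT_nineteen : tailT 19 < 1 / 200 := by unfold tailT; norm_num

end Vale.Agent.P359
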