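import Mathlib

/-!
Coefficient functions of the moment certificate, in the scaled ladder basis.

`eps` stands for `1/Q`. A spin is described by `rho = 2j/Q`; its ladder has
`e(i) = i (rho - (i-1) eps)` and squared norms `nrm rho eps i = e(1) * ... * e(i)`.
Everything is polynomial in `(rho, eps)`, so the planar limit is the evaluation at `eps = 0`.
-/

open Finset

namespace Vale.Agent.P359.Coef

variable {K : Type*} [CommRing K]

/-- The raising coefficient of the scaled ladder. -/
def eCo (rho eps : K) (i : ℕ) : K := i * (rho - ((i : K) - 1) * eps)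

/-- The squared norm of the `i`-th vector of the scaled ladder. -/
def nrm (rho eps : K) (i : ℕ) : K := ∏ l ∈ range i, eCo rho eps (l + 1)

/-- Coefficient of `g_i ⊗ g_(n-i)` in the highest-weight vector number `n` of two ladders. -/
def hw (rho₁ rho₂ eps : K) (n i : ℕ) : K :=
  if i ≤ n then
    (-1) ^ i * (n.choose i : K) * (∏ l ∈ range i, (rho₂ - ((n : K) - 1 - (l : K)) * eps)) *
      ∏ l ∈ Ico i n, (rho₁ - (l : K) * eps)
  else 0

/-- Coefficient of `g_i ⊗ g_(n+M-i)` in the `M`-th descendant of `hw n`. -/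
def desc (rho₁ rho₂ eps : K) (n M i : ℕ) : K :=
  ∑ r ∈ range (M + 1), if r ≤ i then (M.choose r : K) * hw rho₁ rho₂ eps n (i - r) else 0

/-- The squared norm of `hw n`. -/
def hwNrm (rho₁ rho₂ eps : K) (n : ℕ) : K :=
  ∑ i ∈ range (n + 1),
    hw rho₁ rho₂ eps n i ^ 2 * nrm rho₁ eps i * nrm rho₂ eps (n - i)

/-- The ladder parameter of the `n`-th component of two ladders. -/
def rhoOf (rho₁ rho₂ eps : K) (n : ℕ) : K := rho₁ + rho₂ - 2 * (n : K) * eps

/-- The pair ladder (spin `Q - 1`). -/
def rhoJ (eps : K) : K := 2 - 2 * eps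

/-- The ladder of channel `n` of a pair and a particle. -/
def rho3 (eps : K) (n : ℕ) : K := rhoOf (rhoJ eps) 1 eps n

/-- Pair-particle coupling: pair index `i`, particle index `n + M - i`. -/
def co (eps : K) (n M i : ℕ) : K := desc (rhoJ eps) 1 eps n M i

/-- Norm of the pair-particle highest-weight vector. -/
def coNrm (eps : K) (n : ℕ) : K := hwNrm (rhoJ eps) 1 eps n

/-- Channel-particle coupling: channel index `M`, particle index `n₂ + M₄ - M`. -/
def g4 (eps : K) (n n₂ M₄ M : ℕ) : K := desc (rho3 eps n) 1 eps n₂ M₄ M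

/-- Norm of the channel-particle highest-weight vector. -/
def g4Nrm (eps : K) (n n₂ : ℕ) : K := hwNrm (rho3 eps n) 1 eps n₂

/-- The ladder of the component `L = n + n₂` of a pair and two particles. -/
def rho4 (eps : K) (L : ℕ) : K := rhoJ eps + 2 - 2 * (L : K) * eps

end Vale.Agent.P359.Coef
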