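import Vale.Agent.P359.Defs

/-!
# P359: an antisymmetric polynomial killed by every pair condition is a multiple of the Laughlin one
-/

open Finset MvPolynomial

namespace Vale.Agent.P359

variable {N : ℕ}

/-- `z_i` replaced by `z_j`. -/
noncomputable def onDiag (i j : Fin N) : MvPolynomial (Fin N) ℂ →ₐ[ℂ] MvPolynomial (Fin N) ℂ :=
  aeval fun k => X (Function.update id i j k)

lemma onDiag_X (i j k : Fin N) : onDiag i j (X k) = X (Function.update id i j k) := by
  simp [onDiag]

lemma onDiag_diff (i j : Fin N) : onDiag i j (X j - X i) = 0 := by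
  rcases eq_or_ne j i with rfl | h
  · simp
  · simp [onDiag_X, h]

lemma onDiag_swap (i j : Fin N) (P : MvPolynomial (Fin N) ℂ) :
    onDiag i j (rename (Equiv.swap i j) P) = onDiag i j P := by
  rw [onDiag, aeval_rename]
  refine congrArg (fun f : Fin N → MvPolynomial (Fin N) ℂ => aeval f P) (funext fun k => ?_)
  simp only [Function.comp_apply]
  rcases eq_or_ne i j with rfl | hij
  · rw [Equiv.swap_self, Equiv.refl_apply]
  rcases eq_or_ne k i with rfl | hi
  · simp [hij.symm]
  rcases eq_or_ne k j with rfl | hj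
  · simp [hij.symm]
  rw [Equiv.swap_apply_of_ne_of_ne hi hj]

lemma diff_dvd_sub_onDiag (i j : Fin N) (P : MvPolynomial (Fin N) ℂ) :
    X j - X i ∣ P - onDiag i j P := by
  induction P using MvPolynomial.induction_on with
  | C a => simp [onDiag]
  | add p q hp hq => rw [map_add, add_sub_add_comm]; exact dvd_add hp hq
  | mul_X p k hp =>
    rw [map_mul, show p * X k - onDiag i j p * onDiag i j (X k) =
      (p - onDiag i j p) * X k + onDiag i j p * (X k - onDiag i j (X k)) by ring]
    refine dvd_add (dvd_mul_of_dvd_left hp _) (dvd_mul_of_dvd_right ?_ _)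
    rw [onDiag_X]
    rcases eq_or_ne k i with rfl | h
    · rw [Function.update_self]
      exact ⟨-1, by ring⟩
    · simp [Function.update_of_ne h]

lemma diff_dvd (i j : Fin N) {P : MvPolynomial (Fin N) ℂ} (h : onDiag i j P = 0) :
    X j - X i ∣ P := by
  simpa [h] using diff_dvd_sub_onDiag i j P

lemma diff_ne_zero {i j : Fin N} (hij : i ≠ j) :
    (X j - X i : MvPolynomial (Fin N) ℂ) ≠ 0 :=
  sub_ne_zero.2 fun h => hij (X_injective h).symm

lemma onDiag_eq_zero_of_anti (i j : Fin N) {P : MvPolynomial (Fin N) ℂ}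
    (h : rename (Equiv.swap i j) P = -P) : onDiag i j P = 0 := by
  have h1 := onDiag_swap i j P
  rw [h, map_neg] at h1
  exact CharZero.neg_eq_self_iff.1 h1

lemma rename_diff (i j : Fin N) :
    rename (Equiv.swap i j) (X j - X i : MvPolynomial (Fin N) ℂ) = -(X j - X i) := by
  simp [rename_X]

/-- Vanishing of the first derivative on the diagonal gives the third power. -/
lemma cube_dvd {i j : Fin N} (hij : i ≠ j) {P : MvPolynomial (Fin N) ℂ}
    (ha : rename (Equiv.swap i j) P = -P)
    (hd : onDiag i j (pderiv j P - pderiv i P) = 0) :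
    (X j - X i) ^ 3 ∣ P := by
  have hne := diff_ne_zero hij
  obtain ⟨R, hR⟩ := diff_dvd i j (onDiag_eq_zero_of_anti i j ha)
  have hRd : onDiag i j R = 0 := by
    rw [hR, pderiv_mul, pderiv_mul] at hd
    simp only [map_sub, map_add, map_mul, pderiv_X_self, pderiv_X_of_ne hij, pderiv_X_of_ne hij.symm,
      map_zero, map_one] at hd
    rw [← map_sub, onDiag_diff] at hd
    simp only [sub_zero, zero_sub, zero_mul, one_mul, add_zero, neg_mul] at hd
    rw [sub_neg_eq_add, ← two_mul] at hd
    exact (mul_eq_zero.1 hd).resolve_left two_ne_zero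
  obtain ⟨S, hS⟩ := diff_dvd i j hRd
  have hsym : rename (Equiv.swap i j) R = R := by
    rw [hR, map_mul, rename_diff] at ha
    refine mul_left_cancel₀ hne ?_
    linear_combination -ha
  have hSa : rename (Equiv.swap i j) S = -S := by
    rw [hS, map_mul, rename_diff] at hsym
    refine mul_left_cancel₀ hne ?_
    linear_combination -hsym
  obtain ⟨T, hT⟩ := diff_dvd i j (onDiag_eq_zero_of_anti i j hSa)
  exact ⟨T, by rw [hR, hS, hT]; ring⟩

lemma onDiag_deriv_of_cube (i j : Fin N) {P : MvPolynomial (Fin N) ℂ}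
    (h : (X j - X i) ^ 3 ∣ P) : onDiag i j (pderiv j P - pderiv i P) = 0 := by
  obtain ⟨T, rfl⟩ := h
  simp only [pderiv_mul, pderiv_pow, map_sub, map_add, map_mul, map_pow]
  rw [← map_sub, onDiag_diff]
  ring

/-- Shearing `z_j` by `c z_i`. -/
noncomputable def shear (i j : Fin N) (c : ℂ) :
    MvPolynomial (Fin N) ℂ →ₐ[ℂ] MvPolynomial (Fin N) ℂ :=
  aeval fun k => X k + if k = j then C c * X i else 0

lemma shear_comp {i j : Fin N} (hij : i ≠ j) (c : ℂ) :
    (shear i j c).comp (shear i j (-c)) = AlgHom.id ℂ _ := by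
  refine algHom_ext fun k => ?_
  rcases eq_or_ne k j with rfl | h
  · simp [shear, hij]
  · simp [shear, h]

lemma prime_diff {i j : Fin N} (hij : i ≠ j) :
    Prime (X j - X i : MvPolynomial (Fin N) ℂ) := by
  have h2 : (shear i j (-1)).comp (shear i j 1) = AlgHom.id ℂ _ := by
    simpa using shear_comp hij (-1)
  let e := AlgEquiv.ofAlgHom (shear i j 1) (shear i j (-1)) (shear_comp hij 1) h2
  refine (MulEquiv.prime_iff e).1 ?_
  have he : e (X j - X i) = X j := by simp [e, shear, hij]
  rw [he]
  exact X_prime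

lemma laughlinPoly_ne_zero : laughlinPoly N ≠ 0 :=
  Finset.prod_ne_zero_iff.2 fun _ hp => pow_ne_zero 3 (diff_ne_zero (ne_of_lt (mem_filter.1 hp).2))

/-- All the cubes divide, hence their product does. -/
lemma laughlinPoly_dvd {P : MvPolynomial (Fin N) ℂ}
    (h : ∀ i j : Fin N, i < j → (X j - X i) ^ 3 ∣ P) : laughlinPoly N ∣ P := by
  refine Finset.prod_dvd_of_isRelPrime (fun p hp q hq hpq => ?_)
    fun p hp => h p.1 p.2 (mem_filter.1 hp).2
  replace hp := (mem_filter.1 hp).2
  replace hq := (mem_filter.1 hq).2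
  refine IsRelPrime.pow ?_
  refine (prime_diff hp.ne).irreducible.isRelPrime_iff_not_dvd.2 fun hd => hpq ?_
  obtain ⟨T, hT⟩ := hd
  have h0 : onDiag p.1 p.2 (X q.2 - X q.1) = 0 := by rw [hT, map_mul, onDiag_diff, zero_mul]
  rw [map_sub, onDiag_X, onDiag_X, sub_eq_zero] at h0
  have h1 := X_injective h0
  rw [Function.update_apply, Function.update_apply] at h1
  refine Prod.ext ?_ ?_ <;> split_ifs at h1 <;> simp only [id] at h1 <;>
    (simp only [Fin.lt_def, Fin.ext_iff] at *; omega)

lemma degreeOf_diff {i j : Fin N} (hij : i ≠ j) (k : Fin N) (hk : k = i ∨ k = j) :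
    1 ≤ degreeOf k (X j - X i : MvPolynomial (Fin N) ℂ) := by
  classical
  rw [degreeOf_eq_sup]
  rcases hk with rfl | rfl
  · refine le_trans (le_of_eq ?_) (Finset.le_sup (f := fun m : Fin N →₀ ℕ => m k)
      (b := Finsupp.single k 1) ?_)
    · simp
    · simp [X, coeff_monomial, Finsupp.single_left_inj one_ne_zero, hij.symm]
  · refine le_trans (le_of_eq ?_) (Finset.le_sup (f := fun m : Fin N →₀ ℕ => m k)
      (b := Finsupp.single k 1) ?_)
    · simp
    · simp [X, coeff_monomial, Finsupp.single_left_inj one_ne_zero, hij]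

lemma degreeOf_diff_le (i j k : Fin N) :
    degreeOf k (X j - X i : MvPolynomial (Fin N) ℂ) ≤ if k = i ∨ k = j then 1 else 0 := by
  classical
  refine (degreeOf_sub_le k _ _).trans ?_
  rw [degreeOf_X, degreeOf_X]
  split_ifs <;> simp_all

lemma card_pairs_at (k : Fin N) :
    ((pairs N).filter fun p => k = p.1 ∨ k = p.2).card = N - 1 := by
  rw [show N - 1 = (univ.erase k : Finset (Fin N)).card by simp]
  refine Finset.card_nbij' (fun p => if k = p.1 then p.2 else p.1)
    (fun l => if k < l then (k, l) else (l, k)) ?_ ?_ ?_ ?_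
  · intro p hp
    simp only [pairs, coe_filter, mem_filter, mem_univ, true_and, Set.mem_ofPred_eq] at hp
    simp only [coe_erase, coe_univ, Set.mem_sdiff, Set.mem_univ, true_and, Set.mem_singleton_iff]
    split_ifs <;> grind
  · intro l hl
    simp only [coe_erase, coe_univ, Set.mem_sdiff, Set.mem_univ, true_and, Set.mem_singleton_iff] at hl
    simp only [pairs, coe_filter, mem_filter, mem_univ, true_and, Set.mem_ofPred_eq]
    split_ifs <;> grind
  · intro p hp
    simp only [pairs, coe_filter, mem_filter, mem_univ, true_and, Set.mem_ofPred_eq] at hp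
    obtain ⟨a, b⟩ := p
    dsimp only at hp ⊢
    split_ifs <;> grind
  · intro l hl
    simp only [coe_erase, coe_univ, Set.mem_sdiff, Set.mem_univ, true_and, Set.mem_singleton_iff] at hl
    dsimp only
    split_ifs <;> grind

/-- The degree in each variable is the flux. -/
lemma degreeOf_laughlinPoly (k : Fin N) : degreeOf k (laughlinPoly N) = 3 * (N - 1) := by
  rw [laughlinPoly, degreeOf_prod_eq _ _ fun p (hp : p ∈ pairs N) => pow_ne_zero 3
    (diff_ne_zero (ne_of_lt (mem_filter.1 hp).2)), ← card_pairs_at k, Finset.card_filter,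
    Finset.mul_sum]
  refine Finset.sum_congr rfl fun p hp => ?_
  have hne : p.1 ≠ p.2 := ne_of_lt (mem_filter.1 hp).2
  rw [degreeOf_pow_eq _ _ _ (diff_ne_zero hne)]
  refine congrArg (3 * ·) (le_antisymm ?_ ?_)
  · exact degreeOf_diff_le p.1 p.2 k
  · split_ifs with h
    · exact degreeOf_diff hne k h
    · exact Nat.zero_le _

lemma rename_laughlinPoly {i j : Fin N} (hij : i ≠ j) :
    rename (Equiv.swap i j) (laughlinPoly N) = -laughlinPoly N := by
  have e : laughlinPoly N = (Matrix.vandermonde fun k : Fin N => (X k : MvPolynomial (Fin N) ℂ)).det ^ 3 := by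
    rw [laughlinPoly, Matrix.det_vandermonde, Finset.prod_pow, Finset.prod_sigma']
    refine congrArg (· ^ 3) (Finset.prod_bij' (fun p _ => ⟨p.1, p.2⟩) (fun p _ => (p.1, p.2))
      ?_ ?_ ?_ ?_ ?_) <;> simp [pairs]
  have h := Matrix.det_permute (Equiv.swap i j)
    (Matrix.vandermonde fun k : Fin N => (X k : MvPolynomial (Fin N) ℂ))
  rw [e, map_pow, AlgHom.map_det]
  rw [show (rename (Equiv.swap i j) : MvPolynomial (Fin N) ℂ →ₐ[ℂ] _).mapMatrix
      (Matrix.vandermonde fun k : Fin N => (X k : MvPolynomial (Fin N) ℂ)) =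
    (Matrix.vandermonde fun k : Fin N => (X k : MvPolynomial (Fin N) ℂ)).submatrix
      (Equiv.swap i j) id by
    ext a b
    simp [Matrix.vandermonde]]
  rw [h, Equiv.Perm.sign_swap hij]
  push_cast
  ring

/-- An antisymmetric polynomial of degree at most the flux with all pair conditions is a multiple of
the Laughlin polynomial. -/
theorem eq_smul_laughlinPoly {P : MvPolynomial (Fin N) ℂ}
    (ha : ∀ i j : Fin N, i ≠ j → rename (Equiv.swap i j) P = -P)
    (hd : ∀ i j : Fin N, i < j → onDiag i j (pderiv j P - pderiv i P) = 0)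
    (hdeg : ∀ k, degreeOf k P ≤ 3 * (N - 1)) : ∃ c : ℂ, P = C c * laughlinPoly N := by
  obtain ⟨S, hS⟩ := laughlinPoly_dvd fun i j hij => cube_dvd hij.ne (ha i j hij.ne) (hd i j hij)
  rcases eq_or_ne P 0 with h0 | h0
  · exact ⟨0, by simp [h0]⟩
  have hS0 : S ≠ 0 := fun h => h0 (by rw [hS, h, mul_zero])
  have hk : ∀ k, degreeOf k S = 0 := fun k => by
    have h1 := hdeg k
    rw [hS, degreeOf_mul_eq laughlinPoly_ne_zero hS0, degreeOf_laughlinPoly] at h1
    omega
  refine ⟨coeff 0 S, ?_⟩
  rw [hS, mul_comm]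
  refine congrArg (· * laughlinPoly N) ?_
  refine totalDegree_eq_zero_iff_eq_C.1 ((totalDegree_eq_zero_iff (Fin N) S).2 fun m hm k => ?_)
  have h2 := monomial_le_degreeOf k hm
  rw [hk k] at h2
  omega

end Vale.Agent.P359
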