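import Mathlib

/-!
# P359: the spherical `V₁` pseudopotential in the orthonormal monomial basis

One particle at flux `Q`: the basis `e_a = √(Q.choose a) u^(Q-a) v^a`, `a : Fin (Q+1)`. The spin
`Q - 1` pair space has, in total index `s = a + b`, the vector `pairVec Q s`. States of `N`
particles are functions on `Fin N → Fin (Q+1)` with the Euclidean inner product.
-/

open Finset

namespace Vale.Agent.P359

/-- A configuration: the index of each particle. -/
abbrev Occ (N Q : ℕ) := Fin N → Fin (Q + 1)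

/-- The spin `Q - 1` pair state of total index `s`, not normalised. -/
noncomputable def pairVec (Q s : ℕ) (a b : Fin (Q + 1)) : ℝ :=
  if (a : ℕ) + b = s then ((b : ℝ) - a) * Real.sqrt (Q.choose a * Q.choose b) else 0

/-- The squared norm of `pairVec Q s`. -/
noncomputable def pairZ (Q s : ℕ) : ℝ := ∑ a, ∑ b, pairVec Q s a b ^ 2

/-- Matrix of the orthogonal projection of `U_Q ⊗ U_Q` onto spin `Q - 1`. -/
noncomputable def proj1 (Q : ℕ) (a b c d : Fin (Q + 1)) : ℝ :=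
  ∑ s ∈ range (2 * Q + 1), pairVec Q s a b * pairVec Q s c d / pairZ Q s

/-- The projection acting on the particles `i` and `j`. -/
noncomputable def pairOp {N Q : ℕ} (i j : Fin N) (ψ : Occ N Q → ℂ) (x : Occ N Q) : ℂ :=
  ∑ c, ∑ d, (proj1 Q (x i) (x j) c d : ℂ) * ψ (Function.update (Function.update x i c) j d)

/-- The ordered pairs `i < j`. -/
def pairs (N : ℕ) : Finset (Fin N × Fin N) := univ.filter fun p => p.1 < p.2

/-- The Hamiltonian `H_{N,Q}`. -/
noncomputable def ham {N Q : ℕ} (ψ : Occ N Q → ℂ) (x : Occ N Q) : ℂ :=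
  ∑ p ∈ pairs N, pairOp p.1 p.2 ψ x

/-- Antisymmetry under exchange of two particles. -/
def Fermionic {N Q : ℕ} (ψ : Occ N Q → ℂ) : Prop :=
  ∀ i j : Fin N, i ≠ j → ∀ x, ψ (x ∘ Equiv.swap i j) = -ψ x

/-- The inner product. -/
noncomputable def braket {N Q : ℕ} (φ ψ : Occ N Q → ℂ) : ℂ := ∑ x, star (φ x) * ψ x

/-- The squared norm. -/
noncomputable def nsq {N Q : ℕ} (ψ : Occ N Q → ℂ) : ℝ := ∑ x, ‖ψ x‖ ^ 2

/-- The energy `⟨ψ, H ψ⟩`. -/
noncomputable def energy {N Q : ℕ} (ψ : Occ N Q → ℂ) : ℝ := (braket ψ (ham ψ)).re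

/-- The Laughlin flux at filling `1/3`. -/
abbrev flux (N : ℕ) : ℕ := 3 * (N - 1)

/-- `∏_{i<j} (z_j - z_i)^3`: the Laughlin polynomial in the affine variables `z = v/u`. -/
noncomputable def laughlinPoly (N : ℕ) : MvPolynomial (Fin N) ℂ :=
  ∏ p ∈ pairs N, (MvPolynomial.X p.2 - MvPolynomial.X p.1) ^ 3

/-- The Laughlin vector `∏_{i<j} (u_i v_j - u_j v_i)^3` in the orthonormal basis. -/
noncomputable def laughlin (N : ℕ) (x : Occ N (flux N)) : ℂ :=
  MvPolynomial.coeff (Finsupp.equivFunOnFinite.symm fun i => (x i : ℕ)) (laughlinPoly N) /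
    ∏ i, ((Real.sqrt ((flux N).choose (x i)) : ℝ) : ℂ)

/-- `H_{N,3(N-1)} ≥ δ` on the fermionic states orthogonal to the Laughlin vector. -/
def GapAt (N : ℕ) (δ : ℝ) : Prop :=
  ∀ ψ : Occ N (flux N) → ℂ, Fermionic ψ → braket (laughlin N) ψ = 0 → δ * nsq ψ ≤ energy ψ

/-- Q1. -/
def GapConjecture : Prop := ∃ δ : ℝ, 0 < δ ∧ ∃ N₀ : ℕ, ∀ N, N₀ ≤ N → GapAt N δ

end Vale.Agent.P359
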