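import Vale.Agent.P359.Coef

/-!
# Scaled ladders: the ladder lemma, composition and inversion

`R` and `L` stand for the brackets with the raising and lowering operators. A ladder `X` with
parameter `rho` satisfies `R (X i) = X (i + 1)` and `L (X (i + 1)) = eCo rho eps (i + 1) • X i`.
-/

open Finset

namespace Vale.Agent.P359.Ladder

open Coef

section Coefficients

variable {K : Type*} [Field K] (r₁ r₂ eps : K)

/-- The coefficient map of raising: level `T` to level `T + 1`. -/
def up (f : ℕ → K) (i : ℕ) : K := f i + if i = 0 then 0 else f (i - 1)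

/-- The coefficient map of lowering: level `T + 1` to level `T`. -/
def low (T : ℕ) (f : ℕ → K) (i : ℕ) : K :=
  eCo r₂ eps (T + 1 - i) * f i + eCo r₁ eps (i + 1) * f (i + 1)

/-- The weighted inner product on level `T`. -/
def ip (T : ℕ) (f g : ℕ → K) : K :=
  ∑ i ∈ range (T + 1), nrm r₁ eps i * nrm r₂ eps (T - i) * f i * g i

lemma eCo_zero (r : K) : eCo r eps 0 = 0 := by simp [eCo]

lemma nrm_succ (r : K) (i : ℕ) : nrm r eps (i + 1) = nrm r eps i * eCo r eps (i + 1) := by
  simp [nrm, Finset.prod_range_succ]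

lemma ip_comm (T : ℕ) (f g : ℕ → K) : ip r₁ r₂ eps T f g = ip r₁ r₂ eps T g f :=
  Finset.sum_congr rfl fun _ _ => by ring

lemma ip_up (T : ℕ) {f : ℕ → K} (hf : f (T + 1) = 0) (g : ℕ → K) :
    ip r₁ r₂ eps (T + 1) (up f) g = ip r₁ r₂ eps T f (low r₁ r₂ eps T g) := by
  have h1 : ∑ i ∈ range (T + 1 + 1), nrm r₁ eps i * nrm r₂ eps (T + 1 - i) * f i * g i =
      ∑ i ∈ range (T + 1), nrm r₁ eps i * nrm r₂ eps (T - i) * f i * (eCo r₂ eps (T + 1 - i) * g i) := by
    rw [Finset.sum_range_succ, hf]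
    simp only [mul_zero, zero_mul, add_zero]
    refine Finset.sum_congr rfl fun i hi => ?_
    have e : T + 1 - i = T - i + 1 := by have := mem_range.1 hi; omega
    rw [e, nrm_succ]
    ring
  have h2 : ∑ i ∈ range (T + 1 + 1),
      nrm r₁ eps i * nrm r₂ eps (T + 1 - i) * (if i = 0 then 0 else f (i - 1)) * g i =
      ∑ i ∈ range (T + 1),
        nrm r₁ eps i * nrm r₂ eps (T - i) * f i * (eCo r₁ eps (i + 1) * g (i + 1)) := by
    rw [Finset.sum_range_succ']
    simp only [Nat.succ_ne_zero, if_false, if_true, mul_zero, zero_mul, add_zero,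
      Nat.add_sub_cancel, Nat.add_sub_add_right, nrm_succ]
    exact Finset.sum_congr rfl fun i _ => by ring
  simp only [ip, up, low, mul_add, add_mul, Finset.sum_add_distrib]
  rw [h1, h2]

/-- Pascal recursion of the descendants. -/
lemma desc_succ (n M : ℕ) : desc r₁ r₂ eps n (M + 1) = up (desc r₁ r₂ eps n M) := by
  funext i
  let g : ℕ → ℕ → K := fun r i => if r ≤ i then hw r₁ r₂ eps n (i - r) else 0
  have hd : ∀ M i, desc r₁ r₂ eps n M i = ∑ r ∈ range (M + 1), (M.choose r : K) * g r i := fun M i =>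
    Finset.sum_congr rfl fun r _ => by
      show _ = _ * if r ≤ i then _ else _
      split_ifs <;> simp
  have hs : ∑ r ∈ range (M + 1), (M.choose r : K) * g (r + 1) i =
      if i = 0 then 0 else desc r₁ r₂ eps n M (i - 1) := by
    cases i with
    | zero => simp [g]
    | succ i =>
      rw [if_neg (Nat.succ_ne_zero i), Nat.add_sub_cancel, hd]
      exact Finset.sum_congr rfl fun r _ => by simp [g]
  have ht : desc r₁ r₂ eps n M i =
      (∑ r ∈ range (M + 1), (M.choose (r + 1) : K) * g (r + 1) i) + g 0 i := by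
    have h := Finset.sum_range_succ' (fun r => (M.choose r : K) * g r i) (M + 1)
    rw [Finset.sum_range_succ, Nat.choose_succ_self, Nat.cast_zero, zero_mul, add_zero, ← hd] at h
    simpa using h
  rw [up, hd (M + 1), Finset.sum_range_succ']
  simp only [Nat.choose_succ_succ', Nat.cast_add, add_mul, Finset.sum_add_distrib, hs,
    Nat.choose_zero_right, Nat.cast_one, one_mul]
  rw [ht]
  ring

lemma desc_zero (n : ℕ) : desc r₁ r₂ eps n 0 = hw r₁ r₂ eps n := by
  funext i
  simp [desc]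

lemma desc_eq_zero {n M i : ℕ} (h : n + M < i) : desc r₁ r₂ eps n M i = 0 := by
  refine Finset.sum_eq_zero fun r hr => ?_
  have := mem_range.1 hr
  rw [if_pos (by omega), hw, if_neg (by omega), mul_zero]

lemma low_hw {n i : ℕ} (hi : i < n) : low r₁ r₂ eps (n - 1) (hw r₁ r₂ eps n) i = 0 := by
  obtain ⟨d, rfl⟩ := Nat.exists_eq_add_of_lt hi
  have hc := congrArg (Nat.cast : ℕ → K) (Nat.choose_succ_right_eq (i + d + 1) i)
  rw [show i + d + 1 - i = d + 1 by omega] at hc
  push_cast at hc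
  rw [low, hw, hw, if_pos hi.le, if_pos (Nat.succ_le_of_lt hi), Finset.prod_range_succ,
    Finset.prod_eq_prod_Ico_succ_bot hi, show i + d + 1 - 1 + 1 - i = d + 1 by omega]
  simp only [eCo]
  push_cast
  linear_combination (norm := ring_nf)
    (-1 : K) ^ (i + 1) *
      (∏ l ∈ range i, (r₂ - ((i : K) + d + 1 - 1 - (l : K)) * eps)) * (r₂ - (d : K) * eps) *
      (∏ l ∈ Ico (i + 1) (i + d + 1), (r₁ - (l : K) * eps)) * (r₁ - (i : K) * eps) * hc

lemma low_up (T : ℕ) (f : ℕ → K) {i : ℕ} (hi : i ≤ T + 1) :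
    low r₁ r₂ eps (T + 1) (up f) i =
      up (low r₁ r₂ eps T f) i + (r₁ + r₂ - 2 * ((T : K) + 1) * eps) * f i := by
  obtain ⟨d, hd⟩ := Nat.exists_eq_add_of_le hi
  have hT : (T : K) + 1 = i + d := by exact_mod_cast congrArg (Nat.cast : ℕ → K) hd
  rw [hT]
  cases i with
  | zero =>
    simp only [low, up, show T + 1 + 1 - 0 = d + 1 by omega, show T + 1 - 0 = d by omega, if_true,
      Nat.succ_ne_zero, if_false, zero_add, Nat.sub_self, eCo]
    push_cast
    ring
  | succ i =>
    simp only [low, up, show T + 1 + 1 - (i + 1) = d + 1 by omega,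
      show T + 1 - (i + 1) = d by omega, show T + 1 - i = d + 1 by omega, Nat.succ_ne_zero,
      if_false, Nat.add_sub_cancel, eCo]
    push_cast
    ring

/-- Lowering a descendant. -/
lemma low_desc (n : ℕ) : ∀ (M i : ℕ), i ≤ n + M → low r₁ r₂ eps (n + M) (desc r₁ r₂ eps n (M + 1)) i =
    eCo (rhoOf r₁ r₂ eps n) eps (M + 1) * desc r₁ r₂ eps n M i := by
  intro M
  induction M with
  | zero =>
    intro i hi
    rw [desc_succ, desc_zero]
    cases n with
    | zero =>
      obtain rfl : i = 0 := by omega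
      simp [low, up, eCo, rhoOf, hw]
      ring
    | succ n =>
      rw [show n + 1 + 0 = n + 1 from rfl, low_up r₁ r₂ eps n _ (by omega)]
      have hz : ∀ j, j ≤ n → low r₁ r₂ eps n (hw r₁ r₂ eps (n + 1)) j = 0 := fun j hj =>
        low_hw r₁ r₂ eps (n := n + 1) (by omega)
      have htop : low r₁ r₂ eps n (hw r₁ r₂ eps (n + 1)) (n + 1) = 0 := by
        simp [low, hw, eCo_zero]
      have hup : up (low r₁ r₂ eps n (hw r₁ r₂ eps (n + 1))) i = 0 := by
        rw [up]
        rcases Nat.lt_or_ge n i with h | h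
        · obtain rfl : i = n + 1 := by omega
          simp [htop, hz n le_rfl]
        · rw [hz i h]
          split_ifs
          · simp
          · rw [hz (i - 1) (by omega), add_zero]
      rw [hup]
      simp only [eCo, rhoOf]
      push_cast
      ring
  | succ M ih =>
    intro i hi
    have htop : low r₁ r₂ eps (n + M) (desc r₁ r₂ eps n (M + 1)) (n + M + 1) = 0 := by
      rw [low, Nat.sub_self, eCo_zero, zero_mul, zero_add, desc_eq_zero r₁ r₂ eps (by omega),
        mul_zero]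
    have hall : ∀ j, j ≤ n + M + 1 → low r₁ r₂ eps (n + M) (desc r₁ r₂ eps n (M + 1)) j =
        eCo (rhoOf r₁ r₂ eps n) eps (M + 1) * desc r₁ r₂ eps n M j := by
      intro j hj
      rcases Nat.lt_or_ge (n + M) j with h | h
      · obtain rfl : j = n + M + 1 := by omega
        rw [htop, desc_eq_zero r₁ r₂ eps (by omega), mul_zero]
      · exact ih j h
    rw [desc_succ r₁ r₂ eps n (M + 1), show n + (M + 1) = n + M + 1 from rfl,
      low_up r₁ r₂ eps (n + M) _ (by omega)]
    have hup : up (low r₁ r₂ eps (n + M) (desc r₁ r₂ eps n (M + 1))) i =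
        eCo (rhoOf r₁ r₂ eps n) eps (M + 1) * desc r₁ r₂ eps n (M + 1) i := by
      rw [desc_succ r₁ r₂ eps n M, up, up, ← desc_succ r₁ r₂ eps n M, hall i (by omega)]
      split_ifs with h
      · simp
      · rw [hall (i - 1) (by omega), ← mul_add]
    rw [hup]
    simp only [eCo, rhoOf]
    push_cast
    ring

lemma ip_succ (T : ℕ) {n M : ℕ} (hT : n + M = T) (g : ℕ → K) :
    ip r₁ r₂ eps (T + 1) (desc r₁ r₂ eps n (M + 1)) g =
      ip r₁ r₂ eps T (desc r₁ r₂ eps n M) (low r₁ r₂ eps T g) := by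
  rw [desc_succ]
  exact ip_up r₁ r₂ eps T (desc_eq_zero r₁ r₂ eps (by omega)) g

lemma ip_desc_succ {T n n' M M' : ℕ} (h : n + M = T) (h' : n' + M' = T) :
    ip r₁ r₂ eps (T + 1) (desc r₁ r₂ eps n (M + 1)) (desc r₁ r₂ eps n' (M' + 1)) =
      eCo (rhoOf r₁ r₂ eps n') eps (M' + 1) *
        ip r₁ r₂ eps T (desc r₁ r₂ eps n M) (desc r₁ r₂ eps n' M') := by
  rw [ip_succ r₁ r₂ eps T h, ip, ip, Finset.mul_sum]
  refine Finset.sum_congr rfl fun i hi => ?_
  subst h'
  rw [low_desc r₁ r₂ eps n' M' i (Nat.lt_succ_iff.1 (mem_range.1 hi))]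
  ring

/-- The descendants of a level are orthogonal, with norms `hwNrm * nrm`. -/
theorem ip_desc : ∀ {T n n' M M' : ℕ}, n + M = T → n' + M' = T →
    ip r₁ r₂ eps T (desc r₁ r₂ eps n M) (desc r₁ r₂ eps n' M') =
      if n = n' then hwNrm r₁ r₂ eps n * nrm (rhoOf r₁ r₂ eps n) eps M else 0 := by
  intro T
  induction T with
  | zero =>
    intro n n' M M' h h'
    obtain ⟨rfl, rfl⟩ : n = 0 ∧ M = 0 := by omega
    obtain ⟨rfl, rfl⟩ : n' = 0 ∧ M' = 0 := by omega
    simp [ip, desc_zero, hwNrm, nrm]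
    ring
  | succ T ih =>
    intro n n' M M' h h'
    cases M' with
    | zero =>
      obtain rfl : n' = T + 1 := by omega
      cases M with
      | zero =>
        obtain rfl : n = T + 1 := by omega
        rw [if_pos rfl, desc_zero]
        simp only [ip, hwNrm, nrm, Finset.range_zero, Finset.prod_empty, mul_one]
        exact Finset.sum_congr rfl fun i _ => by ring
      | succ M =>
        rw [if_neg (by omega), ip_succ r₁ r₂ eps T (by omega), desc_zero r₁ r₂ eps (T + 1)]
        refine Finset.sum_eq_zero fun i hi => ?_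
        rw [show low r₁ r₂ eps T (hw r₁ r₂ eps (T + 1)) i = 0 from
          low_hw r₁ r₂ eps (n := T + 1) (mem_range.1 hi), mul_zero]
    | succ M' =>
      cases M with
      | zero =>
        obtain rfl : n = T + 1 := by omega
        rw [if_neg (by omega), ip_comm, ip_succ r₁ r₂ eps T (by omega), desc_zero r₁ r₂ eps (T + 1)]
        refine Finset.sum_eq_zero fun i hi => ?_
        rw [show low r₁ r₂ eps T (hw r₁ r₂ eps (T + 1)) i = 0 from
          low_hw r₁ r₂ eps (n := T + 1) (mem_range.1 hi), mul_zero]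
      | succ M =>
        rw [ip_desc_succ r₁ r₂ eps (T := T) (by omega) (by omega), ih (by omega) (by omega)]
        split_ifs with e
        · subst e
          obtain rfl : M = M' := by omega
          rw [nrm_succ]
          ring
        · exact mul_zero _

/-- Completeness of a level. -/
theorem desc_complete (T : ℕ)
    (h : ∀ n ≤ T, hwNrm r₁ r₂ eps n * nrm (rhoOf r₁ r₂ eps n) eps (T - n) ≠ 0)
    {i j : ℕ} (hi : i ≤ T) (hj : j ≤ T) :
    ∑ n ∈ range (T + 1), nrm r₁ eps i * nrm r₂ eps (T - i) * desc r₁ r₂ eps n (T - n) i /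
        (hwNrm r₁ r₂ eps n * nrm (rhoOf r₁ r₂ eps n) eps (T - n)) * desc r₁ r₂ eps n (T - n) j =
      if i = j then 1 else 0 := by
  let A : Matrix (Fin (T + 1)) (Fin (T + 1)) K := fun n a => desc r₁ r₂ eps n (T - n) a
  let B : Matrix (Fin (T + 1)) (Fin (T + 1)) K := fun a n =>
    nrm r₁ eps a * nrm r₂ eps (T - a) * desc r₁ r₂ eps n (T - n) a /
      (hwNrm r₁ r₂ eps n * nrm (rhoOf r₁ r₂ eps n) eps (T - n))
  have hAB : A * B = 1 := by
    ext n n'
    have hn := n.isLt
    have hn' := n'.isLt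
    have e := ip_desc r₁ r₂ eps (T := T) (n := n) (n' := n') (M := T - n) (M' := T - n')
      (by omega) (by omega)
    rw [ip, Finset.sum_range] at e
    rw [Matrix.mul_apply, Matrix.one_apply]
    calc ∑ a, A n a * B a n'
        = (∑ a : Fin (T + 1), nrm r₁ eps a * nrm r₂ eps (T - a) * desc r₁ r₂ eps n (T - n) a *
            desc r₁ r₂ eps n' (T - n') a) /
            (hwNrm r₁ r₂ eps n' * nrm (rhoOf r₁ r₂ eps n') eps (T - n')) := by
          rw [Finset.sum_div]
          exact Finset.sum_congr rfl fun a _ => by simp only [A, B]; ring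
      _ = _ := by
          rw [e]
          rcases eq_or_ne n n' with rfl | hne
          · rw [if_pos rfl, if_pos rfl, div_self (h n (by omega))]
          · rw [if_neg (fun e => hne (Fin.ext e)), if_neg hne, zero_div]
  have hBA' : B * A = 1 := mul_eq_one_comm.1 hAB
  have hBA := congrFun (congrFun hBA' (⟨i, by omega⟩ : Fin (T + 1))) (⟨j, by omega⟩ : Fin (T + 1))
  rw [Matrix.mul_apply, Matrix.one_apply] at hBA
  rw [Finset.sum_range]
  simpa [A, B, Fin.ext_iff] using hBA

end Coefficients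

section Positivity

variable {r₁ r₂ eps r : ℝ}

lemma nrm_pos {i : ℕ} (h : ∀ l < i, (l : ℝ) * eps < r) : 0 < nrm r eps i := by
  refine Finset.prod_pos fun l hl => ?_
  simp only [eCo]
  push_cast
  have := h l (mem_range.1 hl)
  exact mul_pos (by positivity) (by linarith)

lemma nrm_nonneg {i : ℕ} (h : ∀ l < i, (l : ℝ) * eps ≤ r) : 0 ≤ nrm r eps i := by
  refine Finset.prod_nonneg fun l hl => ?_
  simp only [eCo]
  push_cast
  have := h l (mem_range.1 hl)
  exact mul_nonneg (by positivity) (by linarith)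

lemma hwNrm_pos {n : ℕ} (h1 : ∀ l < n, (l : ℝ) * eps < r₁) (h2 : ∀ l < n, (l : ℝ) * eps < r₂) :
    0 < hwNrm r₁ r₂ eps n := by
  have h0 : hw r₁ r₂ eps n 0 ≠ 0 := by
    simp only [hw, Nat.zero_le, if_true, pow_zero, Nat.choose_zero_right, Nat.cast_one, one_mul,
      Finset.range_zero, Finset.prod_empty]
    exact (Finset.prod_pos fun l hl => sub_pos.2 (h1 l (mem_Ico.1 hl).2)).ne'
  refine lt_of_lt_of_le ?_ (Finset.single_le_sum (fun i hi => ?_) (mem_range.2 n.succ_pos))
  · exact mul_pos (mul_pos (pow_pos (abs_pos.2 h0) 2 |> fun e => by rwa [sq_abs] at e)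
      (by simp [nrm])) (nrm_pos fun l hl => h2 l hl)
  · have := mem_range.1 hi
    exact mul_nonneg (mul_nonneg (sq_nonneg _) (nrm_pos fun l hl => h1 l (by omega)).le)
      (nrm_pos fun l hl => h2 l (by omega)).le

/-- The norms of a level are positive below both dimensions. -/
lemma level_pos {T n : ℕ} (hn : n ≤ T) (h1 : ∀ l < T, (l : ℝ) * eps < r₁)
    (h2 : ∀ l < T, (l : ℝ) * eps < r₂) :
    0 < hwNrm r₁ r₂ eps n * nrm (rhoOf r₁ r₂ eps n) eps (T - n) := by
  refine mul_pos (hwNrm_pos (fun l hl => h1 l (by omega)) fun l hl => h2 l (by omega))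
    (nrm_pos fun l hl => ?_)
  have a := h1 (n + l) (by omega)
  have b := h2 n (by omega)
  simp only [rhoOf]
  push_cast at a
  linarith

end Positivity

section Abstract

variable {𝕜 A : Type*} [RCLike 𝕜]

variable [AddCommGroup A] [Module 𝕜 A]

/-- A ladder with parameter `rho` for the two brackets `R`, `L`. -/
structure IsLadder (R L : A →ₗ[𝕜] A) (rho eps : ℝ) (X : ℕ → A) : Prop where
  raise : ∀ i, R (X i) = X (i + 1)
  lower : ∀ i, L (X (i + 1)) = ((eCo rho eps (i + 1) : ℝ) : 𝕜) • X i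
  lower_zero : L (X 0) = 0

/-- A sesquilinear form for which the two brackets are adjoint. -/
structure IsInvariant (R L : A →ₗ[𝕜] A) (P : A →ₗ⋆[𝕜] A →ₗ[𝕜] 𝕜) : Prop where
  adj : ∀ a b, P (R a) b = P a (L b)
  adj' : ∀ a b, P (L a) b = P a (R b)

variable {R L : A →ₗ[𝕜] A} {P : A →ₗ⋆[𝕜] A →ₗ[𝕜] 𝕜} {ρ σ eps : ℝ} {X Y : ℕ → A}

/-- LADDER LEMMA. -/
theorem ladder_lemma (hP : IsInvariant R L P) (hX : IsLadder R L ρ eps X)
    (hY : IsLadder R L σ eps Y) (i l : ℕ) :
    P (X i) (Y l) = if i = l then ((nrm σ eps i : ℝ) : 𝕜) * P (X 0) (Y 0) else 0 := by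
  induction i generalizing l with
  | zero =>
    cases l with
    | zero => simp [nrm]
    | succ l =>
      rw [← hY.raise, ← hP.adj', hX.lower_zero, map_zero, LinearMap.zero_apply,
        if_neg (Nat.succ_ne_zero l).symm]
  | succ i ih =>
    cases l with
    | zero =>
      rw [← hX.raise, hP.adj, hY.lower_zero, map_zero, if_neg (Nat.succ_ne_zero i)]
    | succ l =>
      rw [← hX.raise, hP.adj, hY.lower, map_smul, ih, smul_eq_mul]
      split_ifs with h1 h2 h2
      · subst h1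
        rw [nrm_succ, RCLike.ofReal_mul]
        ring
      · omega
      · omega
      · exact mul_zero _

/-- Ladders of different parameters are orthogonal. -/
theorem ladder_orth (hP : IsInvariant R L P) (hX : IsLadder R L ρ eps X)
    (hY : IsLadder R L σ eps Y) (h : ρ ≠ σ) (i l : ℕ) : P (X i) (Y l) = 0 := by
  have e1 : P (X 1) (Y 1) = ((σ : ℝ) : 𝕜) * P (X 0) (Y 0) := by
    rw [ladder_lemma hP hX hY, if_pos rfl]
    simp [nrm, eCo]
  have e2 : P (X 1) (Y 1) = ((ρ : ℝ) : 𝕜) * P (X 0) (Y 0) := by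
    rw [← hY.raise, ← hP.adj', hX.lower, map_smulₛₗ, LinearMap.smul_apply, RCLike.conj_ofReal,
      smul_eq_mul]
    simp [eCo]
  have h0 : P (X 0) (Y 0) = 0 := by
    have : (((σ : ℝ) : 𝕜) - ((ρ : ℝ) : 𝕜)) * P (X 0) (Y 0) = 0 := by rw [sub_mul, ← e1, e2, sub_self]
    exact (mul_eq_zero.1 this).resolve_left
      (sub_ne_zero.2 fun e => h (RCLike.ofReal_inj.1 e).symm)
  rw [ladder_lemma hP hX hY, h0, mul_zero, ite_self]

lemma IsLadder.smul (hX : IsLadder R L ρ eps X) (c : 𝕜) : IsLadder R L ρ eps fun i => c • X i :=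
  ⟨fun i => by rw [map_smul, hX.raise], fun i => by rw [map_smul, hX.lower, smul_comm],
    by rw [map_smul, hX.lower_zero, smul_zero]⟩

end Abstract

section Compose

variable {𝕜 A : Type*} [RCLike 𝕜] [Ring A] [Algebra 𝕜 A]

/-- The bracket `a ↦ a * e - e * a`. -/
def brk (e : A) : A →ₗ[𝕜] A := LinearMap.mulRight 𝕜 e - LinearMap.mulLeft 𝕜 e

lemma brk_apply (e a : A) : brk (𝕜 := 𝕜) e a = a * e - e * a := rfl

lemma brk_mul (e a b : A) :
    brk (𝕜 := 𝕜) e (a * b) = brk (𝕜 := 𝕜) e a * b + a * brk (𝕜 := 𝕜) e b := by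
  simp only [brk_apply]
  noncomm_ring

variable {R L : A →ₗ[𝕜] A} {r₁ r₂ eps : ℝ} {X Y : ℕ → A}

/-- The combination of level `T` of the products of two ladders. -/
noncomputable def row (X Y : ℕ → A) (T : ℕ) (f : ℕ → ℝ) : A :=
  ∑ i ∈ range (T + 1), ((f i : ℝ) : 𝕜) • (Y (T - i) * X i)

lemma raise_row (hR : ∀ a b, R (a * b) = R a * b + a * R b) (hX : IsLadder R L r₁ eps X)
    (hY : IsLadder R L r₂ eps Y) (T : ℕ) (f : ℕ → ℝ) (hf : f (T + 1) = 0) :
    R (row (𝕜 := 𝕜) X Y T f) = row (𝕜 := 𝕜) X Y (T + 1) (up f) := by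
  have h1 : ∑ i ∈ range (T + 1 + 1), ((f i : ℝ) : 𝕜) • (Y (T + 1 - i) * X i) =
      ∑ i ∈ range (T + 1), ((f i : ℝ) : 𝕜) • (Y (T - i + 1) * X i) := by
    rw [Finset.sum_range_succ, hf, RCLike.ofReal_zero, zero_smul, add_zero]
    refine Finset.sum_congr rfl fun i hi => ?_
    rw [show T + 1 - i = T - i + 1 by have := mem_range.1 hi; omega]
  have h2 : ∑ i ∈ range (T + 1 + 1),
      (((if i = 0 then 0 else f (i - 1) : ℝ)) : 𝕜) • (Y (T + 1 - i) * X i) =
      ∑ i ∈ range (T + 1), ((f i : ℝ) : 𝕜) • (Y (T - i) * X (i + 1)) := by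
    rw [Finset.sum_range_succ']
    simp
  simp only [row, up, map_sum, map_smul, hR, hX.raise, hY.raise, smul_add, RCLike.ofReal_add,
    add_smul, Finset.sum_add_distrib]
  rw [h1, h2]

lemma lower_row (hL : ∀ a b, L (a * b) = L a * b + a * L b) (hX : IsLadder R L r₁ eps X)
    (hY : IsLadder R L r₂ eps Y) (T : ℕ) (f : ℕ → ℝ) :
    L (row (𝕜 := 𝕜) X Y (T + 1) f) = row (𝕜 := 𝕜) X Y T (low r₁ r₂ eps T f) := by
  have h1 : ∑ i ∈ range (T + 1 + 1), ((f i : ℝ) : 𝕜) • (L (Y (T + 1 - i)) * X i) =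
      ∑ i ∈ range (T + 1), ((eCo r₂ eps (T + 1 - i) * f i : ℝ) : 𝕜) • (Y (T - i) * X i) := by
    rw [Finset.sum_range_succ, Nat.sub_self, hY.lower_zero, zero_mul, smul_zero, add_zero]
    refine Finset.sum_congr rfl fun i hi => ?_
    rw [show T + 1 - i = T - i + 1 by have := mem_range.1 hi; omega, hY.lower, smul_mul_assoc,
      smul_smul, RCLike.ofReal_mul, mul_comm]
  have h2 : ∑ i ∈ range (T + 1 + 1), ((f i : ℝ) : 𝕜) • (Y (T + 1 - i) * L (X i)) =
      ∑ i ∈ range (T + 1), ((eCo r₁ eps (i + 1) * f (i + 1) : ℝ) : 𝕜) • (Y (T - i) * X i) := by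
    rw [Finset.sum_range_succ', hX.lower_zero, mul_zero, smul_zero, add_zero]
    refine Finset.sum_congr rfl fun i _ => ?_
    rw [hX.lower, mul_smul_comm, smul_smul, RCLike.ofReal_mul, mul_comm, Nat.add_sub_add_right]
  simp only [row, low, map_sum, map_smul, hL, smul_add, RCLike.ofReal_add, add_smul,
    Finset.sum_add_distrib]
  rw [h1, h2]

variable (𝕜) in
/-- The composed ladder number `n`. -/
noncomputable def comp (r₁ r₂ eps : ℝ) (n : ℕ) (X Y : ℕ → A) (M : ℕ) : A :=
  ∑ i ∈ range (n + M + 1), ((desc r₁ r₂ eps n M i : ℝ) : 𝕜) • (Y (n + M - i) * X i)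

lemma comp_eq_row (n M : ℕ) :
    comp 𝕜 r₁ r₂ eps n X Y M = row (𝕜 := 𝕜) X Y (n + M) (desc r₁ r₂ eps n M) := rfl

/-- COMPOSE LEMMA. -/
theorem comp_ladder (hR : ∀ a b, R (a * b) = R a * b + a * R b)
    (hL : ∀ a b, L (a * b) = L a * b + a * L b) (hX : IsLadder R L r₁ eps X)
    (hY : IsLadder R L r₂ eps Y) (n : ℕ) :
    IsLadder R L (rhoOf r₁ r₂ eps n) eps (comp 𝕜 r₁ r₂ eps n X Y) := by
  refine ⟨fun M => ?_, fun M => ?_, ?_⟩
  · rw [comp_eq_row, raise_row hR hX hY _ _ (desc_eq_zero r₁ r₂ eps (by omega)),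
      ← desc_succ r₁ r₂ eps n M]
    rfl
  · rw [comp_eq_row, show n + (M + 1) = n + M + 1 from rfl, lower_row hL hX hY, comp_eq_row, row,
      row, Finset.smul_sum]
    refine Finset.sum_congr rfl fun i hi => ?_
    rw [low_desc r₁ r₂ eps n M i (Nat.lt_succ_iff.1 (mem_range.1 hi)), RCLike.ofReal_mul, smul_smul]
  · rw [comp_eq_row, desc_zero]
    cases n with
    | zero =>
      simp [row, map_smul, hL, hX.lower_zero, hY.lower_zero]
    | succ n =>
      rw [show n + 1 + 0 = n + 1 from rfl, lower_row hL hX hY, row]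
      refine Finset.sum_eq_zero fun i hi => ?_
      rw [show low r₁ r₂ eps n (hw r₁ r₂ eps (n + 1)) i = 0 from
        low_hw r₁ r₂ eps (n := n + 1) (mem_range.1 hi), RCLike.ofReal_zero, zero_smul]

/-- INVERSION. -/
theorem inversion (i b : ℕ) (h1 : ∀ l < i + b, (l : ℝ) * eps < r₁)
    (h2 : ∀ l < i + b, (l : ℝ) * eps < r₂) :
    Y b * X i = ∑ n ∈ range (i + b + 1),
      ((nrm r₁ eps i * nrm r₂ eps b * desc r₁ r₂ eps n (i + b - n) i /
        (hwNrm r₁ r₂ eps n * nrm (rhoOf r₁ r₂ eps n) eps (i + b - n)) : ℝ) : 𝕜) •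
          comp 𝕜 r₁ r₂ eps n X Y (i + b - n) := by
  have hc := fun j (hj : j ≤ i + b) => desc_complete r₁ r₂ eps (i + b)
    (fun n hn => (level_pos hn h1 h2).ne') (Nat.le_add_right i b) hj
  symm
  calc _ = ∑ n ∈ range (i + b + 1), ∑ j ∈ range (i + b + 1),
        ((nrm r₁ eps i * nrm r₂ eps b * desc r₁ r₂ eps n (i + b - n) i /
          (hwNrm r₁ r₂ eps n * nrm (rhoOf r₁ r₂ eps n) eps (i + b - n)) *
          desc r₁ r₂ eps n (i + b - n) j : ℝ) : 𝕜) • (Y (i + b - j) * X j) := by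
        refine Finset.sum_congr rfl fun n hn => ?_
        rw [comp, show n + (i + b - n) = i + b by have := mem_range.1 hn; omega, Finset.smul_sum]
        exact Finset.sum_congr rfl fun j _ => by rw [smul_smul, RCLike.ofReal_mul]
    _ = ∑ j ∈ range (i + b + 1), ((if i = j then 1 else 0 : ℝ) : 𝕜) • (Y (i + b - j) * X j) := by
        rw [Finset.sum_comm]
        refine Finset.sum_congr rfl fun j hj => ?_
        rw [← Finset.sum_smul, ← RCLike.ofReal_sum]
        have e := hc j (Nat.lt_succ_iff.1 (mem_range.1 hj))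
        rw [show i + b - i = b by omega] at e
        rw [e]
    _ = Y b * X i := by
        rw [Finset.sum_eq_single i (fun j _ hj => by simp [Ne.symm hj]) (by simp)]
        simp

end Compose

end Vale.Agent.P359.Ladder
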