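import Vale.Agent.P359.UniformCert
import Vale.Agent.P359.Ladder

/-!
The scaled one-particle ladder on Fock space, the commutation of the pair Hamiltonian with the
ladder operators, and `GapConjecture` from a bound on invariant trace functionals.
-/

open Finset RCLike
open scoped InnerProductSpace

namespace Vale.Agent.P359

open Coef

section CarOps

variable {𝕜 E ι : Type*} [RCLike 𝕜] [NormedAddCommGroup E] [InnerProductSpace 𝕜 E]
  [Fintype ι] [DecidableEq ι] (C : Car 𝕜 E ι)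

/-- The one-body operator of a real matrix. -/
noncomputable def Car.oneBody (M : ι → ι → ℝ) : Module.End 𝕜 E :=
  ∑ a, ∑ b, (M a b : 𝕜) • (C.cre a * C.ann b)

theorem Car.oneBody_adj (M : ι → ι → ℝ) (x y : E) :
    ⟪C.oneBody M x, y⟫_𝕜 = ⟪x, C.oneBody (fun a b => M b a) y⟫_𝕜 := by
  simp only [Car.oneBody, LinearMap.sum_apply, LinearMap.smul_apply, Module.End.mul_apply,
    sum_inner, inner_sum, inner_smul_left, inner_smul_right, RCLike.conj_ofReal]
  rw [Finset.sum_comm]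
  refine sum_congr rfl fun a _ => sum_congr rfl fun b _ => ?_
  rw [C.adj, ← inner_conj_symm x (C.cre a _), C.adj, inner_conj_symm]

theorem Car.brk_ann (M : ι → ι → ℝ) (c : ι) :
    Ladder.brk (𝕜 := 𝕜) (C.oneBody M) (C.ann c) = ∑ b, (M c b : 𝕜) • C.ann b := by
  have key : ∀ a b, C.ann c * (C.cre a * C.ann b) - (C.cre a * C.ann b) * C.ann c =
      (if c = a then 1 else 0) * C.ann b := by
    intro a b
    rw [← C.mix c a, mul_assoc (C.cre a) (C.ann b), C.anti b c]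
    noncomm_ring
  simp only [Ladder.brk_apply, Car.oneBody, Finset.mul_sum, Finset.sum_mul, mul_smul_comm,
    smul_mul_assoc, ← Finset.sum_sub_distrib, ← smul_sub, key, ite_mul, one_mul, zero_mul,
    smul_ite, smul_zero]
  rw [Finset.sum_comm]
  simp

end CarOps

section Functional

variable {𝕜 E κ : Type*} [RCLike 𝕜] [NormedAddCommGroup E] [InnerProductSpace 𝕜 E] [Fintype κ]

/-- The sesquilinear form `a, b ↦ φ (a* b)` of the trace functional of a family. -/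
noncomputable def Pf (χ : κ → E) : Module.End 𝕜 E →ₗ⋆[𝕜] Module.End 𝕜 E →ₗ[𝕜] 𝕜 :=
  LinearMap.mk₂'ₛₗ (starRingEnd 𝕜) (RingHom.id 𝕜) (fun a b => ∑ i, ⟪a (χ i), b (χ i)⟫_𝕜)
    (fun a a' b => by simp [inner_add_left, Finset.sum_add_distrib])
    (fun c a b => by simp [inner_smul_left, Finset.mul_sum])
    (fun a b b' => by simp [inner_add_right, Finset.sum_add_distrib])
    (fun c a b => by simp [inner_smul_right, Finset.mul_sum])

theorem Pf_apply (χ : κ → E) (a b : Module.End 𝕜 E) :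
    Pf χ a b = ∑ i, ⟪a (χ i), b (χ i)⟫_𝕜 := rfl

theorem Pf_self_nonneg (χ : κ → E) (a : Module.End 𝕜 E) : 0 ≤ re (Pf χ a a) := by
  rw [Pf_apply, map_sum]
  exact Finset.sum_nonneg fun i _ => inner_self_nonneg

theorem Pf_conj (χ : κ → E) (a b : Module.End 𝕜 E) :
    starRingEnd 𝕜 (Pf χ a b) = Pf χ b a := by
  simp [Pf_apply]

theorem Pf_brk (V : Submodule 𝕜 E) (b : OrthonormalBasis κ 𝕜 V) (S T : Module.End 𝕜 E)
    (hadj : ∀ x y, ⟪S x, y⟫_𝕜 = ⟪x, T y⟫_𝕜) (hS : ∀ x ∈ V, S x ∈ V) (hT : ∀ x ∈ V, T x ∈ V)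
    (p q : Module.End 𝕜 E) :
    Pf (fun i => (b i : E)) (Ladder.brk (𝕜 := 𝕜) S p) q =
      Pf (fun i => (b i : E)) p (Ladder.brk (𝕜 := 𝕜) T q) := by
  have hexp : ∀ (U : Module.End 𝕜 E), (∀ x ∈ V, U x ∈ V) → ∀ i,
      U (b i) = ∑ j, ⟪(b j : E), U (b i)⟫_𝕜 • (b j : E) := by
    intro U hU i
    have h := congrArg Subtype.val (b.sum_repr' ⟨U (b i), hU _ (b i).2⟩).symm
    simpa using h
  have h1 : ∑ i, ⟪p (S (b i)), q (b i)⟫_𝕜 = ∑ i, ⟪p (b i), q (T (b i))⟫_𝕜 := by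
    calc ∑ i, ⟪p (S (b i)), q (b i)⟫_𝕜
        = ∑ i, ∑ j, ⟪(b i : E), T (b j)⟫_𝕜 * ⟪p (b j), q (b i)⟫_𝕜 := by
          refine sum_congr rfl fun i _ => ?_
          rw [hexp S hS i, map_sum, sum_inner]
          refine sum_congr rfl fun j _ => ?_
          rw [map_smul, inner_smul_left, inner_conj_symm, hadj]
      _ = ∑ j, ∑ i, ⟪(b i : E), T (b j)⟫_𝕜 * ⟪p (b j), q (b i)⟫_𝕜 := Finset.sum_comm
      _ = ∑ i, ⟪p (b i), q (T (b i))⟫_𝕜 := by
          refine sum_congr rfl fun j _ => ?_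
          conv_rhs => rw [hexp T hT j]
          rw [map_sum, inner_sum]
          exact sum_congr rfl fun i _ => by rw [map_smul, inner_smul_right]
  simp only [Pf_apply, Ladder.brk_apply, LinearMap.sub_apply, Module.End.mul_apply, inner_sub_left,
    inner_sub_right, Finset.sum_sub_distrib, h1, hadj]

theorem Pf_invariant (V : Submodule 𝕜 E) (b : OrthonormalBasis κ 𝕜 V) (S T : Module.End 𝕜 E)
    (hadj : ∀ x y, ⟪S x, y⟫_𝕜 = ⟪x, T y⟫_𝕜) (hS : ∀ x ∈ V, S x ∈ V) (hT : ∀ x ∈ V, T x ∈ V) :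
    Ladder.IsInvariant (Ladder.brk (𝕜 := 𝕜) S) (Ladder.brk (𝕜 := 𝕜) T)
      (Pf fun i => (b i : E)) :=
  ⟨Pf_brk V b S T hadj hS hT, Pf_brk V b T S
    (fun x y => by rw [← inner_conj_symm x (S y), hadj, inner_conj_symm]) hT hS⟩

/-- A square bound on eigenvectors gives the square bound. -/
theorem square_of_eigen [FiniteDimensional 𝕜 E] {T : E →ₗ[𝕜] E} (hT : T.IsSymmetric) {γ : ℝ}
    (h : ∀ (e : ℝ) (x : E), x ≠ 0 → T x = (e : 𝕜) • x → γ * e ≤ e ^ 2) (x : E) :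
    γ * re ⟪x, T x⟫_𝕜 ≤ ‖T x‖ ^ 2 := by
  set b := hT.eigenvectorBasis rfl with hb
  set e := hT.eigenvalues rfl with he
  have hev : ∀ i, T (b i) = (e i : 𝕜) • b i := fun i => hT.apply_eigenvectorBasis rfl i
  have hrep : ∀ i, ⟪b i, T x⟫_𝕜 = (e i : 𝕜) * ⟪b i, x⟫_𝕜 := fun i => by
    rw [← hT, hev, inner_smul_left, RCLike.conj_ofReal]
  have h1 : re ⟪x, T x⟫_𝕜 = ∑ i, e i * ‖⟪b i, x⟫_𝕜‖ ^ 2 := by
    rw [← b.sum_inner_mul_inner x (T x), map_sum]
    refine Finset.sum_congr rfl fun i _ => ?_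
    rw [hrep, ← inner_conj_symm x (b i), mul_left_comm, RCLike.conj_mul, ← RCLike.ofReal_pow,
      ← RCLike.ofReal_mul, RCLike.ofReal_re]
  have h2 : ‖T x‖ ^ 2 = ∑ i, e i ^ 2 * ‖⟪b i, x⟫_𝕜‖ ^ 2 := by
    rw [← b.sum_sq_norm_inner_right (T x)]
    refine Finset.sum_congr rfl fun i _ => ?_
    rw [hrep, norm_mul, RCLike.norm_ofReal, mul_pow, sq_abs]
  rw [h1, h2, Finset.mul_sum]
  refine Finset.sum_le_sum fun i _ => ?_
  rw [← mul_assoc]
  exact mul_le_mul_of_nonneg_right (h _ _ (b.orthonormal.ne_zero i) (hev i)) (sq_nonneg _)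

end Functional

section Scaled

/-- The ladder parameter `1 / Q`. -/
noncomputable def epsQ (Q : ℕ) : ℝ := 1 / (Q : ℝ)

/-- The scale of the `a`-th annihilator. -/
noncomputable def sc (Q a : ℕ) : ℝ := Real.sqrt (nrm 1 (epsQ Q) a)

/-- The scaled annihilators, zero beyond `Q`. -/
noncomputable def u (Q a : ℕ) : Module.End ℂ (FockQ Q) :=
  ∑ x : Fin (Q + 1), ((if (x : ℕ) = a then sc Q a else 0 : ℝ) : ℂ) • (carQ Q).ann x

theorem u_of_le {Q a : ℕ} (h : a ≤ Q) :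
    u Q a = (sc Q a : ℂ) • (carQ Q).ann ⟨a, by omega⟩ := by
  rw [u, Finset.sum_eq_single ⟨a, by omega⟩]
  · simp
  · intro x _ hx
    rw [if_neg fun e => hx (Fin.ext e)]
    simp
  · simp

theorem u_of_gt {Q a : ℕ} (h : Q < a) : u Q a = 0 := by
  refine sum_eq_zero fun x _ => ?_
  rw [if_neg (by omega)]
  simp

/-- The matrix of the scaled lowering operator. -/
noncomputable def lowMat (Q : ℕ) (x y : Fin (Q + 1)) : ℝ :=
  if (x : ℕ) = y + 1 then Real.sqrt (eCo 1 (epsQ Q) x) else 0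

/-- The lowering operator on Fock space. -/
noncomputable def Fop (Q : ℕ) : Module.End ℂ (FockQ Q) := (carQ Q).oneBody (lowMat Q)

/-- The raising operator on Fock space. -/
noncomputable def Eop (Q : ℕ) : Module.End ℂ (FockQ Q) :=
  (carQ Q).oneBody fun x y => lowMat Q y x

/-- The bracket with the raising operator. -/
noncomputable abbrev Rb (Q : ℕ) : Module.End ℂ (FockQ Q) →ₗ[ℂ] Module.End ℂ (FockQ Q) :=
  Ladder.brk (𝕜 := ℂ) (Eop Q)

/-- The bracket with the lowering operator. -/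
noncomputable abbrev Lb (Q : ℕ) : Module.End ℂ (FockQ Q) →ₗ[ℂ] Module.End ℂ (FockQ Q) :=
  Ladder.brk (𝕜 := ℂ) (Fop Q)

theorem Eop_adj (Q : ℕ) (x y : FockQ Q) : ⟪Eop Q x, y⟫_ℂ = ⟪x, Fop Q y⟫_ℂ :=
  (carQ Q).oneBody_adj _ x y

theorem Fop_adj (Q : ℕ) (x y : FockQ Q) : ⟪Fop Q x, y⟫_ℂ = ⟪x, Eop Q y⟫_ℂ :=
  (carQ Q).oneBody_adj _ x y

theorem eCo_one_nonneg {Q a : ℕ} (h : a ≤ Q + 1) : 0 ≤ eCo (1 : ℝ) (epsQ Q) a := by
  rcases a with _ | a
  · simp [eCo]
  rcases Q with _ | Q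
  · obtain rfl : a = 0 := by omega
    simp [eCo, epsQ]
  have hle : (a : ℝ) ≤ (Q : ℝ) + 1 := by exact_mod_cast (by omega : a ≤ Q + 1)
  simp only [eCo, epsQ]
  push_cast
  refine mul_nonneg (by positivity) ?_
  rw [sub_nonneg, add_sub_cancel_right, mul_one_div, div_le_one (by positivity)]
  exact hle

theorem sc_succ {Q a : ℕ} (h : a ≤ Q) :
    sc Q (a + 1) = sc Q a * Real.sqrt (eCo 1 (epsQ Q) (a + 1)) := by
  rw [sc, sc, Ladder.nrm_succ, Real.sqrt_mul' _ (eCo_one_nonneg (by omega))]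

theorem brk_oneBody {Q : ℕ} (M : Fin (Q + 1) → Fin (Q + 1) → ℝ) (c : Fin (Q + 1)) :
    Ladder.brk (𝕜 := ℂ) ((carQ Q).oneBody M) ((carQ Q).ann c) =
      ∑ b, ((M c b : ℝ) : ℂ) • (carQ Q).ann b := (carQ Q).brk_ann M c

/-- The scaled annihilators form a ladder with parameter one. -/
theorem u_ladder {Q : ℕ} (hQ : 0 < Q) : Ladder.IsLadder (Rb Q) (Lb Q) 1 (epsQ Q) (u Q) := by
  refine ⟨fun i => ?_, fun i => ?_, ?_⟩
  · rcases Nat.lt_or_ge Q i with h | h
    · rw [u_of_gt h, u_of_gt (by omega : Q < i + 1), map_zero]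
    · rw [u_of_le h, map_smul]
      simp only [Rb, Eop, brk_oneBody]
      rw [u, Finset.smul_sum]
      refine sum_congr rfl fun x _ => ?_
      rw [smul_smul, ← Complex.ofReal_mul]
      congr 2
      simp only [lowMat]
      split_ifs with e
      · rw [e, sc_succ h]
      · exact mul_zero _
  · rcases Nat.lt_or_ge i Q with h | h
    · rw [u_of_le h.le, u_of_le h, map_smul]
      simp only [Lb, Fop, brk_oneBody]
      rw [Finset.sum_eq_single (⟨i, by omega⟩ : Fin (Q + 1))]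
      · rw [smul_smul, smul_smul]
        congr 1
        rw [← Complex.ofReal_mul]
        change _ = ((eCo 1 (epsQ Q) (i + 1) : ℝ) : ℂ) * ((sc Q i : ℝ) : ℂ)
        rw [← Complex.ofReal_mul, lowMat, if_pos rfl, sc_succ h.le, mul_assoc,
          Real.mul_self_sqrt (eCo_one_nonneg (by omega)), mul_comm]
      · intro x _ hx
        rw [lowMat, if_neg, Complex.ofReal_zero, zero_smul]
        intro e
        exact hx (Fin.ext (show (x : ℕ) = i by simp at e; omega))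
      · simp
    · rw [u_of_gt (by omega : Q < i + 1), map_zero]
      rcases h.eq_or_lt with rfl | h'
      · have : eCo (1 : ℝ) (epsQ Q) (Q + 1) = 0 := by
          have hne : (Q : ℝ) ≠ 0 := Nat.cast_ne_zero.2 hQ.ne'
          simp [eCo, epsQ, hne]
        rw [this]
        simp
      · rw [u_of_gt h', smul_zero]
  · rw [u_of_le (Nat.zero_le Q), map_smul]
    simp only [Lb, Fop, brk_oneBody]
    rw [Finset.sum_eq_zero, smul_zero]
    intro x _
    rw [lowMat, if_neg (by simp), Complex.ofReal_zero, zero_smul]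

/-- The scaled pair ladder. -/
noncomputable def Bh (Q : ℕ) : ℕ → Module.End ℂ (FockQ Q) :=
  Ladder.comp ℂ 1 1 (epsQ Q) 1 (u Q) (u Q)

theorem rhoOf_pair (eps : ℝ) : rhoOf 1 1 eps 1 = rhoJ eps := by
  simp [rhoOf, rhoJ]
  ring

theorem brk_mul' {A : Type*} [Ring A] [Algebra ℂ A] (e : A) :
    ∀ a b : A, Ladder.brk (𝕜 := ℂ) e (a * b) =
      Ladder.brk (𝕜 := ℂ) e a * b + a * Ladder.brk (𝕜 := ℂ) e b :=
  Ladder.brk_mul e

theorem Bh_ladder {Q : ℕ} (hQ : 0 < Q) :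
    Ladder.IsLadder (Rb Q) (Lb Q) (rhoJ (epsQ Q)) (epsQ Q) (Bh Q) := by
  rw [← rhoOf_pair]
  exact Ladder.comp_ladder (brk_mul' _) (brk_mul' _) (u_ladder hQ) (u_ladder hQ) 1

theorem nrm_one_eq (Q i : ℕ) (hQ : 0 < Q) :
    nrm (1 : ℝ) (epsQ Q) i = ((Nat.factorial i : ℝ)) ^ 2 * (Q.choose i : ℝ) / (Q : ℝ) ^ i := by
  have hne : (Q : ℝ) ≠ 0 := Nat.cast_ne_zero.2 hQ.ne'
  induction i with
  | zero => simp [nrm]
  | succ i ih =>
    rw [Ladder.nrm_succ, ih, Nat.factorial_succ]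
    have hc : (Q.choose (i + 1) : ℝ) * (i + 1) = (Q.choose i : ℝ) * ((Q : ℝ) - i) := by
      rcases Nat.lt_or_ge Q i with h | h
      · simp [Nat.choose_eq_zero_of_lt h, Nat.choose_eq_zero_of_lt (by omega : Q < i + 1)]
      · have := congrArg (Nat.cast : ℕ → ℝ) (Nat.choose_succ_right_eq Q i)
        rw [Nat.cast_mul, Nat.cast_mul, Nat.cast_sub h] at this
        push_cast at this
        exact this
    simp only [eCo, epsQ]
    push_cast
    rw [pow_succ]
    field_simp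
    linear_combination -((Q : ℝ) ^ i * (Q : ℝ)) * hc

/-- The scale of the pair ladder against `pairVec`. -/
noncomputable def kapB (Q k : ℕ) : ℝ := (Nat.factorial k : ℝ) / Real.sqrt Q ^ (k + 1)

theorem sc_eq (Q i : ℕ) (hQ : 0 < Q) :
    sc Q i = (Nat.factorial i : ℝ) * Real.sqrt (Q.choose i) / Real.sqrt Q ^ i := by
  have hq : 0 < Real.sqrt Q := Real.sqrt_pos.2 (Nat.cast_pos.2 hQ)
  rw [sc, nrm_one_eq Q i hQ, Real.sqrt_eq_iff_eq_sq (by positivity) (by positivity), div_pow,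
    mul_pow, Real.sq_sqrt (Nat.cast_nonneg _), ← pow_mul, mul_comm i 2, pow_mul,
    Real.sq_sqrt (Nat.cast_nonneg _)]

theorem desc_one (eps : ℝ) (k i : ℕ) :
    desc 1 1 eps 1 k i = (k.choose i : ℝ) - if i = 0 then 0 else (k.choose (i - 1) : ℝ) := by
  induction k generalizing i with
  | zero =>
    rw [Ladder.desc_zero]
    rcases i with _ | _ | i <;> simp [hw]
  | succ k ih =>
    rw [Ladder.desc_succ, Ladder.up, ih]
    rcases i with _ | _ | i
    · simp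
    · simp [ih]
    · simp only [Nat.succ_ne_zero, if_false, Nat.add_sub_cancel, ih, Nat.choose_succ_succ',
        Nat.cast_add]
      ring

/-- The pair ladder coefficients are the pseudopotential pair vectors. -/
theorem desc_pairVec {Q : ℕ} (hQ : 0 < Q) (k : ℕ) (a b : Fin (Q + 1)) (h : (a : ℕ) + b = k + 1) :
    desc 1 1 (epsQ Q) 1 k a * sc Q a * sc Q b = kapB Q k * pairVec Q (k + 1) a b := by
  obtain ⟨a, ha⟩ := a
  obtain ⟨b, hb⟩ := b
  simp only at h
  have hq : 0 < Real.sqrt Q := Real.sqrt_pos.2 (Nat.cast_pos.2 hQ)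
  have key : ((k.choose a : ℝ) - if a = 0 then 0 else (k.choose (a - 1) : ℝ)) *
      ((Nat.factorial a : ℝ) * Nat.factorial b) = (Nat.factorial k : ℝ) * ((b : ℝ) - a) := by
    rcases a with _ | a
    · obtain rfl : b = k + 1 := by omega
      simp [Nat.factorial_succ]
      ring
    · rcases b with _ | b
      · obtain rfl : a = k := by omega
        simp [Nat.factorial_succ]
        ring
      · have hk : a + 1 + b = k := by omega
        have h1 := congrArg (Nat.cast : ℕ → ℝ)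
          (Nat.choose_mul_factorial_mul_factorial (by omega : a + 1 ≤ k))
        have h2 := congrArg (Nat.cast : ℕ → ℝ)
          (Nat.choose_mul_factorial_mul_factorial (by omega : a ≤ k))
        rw [show k - (a + 1) = b by omega] at h1
        rw [show k - a = b + 1 by omega] at h2
        rw [if_neg (Nat.succ_ne_zero a), Nat.add_sub_cancel]
        simp only [Nat.factorial_succ] at h1 h2 ⊢
        push_cast at h1 h2 ⊢
        linear_combination ((b : ℝ) + 1) * h1 - ((a : ℝ) + 1) * h2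
  rw [desc_one, pairVec, if_pos h, sc_eq Q a hQ, sc_eq Q b hQ, kapB,
    Real.sqrt_mul (Nat.cast_nonneg _), ← h, pow_add]
  simp only
  field_simp
  linear_combination (Real.sqrt (Q.choose a) * Real.sqrt (Q.choose b)) * key

theorem Bh_eq {Q : ℕ} (hQ : 0 < Q) (k : ℕ) :
    Bh Q k = (kapB Q k : ℂ) • ∑ a : Fin (Q + 1), ∑ b : Fin (Q + 1),
      (pairVec Q (k + 1) a b : ℂ) • ((carQ Q).ann b * (carQ Q).ann a) := by
  simp only [Bh, Ladder.comp, u, Finset.smul_sum, Finset.sum_mul, Finset.mul_sum, smul_mul_smul,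
    smul_smul]
  rw [Finset.sum_comm]
  refine sum_congr rfl fun a _ => ?_
  rw [Finset.sum_comm]
  refine sum_congr rfl fun b _ => ?_
  rw [← Finset.sum_smul]
  congr 1
  by_cases h : (a : ℕ) + b = k + 1
  · rw [Finset.sum_eq_single (a : ℕ)]
    · rw [if_pos (by omega), if_pos rfl, show 1 + k - (a : ℕ) = b by omega]
      change ((desc 1 1 (epsQ Q) 1 k a : ℝ) : ℂ) * (((sc Q b : ℝ) : ℂ) * ((sc Q a : ℝ) : ℂ)) = _
      rw [← Complex.ofReal_mul (kapB Q k), ← desc_pairVec hQ k a b h]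
      push_cast
      ring
    · intro i _ hi
      rw [if_neg (Ne.symm hi)]
      simp
    · intro hna
      simp at hna
      omega
  · rw [pairVec, if_neg h, Complex.ofReal_zero, mul_zero]
    refine sum_eq_zero fun i hi => ?_
    have := mem_range.1 hi
    by_cases ha : (a : ℕ) = i
    · rw [if_neg (by omega : ¬ (b : ℕ) = 1 + k - i)]
      simp
    · rw [if_neg ha]
      simp

theorem Bh_top {Q k : ℕ} (hQ : 0 < Q) (h : 2 * Q - 1 ≤ k) : Bh Q k = 0 := by
  simp [Bh_eq hQ, pairVec_zero (Q := Q) (s := k + 1) (Or.inr (by omega))]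

theorem nrm_rhoJ_pos {Q k : ℕ} (hk : k < 2 * Q - 1) : 0 < nrm (rhoJ (epsQ Q)) (epsQ Q) k := by
  refine Ladder.nrm_pos fun l hl => ?_
  have hQ : (0 : ℝ) < Q := by exact_mod_cast (by omega : 0 < Q)
  have hl' : (l : ℝ) + 3 ≤ 2 * Q := by exact_mod_cast (by omega : l + 3 ≤ 2 * Q)
  simp only [rhoJ, epsQ]
  rw [← sub_pos]
  field_simp
  linarith

theorem kapB_sq_pairZ {Q k : ℕ} (hQ : 0 < Q) :
    kapB Q k ^ 2 * pairZ Q (k + 1) = 2 * nrm (rhoJ (epsQ Q)) (epsQ Q) k := by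
  have h := Ladder.ip_desc (1 : ℝ) 1 (epsQ Q) (T := k + 1) (n := 1) (n' := 1) (M := k) (M' := k)
    (by omega) (by omega)
  rw [if_pos rfl, rhoOf_pair] at h
  have hh : hwNrm (1 : ℝ) 1 (epsQ Q) 1 = 2 := by
    simp [hwNrm, hw, nrm, eCo, Finset.sum_range_succ]
    norm_num
  rw [hh] at h
  rw [← h, Ladder.ip, pairZ, Finset.mul_sum]
  have hnn : ∀ i, i ≤ Q → (sc Q i) ^ 2 = nrm (1 : ℝ) (epsQ Q) i := fun i hi =>
    Real.sq_sqrt (by rw [nrm_one_eq Q i hQ]; positivity)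
  have hz : ∀ i, Q < i → nrm (1 : ℝ) (epsQ Q) i = 0 := fun i hi => by
    simp [nrm_one_eq Q i hQ, Nat.choose_eq_zero_of_lt hi]
  calc ∑ a, kapB Q k ^ 2 * ∑ b, pairVec Q (k + 1) a b ^ 2
      = ∑ a : Fin (Q + 1), (fun i : ℕ => if i ≤ k + 1 then nrm 1 (epsQ Q) i *
          nrm 1 (epsQ Q) (k + 1 - i) * desc 1 1 (epsQ Q) 1 k i * desc 1 1 (epsQ Q) 1 k i
            else 0) a := by
        refine sum_congr rfl fun a _ => ?_
        simp only
        rw [Finset.mul_sum]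
        split_ifs with hle
        · by_cases hb : k + 1 - (a : ℕ) ≤ Q
          · rw [Finset.sum_eq_single (⟨k + 1 - a, by omega⟩ : Fin (Q + 1))]
            · rw [← mul_pow, ← desc_pairVec hQ k a ⟨k + 1 - a, by omega⟩ (by simp; omega),
                ← hnn a (by omega), ← hnn _ hb]
              ring
            · intro b _ hne
              rw [pairVec, if_neg fun e => hne (Fin.ext (by simp; omega))]
              simp
            · simp
          · rw [hz _ (by omega : Q < k + 1 - (a : ℕ))]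
            simp only [mul_zero, zero_mul]
            refine sum_eq_zero fun b _ => ?_
            rw [pairVec, if_neg (by omega)]
            simp
        · refine sum_eq_zero fun b _ => ?_
          rw [pairVec, if_neg (by omega)]
          simp
    _ = ∑ i ∈ range (k + 1 + 1), nrm 1 (epsQ Q) i * nrm 1 (epsQ Q) (k + 1 - i) *
          desc 1 1 (epsQ Q) 1 k i * desc 1 1 (epsQ Q) 1 k i := by
        refine (Finset.sum_range (fun i : ℕ => if i ≤ k + 1 then nrm 1 (epsQ Q) i *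
          nrm 1 (epsQ Q) (k + 1 - i) * desc 1 1 (epsQ Q) 1 k i * desc 1 1 (epsQ Q) 1 k i
            else 0)).symm.trans ?_
        rw [← Finset.sum_filter]
        refine Finset.sum_subset (fun i hi => ?_) fun i hi hni => ?_
        · simp at hi ⊢
          omega
        · simp at hi hni
          rw [hz i (by omega)]
          simp

/-- Pair annihilators in the scaled ladder. -/
theorem inner_pair {Q : ℕ} (m : Chan Q) (x y : FockQ Q) :
    ⟪(carQ Q).pair (coef Q) m x, (carQ Q).pair (coef Q) m y⟫_ℂ =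
      ((1 / (4 * nrm (rhoJ (epsQ Q)) (epsQ Q) m) : ℝ) : ℂ) * ⟪Bh Q m x, Bh Q m y⟫_ℂ := by
  have hm := m.isLt
  have hQ : 0 < Q := by omega
  have hZ : 0 < pairZ Q ((m : ℕ) + 1) := pairZ_pos (by omega) (by omega)
  have hn := nrm_rhoJ_pos hm
  have hk := kapB_sq_pairZ (k := m) hQ
  have hp : (carQ Q).pair (coef Q) m = ((1 / Real.sqrt (2 * pairZ Q ((m : ℕ) + 1)) : ℝ) : ℂ) •
      ∑ a : Fin (Q + 1), ∑ b : Fin (Q + 1),
        (pairVec Q ((m : ℕ) + 1) a b : ℂ) • ((carQ Q).ann b * (carQ Q).ann a) := by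
    simp only [Car.pair, Finset.smul_sum, smul_smul, coef]
    refine sum_congr rfl fun a _ => sum_congr rfl fun b _ => ?_
    congr 1
    show ((pairVec Q ((m : ℕ) + 1) a b / Real.sqrt (2 * pairZ Q ((m : ℕ) + 1)) : ℝ) : ℂ) =
      ((1 / Real.sqrt (2 * pairZ Q ((m : ℕ) + 1)) : ℝ) : ℂ) *
        ((pairVec Q ((m : ℕ) + 1) a b : ℝ) : ℂ)
    push_cast
    ring
  rw [hp, Bh_eq hQ]
  simp only [LinearMap.smul_apply, inner_smul_left, inner_smul_right, Complex.conj_ofReal,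
    ← mul_assoc, ← Complex.ofReal_mul]
  congr 2
  have h2 : Real.sqrt (2 * pairZ Q ((m : ℕ) + 1)) ^ 2 = 2 * pairZ Q ((m : ℕ) + 1) :=
    Real.sq_sqrt (by positivity)
  field_simp
  rw [h2]
  linear_combination -2 * hk

/-- The pair Hamiltonian in the scaled ladder. -/
theorem inner_ham_Bh (Q : ℕ) (x y : FockQ Q) :
    ⟪x, (carQ Q).ham (coef Q) y⟫_ℂ = ∑ k ∈ range (2 * Q - 1),
      ((1 / (4 * nrm (rhoJ (epsQ Q)) (epsQ Q) k) : ℝ) : ℂ) * ⟪Bh Q k x, Bh Q k y⟫_ℂ := by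
  rw [Car.inner_ham, Finset.sum_range]
  exact sum_congr rfl fun m _ => inner_pair m x y

theorem norm_pair_sq (Q : ℕ) (x : FockQ Q) :
    ∑ m, ‖(carQ Q).pair (coef Q) m x‖ ^ 2 = ∑ k ∈ range (2 * Q - 1),
      1 / (4 * nrm (rhoJ (epsQ Q)) (epsQ Q) k) * ‖Bh Q k x‖ ^ 2 := by
  rw [← (carQ Q).form_ham (coef Q) x, inner_ham_Bh, map_sum]
  refine sum_congr rfl fun k _ => ?_
  simp [inner_self_eq_norm_sq_to_K, ← Complex.ofReal_pow]

/-- The Hamiltonian commutes with the lowering operator. -/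
theorem ham_comm_Fop {Q : ℕ} (hQ : 0 < Q) (y : FockQ Q) :
    (carQ Q).ham (coef Q) (Fop Q y) = Fop Q ((carQ Q).ham (coef Q) y) := by
  refine ext_inner_left ℂ fun x => ?_
  rw [← Eop_adj, inner_ham_Bh, inner_ham_Bh, ← sub_eq_zero, ← Finset.sum_sub_distrib]
  have hlad := Bh_ladder hQ
  have hR : ∀ k z, Bh Q k (Eop Q z) = Eop Q (Bh Q k z) + Bh Q (k + 1) z := fun k z => by
    rw [← hlad.raise k]
    simp [Rb, Ladder.brk_apply]
  let g : ℕ → ℂ := fun k => if k = 0 then 0 else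
    ((1 / (4 * nrm (rhoJ (epsQ Q)) (epsQ Q) (k - 1)) : ℝ) : ℂ) * ⟪Bh Q k x, Bh Q (k - 1) y⟫_ℂ
  have hterm : ∀ k ∈ range (2 * Q - 1),
      ((1 / (4 * nrm (rhoJ (epsQ Q)) (epsQ Q) k) : ℝ) : ℂ) * ⟪Bh Q k x, Bh Q k (Fop Q y)⟫_ℂ -
        ((1 / (4 * nrm (rhoJ (epsQ Q)) (epsQ Q) k) : ℝ) : ℂ) *
          ⟪Bh Q k (Eop Q x), Bh Q k y⟫_ℂ = g k - g (k + 1) := by
    intro k hk
    have hF : Bh Q k (Fop Q y) = Fop Q (Bh Q k y) + Lb Q (Bh Q k) y := by
      simp [Lb, Ladder.brk_apply]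
    rw [hF, hR, inner_add_right, inner_add_left, Eop_adj]
    rcases k with _ | k
    · simp [g, hlad.lower_zero]
      ring
    · simp only [g, Nat.succ_ne_zero, if_false, Nat.add_sub_cancel, hlad.lower,
        LinearMap.smul_apply, inner_smul_right]
      have hn := nrm_rhoJ_pos (mem_range.1 hk)
      rw [Ladder.nrm_succ] at hn ⊢
      have he : eCo (rhoJ (epsQ Q)) (epsQ Q) (k + 1) ≠ 0 := right_ne_zero_of_mul hn.ne'
      have hw : (1 / (4 * (nrm (rhoJ (epsQ Q)) (epsQ Q) k *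
          eCo (rhoJ (epsQ Q)) (epsQ Q) (k + 1))) : ℝ) * eCo (rhoJ (epsQ Q)) (epsQ Q) (k + 1) =
          1 / (4 * nrm (rhoJ (epsQ Q)) (epsQ Q) k) := by
        field_simp
      rw [← hw, Complex.ofReal_mul]
      simp only [Complex.coe_algebraMap]
      ring
  rw [sum_congr rfl hterm, Finset.sum_range_sub']
  simp [g, Bh_top hQ le_rfl]

/-- The Hamiltonian commutes with the raising operator. -/
theorem ham_comm_Eop {Q : ℕ} (hQ : 0 < Q) (y : FockQ Q) :
    (carQ Q).ham (coef Q) (Eop Q y) = Eop Q ((carQ Q).ham (coef Q) y) := by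
  refine ext_inner_left ℂ fun x => ?_
  have hs := (carQ Q).ham_symmetric (coef Q)
  rw [← hs, ← Fop_adj, ← ham_comm_Fop hQ, hs, Fop_adj]

theorem oneBody_mem {Q N : ℕ} (M : Fin (Q + 1) → Fin (Q + 1) → ℝ) {f : FockQ Q}
    (hf : f ∈ Fock.sector ℂ (Fin (Q + 1)) (N + 1)) :
    (carQ Q).oneBody M f ∈ Fock.sector ℂ (Fin (Q + 1)) (N + 1) := by
  simp only [Car.oneBody, LinearMap.sum_apply, LinearMap.smul_apply, Module.End.mul_apply]
  exact Submodule.sum_mem _ fun a _ => Submodule.sum_mem _ fun b _ =>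
    Submodule.smul_mem _ _ (Fock.cre_mem (Fock.ann_mem hf b) a)

/-- The bound on invariant trace functionals, uniform in the flux and the particle number. -/
def PhiCert : Prop :=
  ∃ g : ℝ, 0 < g ∧ ∃ Q₀ : ℕ, ∀ Q, Q₀ ≤ Q → ∀ M r : ℕ, ∀ χ : Fin r → FockQ Q,
    (∀ i, χ i ∈ Fock.sector ℂ (Fin (Q + 1)) (M + 2)) →
    Ladder.IsInvariant (Rb Q) (Lb Q) (Pf χ) →
    ∑ i, wForm (Kk (coef Q)) (pairFam (χ i)) ≤
      (1 - g) * (∑ i, ∑ m, ‖pairFam (χ i) m‖ ^ 2) + ∑ i, yForm (pairFam (χ i))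

/-- An invariant bound gives the square bound in every sector. -/
theorem square_of_phi {Q M : ℕ} (hQ : 0 < Q) {c : ℝ}
    (h : ∀ r : ℕ, ∀ χ : Fin r → FockQ Q,
      (∀ i, χ i ∈ Fock.sector ℂ (Fin (Q + 1)) (M + 2)) →
      Ladder.IsInvariant (Rb Q) (Lb Q) (Pf χ) →
      ∑ i, wForm (Kk (coef Q)) (pairFam (χ i)) ≤
        c * (∑ i, ∑ m, ‖pairFam (χ i) m‖ ^ 2) + ∑ i, yForm (pairFam (χ i)))
    {f : FockQ Q} (hf : f ∈ Fock.sector ℂ (Fin (Q + 1)) (M + 2)) :
    (1 - c) * re ⟪f, (carQ Q).ham (coef Q) f⟫_ℂ ≤ ‖(carQ Q).ham (coef Q) f‖ ^ 2 := by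
  set H := (carQ Q).ham (coef Q) with hH
  set S := Fock.sector ℂ (Fin (Q + 1)) (M + 2) with hS
  have hsym := (carQ Q).ham_symmetric (coef Q)
  have hmem : ∀ x ∈ S, H x ∈ S := fun x hx => ham_mem hx
  refine square_of_eigen (T := H.restrict hmem) (hsym.restrict_invariant hmem)
    (γ := 1 - c) (fun e v hv he => ?_) ⟨f, hf⟩
  let V : Submodule ℂ (FockQ Q) := S ⊓ Module.End.eigenspace H (e : ℂ)
  have hvV : (v : FockQ Q) ∈ V :=
    Submodule.mem_inf.2 ⟨v.2, Module.End.mem_eigenspace_iff.2 (congrArg Subtype.val he)⟩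
  let b := stdOrthonormalBasis ℂ V
  have hop : ∀ U : Module.End ℂ (FockQ Q), (∀ x ∈ S, U x ∈ S) → (∀ x, H (U x) = U (H x)) →
      ∀ x ∈ V, U x ∈ V := fun U hU hc x hx => by
    obtain ⟨h1, h2⟩ := Submodule.mem_inf.1 hx
    refine Submodule.mem_inf.2 ⟨hU x h1, Module.End.mem_eigenspace_iff.2 ?_⟩
    rw [hc, Module.End.mem_eigenspace_iff.1 h2, map_smul]
  have hinv : Ladder.IsInvariant (Rb Q) (Lb Q) (Pf fun i => (b i : FockQ Q)) :=
    Pf_invariant V b (Eop Q) (Fop Q) (Eop_adj Q)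
      (hop _ (fun x hx => oneBody_mem _ hx) (ham_comm_Eop hQ))
      (hop _ (fun x hx => oneBody_mem _ hx) (ham_comm_Fop hQ))
  have hb := h _ (fun i => (b i : FockQ Q)) (fun i => (Submodule.mem_inf.1 (b i).2).1) hinv
  have hev : ∀ i, H (b i) = (e : ℂ) • (b i : FockQ Q) := fun i =>
    Module.End.mem_eigenspace_iff.1 (Submodule.mem_inf.1 (b i).2).2
  have hn : ∀ i, ‖(b i : FockQ Q)‖ = 1 := fun i => b.orthonormal.1 i
  have h1 : ∀ i, ∑ m, ‖pairFam (b i : FockQ Q) m‖ ^ 2 = e := fun i => by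
    have e1 : re ⟪(b i : FockQ Q), H (b i)⟫_ℂ = ∑ m, ‖pairFam (b i : FockQ Q) m‖ ^ 2 :=
      (carQ Q).form_ham (coef Q) _
    rw [← e1, hev, inner_smul_right, inner_self_eq_norm_sq_to_K, hn]
    simp
  have h2 : ∀ i, e ^ 2 = yForm (pairFam (b i : FockQ Q)) + e -
      wForm (Kk (coef Q)) (pairFam (b i : FockQ Q)) := fun i => by
    have e2 : ‖H (b i)‖ ^ 2 = yForm (pairFam (b i : FockQ Q)) +
        (∑ m, ‖pairFam (b i : FockQ Q) m‖ ^ 2) -
          wForm (Kk (coef Q)) (pairFam (b i : FockQ Q)) :=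
      (carQ Q).norm_ham_sq (coef Q) (coef_anti Q) (coef_orth Q) _
    rw [h1 i, hev, norm_smul, hn, mul_one, Complex.norm_real, Real.norm_eq_abs, sq_abs] at e2
    exact e2
  have hsum := Finset.sum_congr rfl (fun i (_ : i ∈ (univ : Finset _)) => h2 i)
  simp only [Finset.sum_sub_distrib, Finset.sum_add_distrib, h1, Finset.sum_const, nsmul_eq_mul]
    at hsum hb
  have hpos : (0 : ℝ) < (univ : Finset (Fin (Module.finrank ℂ V))).card := by
    rw [Finset.card_univ, Fintype.card_fin, Nat.cast_pos]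
    have : Nontrivial V :=
      nontrivial_of_ne ⟨v, hvV⟩ 0 fun hh => hv (Subtype.ext (congrArg Subtype.val hh :))
    exact Module.finrank_pos
  refine le_of_mul_le_mul_left ?_ hpos
  linarith

/-- Q1 follows from the bound on invariant trace functionals. -/
theorem gapConjecture_of_phiCert (h : PhiCert) : GapConjecture := by
  obtain ⟨g, hg, Q₀, hQ⟩ := h
  refine ⟨g, hg, Q₀ + 2, fun N hN => ?_⟩
  obtain ⟨M, rfl⟩ : ∃ M, N = M + 2 := ⟨N - 2, by omega⟩
  refine gapAt_of_square fun f hf => ?_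
  have h2 := square_of_phi (c := 1 - g) (by simp only [flux]; omega)
    (fun r χ hχ hi => hQ (flux (M + 2)) (by simp only [flux]; omega) M r χ hχ hi) hf
  simpa using h2

end Scaled

end Vale.Agent.P359
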