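import Vale.Agent.P359.Car
import Vale.Agent.P359.Chan
import Vale.Agent.P359.Coef

/-!
The tail of the certificate: channels `n ≥ 15` cost less than `τ / 10`, uniformly in the flux and
in the particle number. Annihilators are contractions, the highest weight vector of channel `n`
meets `n + 1` pair states, and the positive eigenvalues decay like `3 n / 2^n`.
-/

namespace Vale.Agent.P359

open Finset RCLike
open scoped InnerProductSpace

variable {𝕜 E ι : Type*} [RCLike 𝕜] [NormedAddCommGroup E] [InnerProductSpace 𝕜 E]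
  [DecidableEq ι]

/-- Annihilators are contractions. -/
theorem Car.norm_ann_le (C : Car 𝕜 E ι) (a : ι) (x : E) : ‖C.ann a x‖ ≤ ‖x‖ := by
  have h := LinearMap.congr_fun (C.mix a a) x
  simp only [if_pos, LinearMap.add_apply, Module.End.mul_apply, Module.End.one_apply] at h
  have h2 : re ⟪x, C.ann a (C.cre a x) + C.cre a (C.ann a x)⟫_𝕜 = re ⟪x, x⟫_𝕜 := by rw [h]
  have e1 : re ⟪x, C.ann a (C.cre a x)⟫_𝕜 = ‖C.cre a x‖ ^ 2 := by
    rw [← C.adj a x (C.cre a x), inner_self_eq_norm_sq]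
  have e2 : re ⟪x, C.cre a (C.ann a x)⟫_𝕜 = ‖C.ann a x‖ ^ 2 := by
    rw [← inner_conj_symm, C.adj, RCLike.conj_re, inner_self_eq_norm_sq]
  rw [inner_add_right, map_add, e1, e2, inner_self_eq_norm_sq] at h2
  exact (sq_le_sq₀ (norm_nonneg _) (norm_nonneg _)).1 (by nlinarith [sq_nonneg ‖C.cre a x‖])

/-! ### The scaled ladder form -/

theorem nrm_nonneg {rho eps : ℝ} {i : ℕ} (he : 0 ≤ eps) (h : ((i : ℝ) - 1) * eps ≤ rho) :
    0 ≤ Coef.nrm rho eps i := by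
  refine Finset.prod_nonneg fun l hl => mul_nonneg (Nat.cast_nonneg _) (sub_nonneg.2 ?_)
  have h1 : ((l + 1 : ℕ) : ℝ) ≤ (i : ℝ) := by
    exact_mod_cast (Nat.succ_le_iff.2 (mem_range.1 hl))
  calc (((l + 1 : ℕ) : ℝ) - 1) * eps ≤ ((i : ℝ) - 1) * eps :=
        mul_le_mul_of_nonneg_right (by linarith) he
    _ ≤ rho := h

theorem co_zero (eps : ℝ) (n i : ℕ) :
    Coef.co eps n 0 i = Coef.hw (Coef.rhoJ eps) 1 eps n i := by
  simp [Coef.co, Coef.desc]

/-- The moment of channel `n` is at most `(n + 1) τ` times its norm: a Cauchy-Schwarz bound over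
any finite family `χ` of vectors. `u` is the scaled annihilator, `Bh` the scaled pair ladder. -/
theorem channel_moment_le {σ : Type*} [Fintype σ] (χ : σ → E) (u Bh : ℕ → Module.End 𝕜 E)
    (eps τ : ℝ) (n : ℕ)
    (hu : ∀ q, q ≤ n → ∀ v, ‖u q v‖ ^ 2 ≤ Coef.nrm 1 eps q * ‖v‖ ^ 2)
    (hn1 : ∀ q, q ≤ n → 0 ≤ Coef.nrm 1 eps q)
    (hnJ : ∀ i, i ≤ n → 0 ≤ Coef.nrm (Coef.rhoJ eps) eps i) (hτ : 0 ≤ τ)
    (hB : ∀ i, i ≤ n → ∑ k, ‖Bh i (χ k)‖ ^ 2 ≤ Coef.nrm (Coef.rhoJ eps) eps i * τ) :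
    ∑ k, ‖∑ i ∈ range (n + 1), ((Coef.co eps n 0 i : ℝ) : 𝕜) • u (n - i) (Bh i (χ k))‖ ^ 2 ≤
      Coef.coNrm eps n * (((n : ℝ) + 1) * τ) := by
  set J : ℕ → ℝ := fun i => Coef.nrm (Coef.rhoJ eps) eps i with hJ
  set w : ℕ → ℝ := fun i => Coef.co eps n 0 i ^ 2 * J i * Coef.nrm 1 eps (n - i) with hw
  have hle : ∀ i ∈ range (n + 1), i ≤ n := fun i hi => Nat.lt_succ_iff.1 (mem_range.1 hi)
  have hw0 : ∀ i ∈ range (n + 1), 0 ≤ w i := fun i hi =>
    mul_nonneg (mul_nonneg (sq_nonneg _) (hnJ i (hle i hi))) (hn1 _ (Nat.sub_le n i))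
  have hsum : ∑ i ∈ range (n + 1), w i = Coef.coNrm eps n := by
    simp only [hw, hJ, co_zero, Coef.coNrm, Coef.hwNrm]
  have hzero : ∀ i ∈ range (n + 1), J i = 0 → ∀ k, ‖Bh i (χ k)‖ ^ 2 = 0 := by
    intro i hi h k
    have h1 := hB i (hle i hi)
    rw [show Coef.nrm (Coef.rhoJ eps) eps i = J i from rfl, h, zero_mul] at h1
    exact le_antisymm ((single_le_sum (f := fun k => ‖Bh i (χ k)‖ ^ 2)
      (fun _ _ => sq_nonneg _) (mem_univ k)).trans h1) (sq_nonneg _)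
  have hk : ∀ k, ‖∑ i ∈ range (n + 1), ((Coef.co eps n 0 i : ℝ) : 𝕜) • u (n - i) (Bh i (χ k))‖ ^ 2 ≤
      Coef.coNrm eps n * ∑ i ∈ range (n + 1), ‖Bh i (χ k)‖ ^ 2 / J i := by
    intro k
    refine (pow_le_pow_left₀ (norm_nonneg _) (norm_sum_le _ _) 2).trans ?_
    rw [← hsum]
    refine sum_sq_le_sum_mul_sum_of_sq_le_mul _ hw0
      (fun i hi => div_nonneg (sq_nonneg _) (hnJ i (hle i hi))) fun i hi => ?_
    rw [norm_smul, RCLike.norm_ofReal, mul_pow, sq_abs]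
    rcases eq_or_ne (J i) 0 with h | h
    · have h2 := hu _ (Nat.sub_le n i) (Bh i (χ k))
      rw [hzero i hi h k, mul_zero] at h2
      rw [le_antisymm h2 (sq_nonneg _), mul_zero, h, div_zero, mul_zero]
    · refine (mul_le_mul_of_nonneg_left (hu _ (Nat.sub_le n i) _) (sq_nonneg _)).trans_eq ?_
      simp only [hw]
      field_simp
  refine (sum_le_sum fun k _ => hk k).trans ?_
  rw [← Finset.mul_sum]
  refine mul_le_mul_of_nonneg_left ?_ (hsum ▸ Finset.sum_nonneg hw0)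
  rw [Finset.sum_comm]
  refine (sum_le_sum (g := fun _ => τ) fun i hi => ?_).trans_eq (by simp)
  rcases eq_or_ne (J i) 0 with h | h
  · simp [h, hτ]
  · rw [← sum_div, div_le_iff₀ (lt_of_le_of_ne (hnJ i (hle i hi)) (Ne.symm h)), mul_comm]
    exact hB i (hle i hi)

/-- The exchange eigenvalue of channel `n` in the scaled variable `eps = 1/Q`. -/
noncomputable def kappaS (eps : ℝ) (n : ℕ) : ℝ :=
  (-1) ^ (n + 1) * (∏ l ∈ range n, (1 - (l : ℝ) * eps) / (2 - 2 * eps - (l : ℝ) * eps)) *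
    ((3 - eps) * n - (n : ℝ) ^ 2 * eps - 1)

/-- The product in `kappaS` loses a factor two per channel from channel `5` on. -/
theorem kappa_prod_bounds {Q n : ℕ} (h5 : 5 ≤ n) (hn : n ≤ Q) :
    0 ≤ ∏ l ∈ range n, (1 - (l : ℝ) * (1 / (Q : ℝ))) /
        (2 - 2 * (1 / (Q : ℝ)) - (l : ℝ) * (1 / (Q : ℝ))) ∧
      ∏ l ∈ range n, (1 - (l : ℝ) * (1 / (Q : ℝ))) /
        (2 - 2 * (1 / (Q : ℝ)) - (l : ℝ) * (1 / (Q : ℝ))) ≤ 1 / 2 ^ n := by
  have hQ : (5 : ℝ) ≤ Q := by exact_mod_cast h5.trans hn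
  have hf : ∀ l : ℕ, (1 - (l : ℝ) * (1 / (Q : ℝ))) /
      (2 - 2 * (1 / (Q : ℝ)) - (l : ℝ) * (1 / (Q : ℝ))) =
      ((Q : ℝ) - l) / (2 * Q - 2 - l) := by
    intro l
    have hQ0 : (Q : ℝ) ≠ 0 := by linarith
    rw [← mul_div_mul_left _ _ hQ0]
    congr 1 <;> field_simp
  simp only [hf]
  induction n, h5 using Nat.le_induction with
  | base =>
    simp only [prod_range_succ, prod_range_zero]
    push_cast
    have a : (0 : ℝ) < 2 * Q - 2 := by linarith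
    have b : (0 : ℝ) < 2 * Q - 3 := by linarith
    have c : (0 : ℝ) < 2 * Q - 4 := by linarith
    have d : (0 : ℝ) < 2 * Q - 5 := by linarith
    have e : (0 : ℝ) < 2 * Q - 6 := by linarith
    have h0 : (0 : ℝ) ≤ Q - 1 := by linarith
    have h1 : (0 : ℝ) ≤ Q - 2 := by linarith
    have h2 : (0 : ℝ) ≤ Q - 3 := by linarith
    have h3 : (0 : ℝ) ≤ Q - 4 := by linarith
    have key : ((Q : ℝ) - 0) / (2 * Q - 2 - 0) * (((Q : ℝ) - 1) / (2 * Q - 2 - 1)) *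
        (((Q : ℝ) - 2) / (2 * Q - 2 - 2)) * (((Q : ℝ) - 3) / (2 * Q - 2 - 3)) *
        (((Q : ℝ) - 4) / (2 * Q - 2 - 4)) = Q * (Q - 4) / (8 * ((2 * Q - 3) * (2 * Q - 5))) := by
      rw [show (2 : ℝ) * Q - 2 - 0 = 2 * (Q - 1) by ring,
        show (2 : ℝ) * Q - 2 - 2 = 2 * (Q - 2) by ring,
        show (2 : ℝ) * Q - 2 - 4 = 2 * (Q - 3) by ring]
      have : (Q : ℝ) - 1 ≠ 0 := by linarith
      have : (Q : ℝ) - 2 ≠ 0 := by linarith
      have : (Q : ℝ) - 3 ≠ 0 := by linarith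
      have : (2 : ℝ) * Q - 2 - 1 ≠ 0 := by linarith
      have : (2 : ℝ) * Q - 2 - 3 ≠ 0 := by linarith
      have : (2 : ℝ) * Q - 3 ≠ 0 := b.ne'
      have : (2 : ℝ) * Q - 5 ≠ 0 := d.ne'
      field_simp
      ring
    rw [one_mul, key]
    refine ⟨div_nonneg (mul_nonneg (by linarith) h3) (by positivity), ?_⟩
    rw [div_le_div_iff₀ (by positivity) (by norm_num)]
    nlinarith
  | succ m hm ih =>
    obtain ⟨i0, i1⟩ := ih (by omega)
    have hmQ : (m : ℝ) + 1 ≤ Q := by exact_mod_cast hn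
    have hm5 : (5 : ℝ) ≤ m := by exact_mod_cast hm
    have hd : (0 : ℝ) < 2 * Q - 2 - m := by linarith
    rw [prod_range_succ]
    refine ⟨mul_nonneg i0 (div_nonneg (by linarith) hd.le), ?_⟩
    calc _ ≤ (1 : ℝ) / 2 ^ m * (1 / 2) := by
          refine mul_le_mul i1 ?_ (div_nonneg (by linarith) hd.le) (by positivity)
          rw [div_le_div_iff₀ hd (by norm_num)]
          linarith
      _ = _ := by rw [pow_succ]; ring

/-- Even channels are attractive and odd channels are below the planar eigenvalue. -/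
theorem kappaS_bounds {Q n : ℕ} (h5 : 5 ≤ n) (hn : n ≤ Q) :
    (Even n → kappaS (1 / Q) n ≤ 0) ∧ (Odd n → kappaS (1 / Q) n ≤ 3 * n / 2 ^ n) := by
  obtain ⟨p0, p1⟩ := kappa_prod_bounds h5 hn
  have hQ : (5 : ℝ) ≤ Q := by exact_mod_cast h5.trans hn
  have hn' : (5 : ℝ) ≤ n := by exact_mod_cast h5
  have hnQ : (n : ℝ) * (1 / Q) ≤ 1 := by
    rw [mul_one_div, div_le_one (by linarith)]; exact_mod_cast hn
  have he : (0 : ℝ) ≤ 1 / Q := by positivity
  have he1 : (1 : ℝ) / Q ≤ 1 := by rw [div_le_one (by linarith)]; linarith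
  have s0 : 0 ≤ (3 - 1 / (Q : ℝ)) * n - (n : ℝ) ^ 2 * (1 / Q) - 1 := by
    nlinarith [mul_le_mul_of_nonneg_left hnQ (by linarith : (0 : ℝ) ≤ n)]
  have s1 : (3 - 1 / (Q : ℝ)) * n - (n : ℝ) ^ 2 * (1 / Q) - 1 ≤ 3 * n := by
    nlinarith [mul_nonneg he (by linarith : (0 : ℝ) ≤ n), mul_nonneg he (sq_nonneg (n : ℝ))]
  constructor
  · intro h
    rw [kappaS, pow_succ, h.neg_one_pow]
    nlinarith [mul_nonneg p0 s0]
  · intro h
    rw [kappaS, pow_succ, h.neg_one_pow, show (-1 : ℝ) * -1 = 1 by norm_num, one_mul]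
    calc _ ≤ 1 / 2 ^ n * (3 * (n : ℝ)) := mul_le_mul p1 s1 s0 (by positivity)
      _ = _ := by ring

/-- The summed tail in the scaled normalisation: channels `n ≥ 15` cost less than `τ / 10`. -/
theorem tail_scaled_le {Q : ℕ} (y : ℕ → ℝ) {τ : ℝ} (hτ : 0 ≤ τ)
    (h0 : ∀ n, 15 ≤ n → n ≤ Q → 0 ≤ y n)
    (h1 : ∀ n, 15 ≤ n → n ≤ Q → y n ≤ ((n : ℝ) + 1) * τ) :
    ∑ n ∈ Ico 15 (Q + 1), kappaS (1 / Q) n * (3 - (1 + 2 * (n : ℝ)) * (1 / Q)) * y n ≤
      τ / 10 := by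
  calc ∑ n ∈ Ico 15 (Q + 1), kappaS (1 / Q) n * (3 - (1 + 2 * (n : ℝ)) * (1 / Q)) * y n
      ≤ ∑ n ∈ (Ico 15 (Q + 1)).filter Odd, 9 * (n : ℝ) * ((n : ℝ) + 1) / 2 ^ n * τ := by
        rw [sum_filter]
        refine sum_le_sum fun n hn => ?_
        obtain ⟨hn1, hn2⟩ := mem_Ico.1 hn
        have hnQ : n ≤ Q := by omega
        have hQ : (15 : ℝ) ≤ Q := by exact_mod_cast hn1.trans hnQ
        have hnQ' : (n : ℝ) * (1 / Q) ≤ 1 := by
          rw [mul_one_div, div_le_one (by linarith)]; exact_mod_cast hnQ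
        have he : (0 : ℝ) ≤ 1 / Q := by positivity
        have he1 : (1 : ℝ) / Q ≤ 1 := by rw [div_le_one (by linarith)]; linarith
        have hw : 0 ≤ 3 - (1 + 2 * (n : ℝ)) * (1 / Q) := by linarith
        have hw3 : 3 - (1 + 2 * (n : ℝ)) * (1 / Q) ≤ 3 := by
          nlinarith [mul_nonneg he (Nat.cast_nonneg (α := ℝ) n)]
        obtain ⟨ke, ko⟩ := kappaS_bounds (show 5 ≤ n by omega) hnQ
        have hy := h0 n hn1 hnQ
        split_ifs with hodd
        · calc kappaS (1 / Q) n * (3 - (1 + 2 * (n : ℝ)) * (1 / Q)) * y n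
              ≤ 3 * (n : ℝ) / 2 ^ n * (3 - (1 + 2 * (n : ℝ)) * (1 / Q)) * y n :=
                mul_le_mul_of_nonneg_right (mul_le_mul_of_nonneg_right (ko hodd) hw) hy
            _ ≤ 3 * (n : ℝ) / 2 ^ n * 3 * y n :=
                mul_le_mul_of_nonneg_right
                  (mul_le_mul_of_nonneg_left hw3 (by positivity)) hy
            _ ≤ 3 * (n : ℝ) / 2 ^ n * 3 * (((n : ℝ) + 1) * τ) :=
                mul_le_mul_of_nonneg_left (h1 n hn1 hnQ) (by positivity)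
            _ = _ := by ring
        · exact mul_nonpos_iff.2 (Or.inr ⟨mul_nonpos_iff.2
            (Or.inr ⟨ke (Nat.not_odd_iff_even.1 hodd), hw⟩), hy⟩)
    _ ≤ ∑ n ∈ ((range (Q + 1)).image (fun k => 15 + 2 * k) : Finset ℕ),
          9 * (n : ℝ) * ((n : ℝ) + 1) / 2 ^ n * τ := by
        refine sum_le_sum_of_subset_of_nonneg (fun n hn => ?_) fun n _ _ => by positivity
        obtain ⟨hn, hodd⟩ := mem_filter.1 hn
        obtain ⟨hn1, hn2⟩ := mem_Ico.1 hn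
        obtain ⟨i, hi⟩ := hodd
        exact mem_image.2 ⟨i - 7, mem_range.2 (by omega), by omega⟩
    _ ≤ τ / 10 := by
        rw [sum_image (by intro i _ j _ h; simp only at h; omega), ← sum_mul]
        suffices h : ∀ L : ℕ, ∑ k ∈ range L, 9 * ((15 + 2 * k : ℕ) : ℝ) *
            (((15 + 2 * k : ℕ) : ℝ) + 1) / 2 ^ (15 + 2 * k) ≤
            2 * (tailT 15 - tailT (15 + 2 * L)) by
          have h2 := h (Q + 1)
          have h3 := tailT_fifteen
          have h4 : 0 ≤ tailT (15 + 2 * (Q + 1)) := by unfold tailT; positivity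
          refine (mul_le_mul_of_nonneg_right h2 hτ).trans ?_
          nlinarith
        intro L
        induction L with
        | zero => simp
        | succ L ih =>
          rw [sum_range_succ]
          have : 9 * ((15 + 2 * L : ℕ) : ℝ) * (((15 + 2 * L : ℕ) : ℝ) + 1) / 2 ^ (15 + 2 * L) =
              2 * (tailT (15 + 2 * L) - tailT (15 + 2 * L + 2)) := by
            simp only [tailT, pow_add]
            push_cast
            field_simp
            ring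
          rw [show 15 + 2 * (L + 1) = 15 + 2 * L + 2 by ring]
          linarith

/-- The form used by the certificate: the moments `Y n` of the highest weight channels, each
divided by its norm. -/
theorem tail_moment_le {σ : Type*} [Fintype σ] (χ : σ → E) (u Bh : ℕ → Module.End 𝕜 E)
    {Q : ℕ} (hQ : 2 ≤ Q) {τ : ℝ} (hτ : 0 ≤ τ)
    (hu : ∀ q, q ≤ Q → ∀ v, ‖u q v‖ ^ 2 ≤ Coef.nrm 1 (1 / (Q : ℝ)) q * ‖v‖ ^ 2)
    (hB : ∀ i, i ≤ Q → ∑ k, ‖Bh i (χ k)‖ ^ 2 ≤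
      Coef.nrm (Coef.rhoJ (1 / (Q : ℝ))) (1 / Q) i * τ) :
    ∑ n ∈ Ico 15 (Q + 1), kappaS (1 / Q) n * (3 - (1 + 2 * (n : ℝ)) * (1 / Q)) *
      ((∑ k, ‖∑ i ∈ range (n + 1),
        ((Coef.co (1 / (Q : ℝ)) n 0 i : ℝ) : 𝕜) • u (n - i) (Bh i (χ k))‖ ^ 2) /
        Coef.coNrm (1 / (Q : ℝ)) n) ≤ τ / 10 := by
  have hQ' : (2 : ℝ) ≤ Q := by exact_mod_cast hQ
  have he : (0 : ℝ) ≤ 1 / Q := by positivity
  have hle : ∀ i, i ≤ Q → ((i : ℝ) - 1) * (1 / Q) ≤ 1 - 1 / (Q : ℝ) := by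
    intro i hi
    have : (i : ℝ) * (1 / Q) ≤ 1 := by
      rw [mul_one_div, div_le_one (by linarith)]; exact_mod_cast hi
    linarith
  have hn1 : ∀ q, q ≤ Q → 0 ≤ Coef.nrm 1 (1 / (Q : ℝ)) q := fun q hq =>
    nrm_nonneg he ((hle q hq).trans (by linarith))
  have hnJ : ∀ i, i ≤ Q → 0 ≤ Coef.nrm (Coef.rhoJ (1 / (Q : ℝ))) (1 / Q) i := fun i hi =>
    nrm_nonneg he ((hle i hi).trans (by
      have : (1 : ℝ) / Q ≤ 1 := by rw [div_le_one (by linarith)]; linarith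
      rw [Coef.rhoJ]; linarith))
  have hco : ∀ n, n ≤ Q → 0 ≤ Coef.coNrm (1 / (Q : ℝ)) n := fun n hn => by
    rw [Coef.coNrm, Coef.hwNrm]
    refine Finset.sum_nonneg fun i hi => mul_nonneg (mul_nonneg (sq_nonneg _) (hnJ i ?_)) (hn1 _ ?_)
    · exact (Nat.lt_succ_iff.1 (mem_range.1 hi)).trans hn
    · exact (Nat.sub_le n i).trans hn
  refine tail_scaled_le _ hτ
    (fun n _ hn => div_nonneg (Finset.sum_nonneg fun k _ => sq_nonneg _) (hco n hn))
    fun n _ hn => div_le_of_le_mul₀ (hco n hn) (by positivity) ?_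
  rw [mul_comm]
  exact channel_moment_le χ u Bh (1 / Q) τ n (fun q hq => hu q (hq.trans hn))
    (fun q hq => hn1 q (hq.trans hn)) (fun i hi => hnJ i (hi.trans hn)) hτ
    (fun i hi => hB i (hi.trans hn))

end Vale.Agent.P359
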