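import Vale.Agent.P359.Ladder

/-!
The slack term of the moment certificate: the two-pair form dominates the forms of the
highest-weight two-pair operators, by Bessel's inequality and the ladder lemma.
-/

namespace Vale.Agent.P359.Slack

open scoped InnerProductSpace
open Finset RCLike Coef Ladder

variable {𝕜 κ V : Type*} [RCLike 𝕜] [Fintype κ] [NormedAddCommGroup V] [InnerProductSpace 𝕜 V]

/-- The real form `re ∑ k, ⟪X χ_k, Y χ_k⟫` of two operators on a family of vectors. -/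
noncomputable def pform (χ : κ → V) (X Y : Module.End 𝕜 V) : ℝ :=
  re (∑ k, ⟪X (χ k), Y (χ k)⟫_𝕜)

/-- The form is invariant under the commutators with `E` and its adjoint `F`. -/
def PInvariant (χ : κ → V) (E F : Module.End 𝕜 V) : Prop :=
  ∀ X Y : Module.End 𝕜 V,
    pform χ X (brk (𝕜 := 𝕜) E Y) = pform χ (brk (𝕜 := 𝕜) F X) Y

variable {χ : κ → V} {E F : Module.End 𝕜 V}

theorem pform_self (X : Module.End 𝕜 V) : pform χ X X = ∑ k, ‖X (χ k)‖ ^ 2 := by
  simp [pform]

theorem pform_self_nonneg (X : Module.End 𝕜 V) : 0 ≤ pform χ X X := by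
  rw [pform_self]; positivity

theorem pform_comm (X Y : Module.End 𝕜 V) : pform χ X Y = pform χ Y X := by
  simp only [pform, map_sum]
  exact sum_congr rfl fun k _ => by rw [← inner_conj_symm, conj_re]

theorem pform_zero (X : Module.End 𝕜 V) : pform χ X 0 = 0 := by simp [pform]

theorem pform_add (X Y Z : Module.End 𝕜 V) :
    pform χ X (Y + Z) = pform χ X Y + pform χ X Z := by
  simp [pform, inner_add_right, sum_add_distrib]

theorem pform_smul (X Y : Module.End 𝕜 V) (c : ℝ) :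
    pform χ X ((c : 𝕜) • Y) = c * pform χ X Y := by
  simp [pform, inner_smul_right, mul_sum]

theorem pform_sum {α : Type*} (s : Finset α) (X : Module.End 𝕜 V) (Y : α → Module.End 𝕜 V) :
    pform χ X (∑ a ∈ s, Y a) = ∑ a ∈ s, pform χ X (Y a) := by
  simp only [pform, LinearMap.sum_apply, inner_sum, ← map_sum]
  rw [sum_comm]

/-- A highest-weight operator is orthogonal to every commutator with `E`. -/
theorem pform_hw_comm (hinv : PInvariant χ E F) {X : Module.End 𝕜 V}
    (hX : brk (𝕜 := 𝕜) F X = 0) (Y : Module.End 𝕜 V) : pform χ X (brk (𝕜 := 𝕜) E Y) = 0 := by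
  rw [hinv, hX, pform_comm, pform_zero]

theorem pform_ladder {rho eps : ℝ} {X : ℕ → Module.End 𝕜 V} (hinv : PInvariant χ E F)
    (h : IsLadder (brk (𝕜 := 𝕜) E) (brk (𝕜 := 𝕜) F) rho eps X) (M : ℕ) :
    pform χ (X M) (X M) = nrm rho eps M * pform χ (X 0) (X 0) := by
  induction M with
  | zero => simp [nrm]
  | succ M ih =>
    rw [show pform χ (X (M + 1)) (X (M + 1)) = pform χ (X (M + 1)) (brk (𝕜 := 𝕜) E (X M)) by
      rw [h.raise M]]
    rw [hinv, h.lower M, pform_comm, pform_smul, ih, nrm_succ]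
    ring

/-- Bessel's inequality for finitely many orthogonal weight rows, with vector values. -/
theorem bessel {α β : Type*} {U : Type*} [NormedAddCommGroup U] [InnerProductSpace 𝕜 U]
    [DecidableEq β] (I : Finset α) (S : Finset β) (w : α → ℝ) (d : β → α → ℝ) (N : β → ℝ)
    (y : α → U) (hw : ∀ i ∈ I, 0 ≤ w i) (hy : ∀ i ∈ I, w i = 0 → y i = 0)
    (ho : ∀ n ∈ S, ∀ m ∈ S, ∑ i ∈ I, d n i * d m i * w i = if n = m then N n else 0) :
    ∑ n ∈ S, ‖∑ i ∈ I, (d n i : 𝕜) • y i‖ ^ 2 / N n ≤ ∑ i ∈ I, ‖y i‖ ^ 2 / w i := by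
  set z : β → U := fun n => ∑ i ∈ I, (d n i : 𝕜) • y i with hz
  set P : α → U := fun i => ∑ n ∈ S, ((d n i / N n : ℝ) : 𝕜) • z n with hP
  have hpt : ∀ i ∈ I, 2 * re ⟪y i, P i⟫_𝕜 - w i * ‖P i‖ ^ 2 ≤ ‖y i‖ ^ 2 / w i := by
    intro i hi
    rcases (hw i hi).eq_or_lt with h0 | h0
    · simp [hy i hi h0.symm, h0.symm]
    have h1 := norm_sub_sq (𝕜 := 𝕜) (y i) ((w i : 𝕜) • P i)
    rw [inner_smul_right, re_ofReal_mul, norm_smul, RCLike.norm_ofReal, abs_of_pos h0] at h1
    rw [le_div_iff₀ h0]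
    nlinarith [sq_nonneg ‖y i - (w i : 𝕜) • P i‖]
  have hyP : ∑ i ∈ I, re ⟪y i, P i⟫_𝕜 = ∑ n ∈ S, ‖z n‖ ^ 2 / N n := by
    simp only [hP, inner_sum, map_sum, inner_smul_right, re_ofReal_mul]
    rw [sum_comm]
    refine sum_congr rfl fun n _ => ?_
    have e : ‖z n‖ ^ 2 = ∑ i ∈ I, d n i * re ⟪y i, z n⟫_𝕜 := by
      rw [← @inner_self_eq_norm_sq 𝕜]
      rw [show ⟪z n, z n⟫_𝕜 = ⟪∑ i ∈ I, (d n i : 𝕜) • y i, z n⟫_𝕜 from rfl]
      simp only [sum_inner, inner_smul_left, conj_ofReal, map_sum, re_ofReal_mul]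
    rw [e, sum_div]
    exact sum_congr rfl fun i _ => by ring
  have hPP : ∑ i ∈ I, w i * ‖P i‖ ^ 2 = ∑ n ∈ S, ‖z n‖ ^ 2 / N n := by
    have : ∀ i, w i * ‖P i‖ ^ 2 = ∑ n ∈ S, ∑ m ∈ S,
        w i * d n i * d m i * (re ⟪z n, z m⟫_𝕜 / (N n * N m)) := by
      intro i
      rw [← @inner_self_eq_norm_sq 𝕜]
      simp only [hP, sum_inner, inner_sum, inner_smul_left, inner_smul_right, conj_ofReal,
        map_sum, re_ofReal_mul, mul_sum]
      rw [sum_comm]
      exact sum_congr rfl fun n _ => sum_congr rfl fun m _ => by ring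
    rw [sum_congr rfl fun i _ => this i, sum_comm]
    refine sum_congr rfl fun n hn => ?_
    rw [sum_comm]
    rw [sum_eq_single n]
    · rw [← sum_mul, show ∑ i ∈ I, w i * d n i * d n i = ∑ i ∈ I, d n i * d n i * w i from
        sum_congr rfl fun i _ => by ring, ho n hn n hn, if_pos rfl, inner_self_eq_norm_sq]
      by_cases hN : N n = 0
      · simp [hN]
      · field_simp
    · intro m hm hne
      rw [← sum_mul, show ∑ i ∈ I, w i * d n i * d m i = ∑ i ∈ I, d n i * d m i * w i from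
        sum_congr rfl fun i _ => by ring, ho n hn m hm, if_neg hne.symm, zero_mul]
    · exact fun h => absurd hn h
  have := sum_le_sum hpt
  rw [sum_sub_distrib, ← mul_sum, hyP, hPP] at this
  linarith

theorem nrm_eq_zero {rho eps : ℝ} {D k : ℕ} (hD : rho = (D : ℝ) * eps) (h : D < k) :
    nrm rho eps k = 0 := by
  refine prod_eq_zero (mem_range.2 h) ?_
  simp [eCo, hD]

theorem nrm_pos_of_le {rho eps : ℝ} {D k : ℕ} (hD : rho = (D : ℝ) * eps) (he : 0 < eps)
    (h : k ≤ D) : 0 < nrm rho eps k :=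
  nrm_pos fun l hl => by
    rw [hD]
    exact mul_lt_mul_of_pos_right (by exact_mod_cast lt_of_lt_of_le hl h) he

theorem nrm_nonneg_of_nat {rho eps : ℝ} {D : ℕ} (hD : rho = (D : ℝ) * eps) (he : 0 < eps)
    (k : ℕ) : 0 ≤ nrm rho eps k := by
  rcases le_or_gt k D with h | h
  · exact (nrm_pos_of_le hD he h).le
  · exact (nrm_eq_zero hD h).ge

/-- The operator of weight `M` in component `n` of two pair operators. -/
noncomputable def ww (eps : ℝ) (Bh : ℕ → Module.End 𝕜 V) (n M : ℕ) : Module.End 𝕜 V :=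
  Ladder.comp 𝕜 (rhoJ eps) (rhoJ eps) eps n Bh Bh M

/-- The two-pair form with the pair operators scaled back dominates the highest-weight forms. -/
theorem slack_le (hinv : PInvariant χ E F) {eps : ℝ} (heps : 0 < eps) {D NC : ℕ}
    (hD : rhoJ eps = (D : ℝ) * eps) (hNC : NC ≤ D) {Bh : ℕ → Module.End 𝕜 V}
    (hB : IsLadder (brk (𝕜 := 𝕜) E) (brk (𝕜 := 𝕜) F) (rhoJ eps) eps Bh)
    (hzero : ∀ k, D < k → Bh k = 0) :
    ∑ n ∈ range (NC + 1), ((2 * D - 2 * n + 1 : ℕ) : ℝ) / hwNrm (rhoJ eps) (rhoJ eps) eps n *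
        pform χ (ww eps Bh n 0) (ww eps Bh n 0) ≤
      ∑ i ∈ range (D + 1), ∑ b ∈ range (D + 1),
        pform χ (Bh b * Bh i) (Bh b * Bh i) /
          (nrm (rhoJ eps) eps i * nrm (rhoJ eps) eps b) := by
  have hpos : ∀ k ≤ D, 0 < nrm (rhoJ eps) eps k := fun k hk => nrm_pos_of_le hD heps hk
  have hnn : ∀ k, 0 ≤ nrm (rhoJ eps) eps k := fun k => nrm_nonneg_of_nat hD heps k
  have hpos' : ∀ n ≤ NC, ∀ M ≤ 2 * D - 2 * n,
      nrm (rhoOf (rhoJ eps) (rhoJ eps) eps n) eps M ≠ 0 := fun n hn M hM => by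
    refine (nrm_pos_of_le (D := 2 * D - 2 * n) ?_ heps hM).ne'
    rw [rhoOf, hD, Nat.cast_sub (by omega)]
    push_cast
    ring
  have hlad : ∀ n ≤ NC, IsLadder (brk (𝕜 := 𝕜) E) (brk (𝕜 := 𝕜) F)
      (rhoOf (rhoJ eps) (rhoJ eps) eps n) eps (ww eps Bh n) := fun n _ =>
    comp_ladder (brk_mul E) (brk_mul F) hB hB n
  have horth : ∀ n m s : ℕ, n ≤ s → m ≤ s →
      ∑ i ∈ range (s + 1), desc (rhoJ eps) (rhoJ eps) eps n (s - n) i *
        desc (rhoJ eps) (rhoJ eps) eps m (s - m) i *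
        (nrm (rhoJ eps) eps i * nrm (rhoJ eps) eps (s - i)) =
      if n = m then hwNrm (rhoJ eps) (rhoJ eps) eps n *
        nrm (rhoOf (rhoJ eps) (rhoJ eps) eps n) eps (s - n) else 0 := fun n m s hn hm => by
    rw [← ip_desc (rhoJ eps) (rhoJ eps) eps (T := s) (M := s - n) (M' := s - m) (by omega)
      (by omega), ip]
    exact sum_congr rfl fun i _ => by ring
  set ρ := rhoJ eps
  set w : ℕ → ℕ → ℝ := fun s i => nrm ρ eps i * nrm ρ eps (s - i) with hw
  have key : ∀ s, ∑ n ∈ (range (NC + 1)).filter (fun n => n ≤ s ∧ s + n ≤ 2 * D),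
      pform χ (ww eps Bh n (s - n)) (ww eps Bh n (s - n)) /
        (hwNrm ρ ρ eps n * nrm (rhoOf ρ ρ eps n) eps (s - n)) ≤
      ∑ i ∈ range (s + 1), pform χ (Bh (s - i) * Bh i) (Bh (s - i) * Bh i) / w s i := by
    intro s
    simp only [pform_self, sum_div]
    rw [sum_comm, sum_comm (s := range (s + 1))]
    refine sum_le_sum fun k _ => ?_
    refine le_of_eq_of_le ?_ (bessel (𝕜 := 𝕜) (range (s + 1))
      ((range (NC + 1)).filter fun n => n ≤ s ∧ s + n ≤ 2 * D) (w s)
      (fun n i => desc ρ ρ eps n (s - n) i)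
      (fun n => hwNrm ρ ρ eps n * nrm (rhoOf ρ ρ eps n) eps (s - n))
      (fun i => (Bh (s - i) * Bh i) (χ k)) ?_ ?_ ?_)
    · refine sum_congr rfl fun n hn => ?_
      have hns : n ≤ s := (mem_filter.1 hn).2.1
      simp only [ww, Ladder.comp, Nat.add_sub_cancel' hns, LinearMap.sum_apply, LinearMap.smul_apply]
      rfl
    · exact fun i _ => mul_nonneg (hnn _) (hnn _)
    · intro i _ h0
      rcases mul_eq_zero.1 h0 with h | h
      · have : D < i := by
          by_contra h'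
          exact (hpos i (by omega)).ne' h
        simp [hzero i this]
      · have : D < s - i := by
          by_contra h'
          exact (hpos _ (by omega)).ne' h
        simp [hzero _ this]
    · intro n hn m hm
      simp only [mem_filter, mem_range] at hn hm
      exact horth n m s hn.2.1 hm.2.1
  have hall := sum_le_sum (s := range (2 * D + 1)) (fun s _ => key s)
  have hR : ∀ f : ℕ → ℕ → ℝ, (∀ i b, D < i ∨ D < b → f i b = 0) →
      ∑ s ∈ range (2 * D + 1), ∑ i ∈ range (s + 1), f i (s - i) =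
        ∑ i ∈ range (D + 1), ∑ b ∈ range (D + 1), f i b := by
    intro f hf
    rw [← sum_product' (range (D + 1)) (range (D + 1)), sum_sigma']
    refine sum_bij_ne_zero (fun p _ _ => (p.2, p.1 - p.2)) ?_ ?_ ?_ ?_
    · rintro ⟨s, i⟩ h hne
      simp only [mem_sigma, mem_range] at h
      dsimp only at h hne
      simp only [mem_product, mem_range]
      constructor
      · by_contra h'; exact hne (hf _ _ (Or.inl (by omega)))
      · by_contra h'; exact hne (hf _ _ (Or.inr (by omega)))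
    · rintro ⟨s, i⟩ h _ ⟨t, j⟩ h' _ e
      simp only [mem_sigma, mem_range] at h h'
      simp only [Prod.mk.injEq] at e
      obtain ⟨e1, e2⟩ := e
      obtain rfl : i = j := e1
      obtain rfl : s = t := by omega
      rfl
    · rintro ⟨i, b⟩ h hne
      simp only [mem_product, mem_range] at h
      refine ⟨⟨i + b, i⟩, by simp only [mem_sigma, mem_range]; omega, ?_, ?_⟩
      · simpa using hne
      · simp
    · intros; rfl
  have hL : ∑ s ∈ range (2 * D + 1),
      ∑ n ∈ (range (NC + 1)).filter (fun n => n ≤ s ∧ s + n ≤ 2 * D),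
        pform χ (ww eps Bh n (s - n)) (ww eps Bh n (s - n)) /
          (hwNrm ρ ρ eps n * nrm (rhoOf ρ ρ eps n) eps (s - n)) =
      ∑ n ∈ range (NC + 1), ((2 * D - 2 * n + 1 : ℕ) : ℝ) / hwNrm ρ ρ eps n *
        pform χ (ww eps Bh n 0) (ww eps Bh n 0) := by
    simp only [sum_filter]
    rw [sum_comm]
    refine sum_congr rfl fun n hn => ?_
    have hn' : n ≤ NC := Nat.lt_succ_iff.1 (mem_range.1 hn)
    rw [← sum_filter]
    have hset : (range (2 * D + 1)).filter (fun s => n ≤ s ∧ s + n ≤ 2 * D) =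
        Ico n (2 * D - n + 1) := by
      ext s; simp only [mem_filter, mem_range, mem_Ico]; omega
    rw [hset, sum_Ico_eq_sum_range]
    have e : ∀ M ∈ range (2 * D - n + 1 - n),
        pform χ (ww eps Bh n (n + M - n)) (ww eps Bh n (n + M - n)) /
          (hwNrm ρ ρ eps n * nrm (rhoOf ρ ρ eps n) eps (n + M - n)) =
        pform χ (ww eps Bh n 0) (ww eps Bh n 0) / hwNrm ρ ρ eps n := by
      intro M hM
      rw [Nat.add_sub_cancel_left, pform_ladder hinv (hlad n hn') M]
      rw [mem_range] at hM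
      rw [mul_comm (hwNrm ρ ρ eps n), mul_div_mul_left]
      exact hpos' n hn' M (by omega)
    rw [sum_congr rfl e, sum_const, card_range, nsmul_eq_mul,
      show 2 * D - n + 1 - n = 2 * D - 2 * n + 1 by omega]
    ring
  rw [hL] at hall
  refine hall.trans_eq ?_
  refine (hR (fun i b => pform χ (Bh b * Bh i) (Bh b * Bh i) /
    (nrm ρ eps i * nrm ρ eps b)) ?_)
  rintro i b (h | h) <;> simp [hzero _ h, pform]

end Vale.Agent.P359.Slack
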