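import Vale.Agent.P359.Eigen
import Vale.Agent.P359.YSlack
import Vale.Agent.P359.TailScaled

/-!
The Fock-space instance of the hypotheses of the moment lemmas: scaled annihilators and their
adjoints, invariance in the forms used there, and the energy and two-pair functionals in the
scaled pair ladder.
-/

open Finset RCLike
open scoped InnerProductSpace

namespace Vale.Agent.P359

open Coef

/-- The adjoints of the scaled annihilators. -/
noncomputable def us (Q a : ℕ) : Module.End ℂ (FockQ Q) :=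
  ∑ x : Fin (Q + 1), ((if (x : ℕ) = a then sc Q a else 0 : ℝ) : ℂ) • (carQ Q).cre x

theorem us_of_le {Q a : ℕ} (h : a ≤ Q) :
    us Q a = (sc Q a : ℂ) • (carQ Q).cre ⟨a, by omega⟩ := by
  rw [us, Finset.sum_eq_single ⟨a, by omega⟩]
  · simp
  · intro x _ hx
    rw [if_neg fun e => hx (Fin.ext e)]
    simp
  · simp

theorem us_of_gt {Q a : ℕ} (h : Q < a) : us Q a = 0 := by
  refine sum_eq_zero fun x _ => ?_
  rw [if_neg (by omega)]
  simp

theorem us_adj (Q a : ℕ) (x y : FockQ Q) : ⟪us Q a x, y⟫_ℂ = ⟪x, u Q a y⟫_ℂ := by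
  simp only [us, u, LinearMap.sum_apply, LinearMap.smul_apply, sum_inner, inner_sum,
    inner_smul_left, inner_smul_right, Complex.conj_ofReal]
  exact sum_congr rfl fun z _ => by rw [(carQ Q).adj]

theorem u_anti (Q a b : ℕ) : u Q a * u Q b = -(u Q b * u Q a) := by
  rcases Nat.lt_or_ge Q a with h | h
  · simp [u_of_gt h]
  rcases Nat.lt_or_ge Q b with h' | h'
  · simp [u_of_gt h']
  rw [u_of_le h, u_of_le h', smul_mul_smul, smul_mul_smul, (carQ Q).anti, smul_neg, mul_comm]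

theorem epsQ_pos {Q : ℕ} (hQ : 0 < Q) : 0 < epsQ Q := by
  rw [epsQ]; positivity

theorem succ_mul_epsQ {Q B : ℕ} (h : B + 1 ≤ Q) : ((B : ℝ) + 1) * epsQ Q ≤ 1 := by
  have hQ : (0 : ℝ) < Q := by exact_mod_cast (by omega : 0 < Q)
  rw [epsQ, mul_one_div, div_le_one hQ]
  exact_mod_cast h

theorem rhoJ_epsQ {Q : ℕ} (hQ : 0 < Q) :
    rhoJ (epsQ Q) = ((2 * Q - 2 : ℕ) : ℝ) * epsQ Q := by
  have h : (Q : ℝ) ≠ 0 := Nat.cast_ne_zero.2 hQ.ne'
  rw [Nat.cast_sub (by omega), rhoJ, epsQ]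
  push_cast
  field_simp

theorem u_us {Q : ℕ} (hQ : 0 < Q) (a b : ℕ) : u Q a * us Q b + us Q b * u Q a =
    if a = b then ((nrm (1 : ℝ) (epsQ Q) a : ℝ) : ℂ) • (1 : Module.End ℂ (FockQ Q)) else 0 := by
  rcases Nat.lt_or_ge Q a with h | h
  · rw [u_of_gt h, zero_mul, mul_zero, add_zero]
    have : nrm (1 : ℝ) (epsQ Q) a = 0 := by
      simp [nrm_one_eq Q a hQ, Nat.choose_eq_zero_of_lt h]
    simp [this]
  rcases Nat.lt_or_ge Q b with h' | h'
  · rw [us_of_gt h', if_neg (by omega), zero_mul, mul_zero, add_zero]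
  rw [u_of_le h, us_of_le h', smul_mul_smul, smul_mul_smul, mul_comm (sc Q b : ℂ), ← smul_add,
    (carQ Q).mix]
  by_cases e : a = b
  · subst e
    rw [if_pos rfl, if_pos rfl, ← Complex.ofReal_mul, sc,
      Real.mul_self_sqrt (by rw [nrm_one_eq Q a hQ]; positivity)]
  · rw [if_neg e, if_neg fun he => e (congrArg Fin.val he), smul_zero]

/-- Scaled annihilators are bounded by their norms. -/
theorem norm_u_sq_le {Q a : ℕ} (hQ : 0 < Q) (v : FockQ Q) :
    ‖u Q a v‖ ^ 2 ≤ nrm (1 : ℝ) (epsQ Q) a * ‖v‖ ^ 2 := by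
  have hn : 0 ≤ nrm (1 : ℝ) (epsQ Q) a := by rw [nrm_one_eq Q a hQ]; positivity
  rcases Nat.lt_or_ge Q a with h | h
  · simp only [u_of_gt h, LinearMap.zero_apply, norm_zero]
    rw [zero_pow two_ne_zero]
    positivity
  rw [u_of_le h, LinearMap.smul_apply, norm_smul, mul_pow, Complex.norm_real, Real.norm_eq_abs,
    sq_abs, sc, Real.sq_sqrt hn]
  exact mul_le_mul_of_nonneg_left
    (pow_le_pow_left₀ (norm_nonneg _) ((carQ Q).norm_ann_le _ v) 2) hn

theorem pinvariant_of_invariant {Q r : ℕ} {χ : Fin r → FockQ Q}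
    (h : Ladder.IsInvariant (Rb Q) (Lb Q) (Pf χ)) : Slack.PInvariant χ (Eop Q) (Fop Q) :=
  fun X Y => congrArg re (h.adj' X Y).symm

/-- The moment of the lowest pair operator. -/
noncomputable def tauQ {Q r : ℕ} (χ : Fin r → FockQ Q) : ℝ :=
  Slack.pform χ (Bh Q 0) (Bh Q 0)

theorem sum_norm_Bh {Q r : ℕ} (hQ : 0 < Q) {χ : Fin r → FockQ Q}
    (h : Ladder.IsInvariant (Rb Q) (Lb Q) (Pf χ)) (k : ℕ) :
    ∑ i, ‖Bh Q k (χ i)‖ ^ 2 = nrm (rhoJ (epsQ Q)) (epsQ Q) k * tauQ χ := by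
  rw [← Slack.pform_self]
  exact Slack.pform_ladder (pinvariant_of_invariant h) (Bh_ladder hQ) k

/-- The energy functional. -/
theorem phi_energy {Q r : ℕ} (hQ : 0 < Q) {χ : Fin r → FockQ Q}
    (h : Ladder.IsInvariant (Rb Q) (Lb Q) (Pf χ)) :
    ∑ i, ∑ m, ‖pairFam (χ i) m‖ ^ 2 = ((2 * Q - 1 : ℕ) : ℝ) / 4 * tauQ χ := by
  simp only [pairFam, norm_pair_sq]
  rw [Finset.sum_comm]
  simp only [← Finset.mul_sum, sum_norm_Bh hQ h]
  rw [Finset.sum_congr rfl (g := fun _ => tauQ χ / 4) fun k hk => ?_]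
  · rw [Finset.sum_const, Finset.card_range, nsmul_eq_mul]
    ring
  · have := nrm_rhoJ_pos (Finset.mem_range.1 hk)
    field_simp

/-- The two-pair functional in the scaled pair ladder. -/
theorem phi_yForm {Q r : ℕ} (hQ : 0 < Q) (χ : Fin r → FockQ Q) :
    ∑ i, yForm (pairFam (χ i)) = (1 / 16) * ∑ k ∈ range (2 * Q - 2 + 1),
      ∑ l ∈ range (2 * Q - 2 + 1), Slack.pform χ (Bh Q l * Bh Q k) (Bh Q l * Bh Q k) /
        (nrm (rhoJ (epsQ Q)) (epsQ Q) k * nrm (rhoJ (epsQ Q)) (epsQ Q) l) := by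
  have hD : 2 * Q - 2 + 1 = 2 * Q - 1 := by omega
  have hy : ∀ f : FockQ Q, yForm (pairFam f) = ∑ k ∈ range (2 * Q - 1), ∑ l ∈ range (2 * Q - 1),
      1 / (4 * nrm (rhoJ (epsQ Q)) (epsQ Q) k) * (1 / (4 * nrm (rhoJ (epsQ Q)) (epsQ Q) l)) *
        ‖Bh Q l (Bh Q k f)‖ ^ 2 := by
    intro f
    have e : ∀ l : ℕ, ∑ m, ‖Bh Q l (pairFam f m)‖ ^ 2 = ∑ k ∈ range (2 * Q - 1),
        1 / (4 * nrm (rhoJ (epsQ Q)) (epsQ Q) k) * ‖Bh Q l (Bh Q k f)‖ ^ 2 := by
      intro l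
      rw [Finset.sum_range]
      refine sum_congr rfl fun m _ => ?_
      have hm := m.isLt
      have hZ : 0 < pairZ Q ((m : ℕ) + 1) := pairZ_pos (by omega) (by omega)
      have hn := nrm_rhoJ_pos hm
      have hp : ((kapB Q m * Real.sqrt (2 * pairZ Q ((m : ℕ) + 1)) : ℝ) : ℂ) • pairFam f m =
          Bh Q m f := by
        simp only [pairFam, Car.pair, Bh_eq hQ, LinearMap.smul_apply, LinearMap.sum_apply,
          Finset.smul_sum, smul_smul, coef]
        refine sum_congr rfl fun a _ => sum_congr rfl fun b _ => ?_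
        congr 1
        show ((kapB Q m * Real.sqrt (2 * pairZ Q ((m : ℕ) + 1)) : ℝ) : ℂ) *
            ((pairVec Q ((m : ℕ) + 1) a b / Real.sqrt (2 * pairZ Q ((m : ℕ) + 1)) : ℝ) : ℂ) =
          ((kapB Q m : ℝ) : ℂ) * ((pairVec Q ((m : ℕ) + 1) a b : ℝ) : ℂ)
        have : ((Real.sqrt (2 * pairZ Q ((m : ℕ) + 1)) : ℝ) : ℂ) ≠ 0 := by
          rw [Ne, Complex.ofReal_eq_zero]; exact (Real.sqrt_pos.2 (by positivity)).ne'
        push_cast
        field_simp
      rw [← hp, map_smul, norm_smul, mul_pow, Complex.norm_real, Real.norm_eq_abs, sq_abs, mul_pow,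
        Real.sq_sqrt (by positivity), ← mul_assoc]
      have hk := kapB_sq_pairZ (k := m) hQ
      rw [show 1 / (4 * nrm (rhoJ (epsQ Q)) (epsQ Q) (m : ℕ)) *
        (kapB Q m ^ 2 * (2 * pairZ Q ((m : ℕ) + 1))) = 1 by field_simp; linear_combination 2 * hk,
        one_mul]
    rw [yForm]
    simp only [norm_pair_sq]
    rw [Finset.sum_comm]
    simp only [← Finset.mul_sum, e]
    simp only [Finset.mul_sum]
    rw [Finset.sum_comm]
    exact sum_congr rfl fun k _ => sum_congr rfl fun l _ => by ring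
  simp only [hy, hD, Slack.pform_self, Finset.sum_div, Finset.mul_sum, Module.End.mul_apply]
  rw [Finset.sum_comm]
  refine sum_congr rfl fun k hk => ?_
  rw [Finset.sum_comm]
  refine sum_congr rfl fun l hl => sum_congr rfl fun i _ => ?_
  have := nrm_rhoJ_pos (Finset.mem_range.1 hk)
  have := nrm_rhoJ_pos (Finset.mem_range.1 hl)
  field_simp
  ring

end Vale.Agent.P359
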