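import Vale.Agent.P359.Defs

/-!
# P359: the energy as a sum of squares of pair slices
-/

open Finset

namespace Vale.Agent.P359

variable {N Q : ℕ}

/-- The configuration `x` with the particles `i`, `j` moved to `a`, `b`. -/
def put (x : Occ N Q) (i j : Fin N) (a b : Fin (Q + 1)) : Occ N Q :=
  Function.update (Function.update x i a) j b

lemma put_fst (x : Occ N Q) {i j : Fin N} (hij : i ≠ j) (a b : Fin (Q + 1)) :
    put x i j a b i = a := by
  simp [put, hij]

lemma put_snd (x : Occ N Q) (i j : Fin N) (a b : Fin (Q + 1)) : put x i j a b j = b := by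
  simp [put]

lemma put_other (x : Occ N Q) {i j k : Fin N} (hi : k ≠ i) (hj : k ≠ j) (a b : Fin (Q + 1)) :
    put x i j a b k = x k := by
  simp [put, hi, hj]

lemma put_put (x : Occ N Q) {i j : Fin N} (hij : i ≠ j) (a b c d : Fin (Q + 1)) :
    put (put x i j a b) i j c d = put x i j c d := by
  funext k
  rcases eq_or_ne k j with rfl | hj
  · rw [put_snd, put_snd]
  rcases eq_or_ne k i with rfl | hi
  · rw [put_fst _ hij, put_fst _ hij]
  · rw [put_other _ hi hj, put_other _ hi hj, put_other _ hi hj]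

lemma put_self (x : Occ N Q) {i j : Fin N} (hij : i ≠ j) : put x i j (x i) (x j) = x := by
  funext k
  rcases eq_or_ne k j with rfl | hj
  · rw [put_snd]
  rcases eq_or_ne k i with rfl | hi
  · rw [put_fst _ hij]
  · rw [put_other _ hi hj]

/-- Averaging over the positions of two particles. -/
lemma sum_put {i j : Fin N} (hij : i ≠ j) (G : Occ N Q → ℂ) :
    ∑ x : Occ N Q, ∑ a, ∑ b, G (put x i j a b) = ((Q : ℂ) + 1) ^ 2 * ∑ x, G x := by
  have hinv : Function.Involutive fun p : Occ N Q × (Fin (Q + 1) × Fin (Q + 1)) =>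
      (put p.1 i j p.2.1 p.2.2, (p.1 i, p.1 j)) := fun p => by
    simp only [put_put _ hij, put_self _ hij, put_fst _ hij, put_snd]
  calc ∑ x : Occ N Q, ∑ a, ∑ b, G (put x i j a b)
      = ∑ p : Occ N Q × (Fin (Q + 1) × Fin (Q + 1)), G (put p.1 i j p.2.1 p.2.2) := by
        rw [Fintype.sum_prod_type]
        refine Finset.sum_congr rfl fun x _ => ?_
        rw [Fintype.sum_prod_type]
    _ = ∑ p : Occ N Q × (Fin (Q + 1) × Fin (Q + 1)), G p.1 :=
        hinv.bijective.sum_comp (fun p => G p.1)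
    _ = _ := by
        rw [Fintype.sum_prod_type, Finset.mul_sum]
        refine Finset.sum_congr rfl fun x _ => ?_
        simp only [Finset.sum_const, Finset.card_univ, Fintype.card_prod, Fintype.card_fin,
          nsmul_eq_mul]
        push_cast
        ring

/-- The component of `ψ` on the pair state of index `s` of the particles `i`, `j`. -/
noncomputable def slice (i j : Fin N) (ψ : Occ N Q → ℂ) (s : ℕ) (x : Occ N Q) : ℂ :=
  ∑ c, ∑ d, (pairVec Q s c d : ℂ) * ψ (put x i j c d)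

lemma slice_put {i j : Fin N} (hij : i ≠ j) (ψ : Occ N Q → ℂ) (s : ℕ) (x : Occ N Q)
    (a b : Fin (Q + 1)) : slice i j ψ s (put x i j a b) = slice i j ψ s x := by
  simp only [slice, put_put _ hij]

lemma pairOp_eq (i j : Fin N) (ψ : Occ N Q → ℂ) (x : Occ N Q) :
    pairOp i j ψ x = ∑ s ∈ range (2 * Q + 1),
      (pairVec Q s (x i) (x j) : ℂ) / (pairZ Q s : ℂ) * slice i j ψ s x := by
  simp only [pairOp, proj1, Complex.ofReal_sum, Finset.sum_mul, slice, Finset.mul_sum]
  rw [Finset.sum_congr rfl fun c (_ : c ∈ univ) => Finset.sum_comm, Finset.sum_comm]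
  refine Finset.sum_congr rfl fun s _ => Finset.sum_congr rfl fun c _ =>
    Finset.sum_congr rfl fun d _ => ?_
  show _ = _ * ((pairVec Q s c d : ℂ) * ψ (put x i j c d))
  rw [put]
  push_cast
  ring

lemma braket_pairOp {i j : Fin N} (hij : i ≠ j) (φ ψ : Occ N Q → ℂ) :
    ((Q : ℂ) + 1) ^ 2 * braket φ (pairOp i j ψ) =
      ∑ x, ∑ s ∈ range (2 * Q + 1), star (slice i j φ s x) * slice i j ψ s x / (pairZ Q s : ℂ) := by
  rw [braket, ← sum_put hij]
  refine Finset.sum_congr rfl fun x _ => ?_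
  simp only [pairOp_eq, put_fst _ hij, put_snd, slice_put hij, Finset.mul_sum]
  rw [Finset.sum_congr rfl fun a (_ : a ∈ univ) => Finset.sum_comm, Finset.sum_comm]
  refine Finset.sum_congr rfl fun s _ => ?_
  simp only [slice]
  rw [star_sum, Finset.sum_mul, Finset.sum_div]
  refine Finset.sum_congr rfl fun a _ => ?_
  rw [star_sum, Finset.sum_mul, Finset.sum_div]
  refine Finset.sum_congr rfl fun b _ => ?_
  simp only [star_mul', Complex.star_def, Complex.conj_ofReal]
  ring

lemma braket_ham (φ ψ : Occ N Q → ℂ) :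
    ((Q : ℂ) + 1) ^ 2 * braket φ (ham ψ) = ∑ p ∈ pairs N, ∑ x, ∑ s ∈ range (2 * Q + 1),
      star (slice p.1 p.2 φ s x) * slice p.1 p.2 ψ s x / (pairZ Q s : ℂ) := by
  rw [Finset.sum_congr rfl fun p (hp : p ∈ pairs N) =>
    (braket_pairOp (ne_of_lt (mem_filter.1 hp).2) φ ψ).symm]
  simp only [braket, ham, Finset.mul_sum]
  exact Finset.sum_comm

/-- `H` is symmetric. -/
theorem braket_ham_symm (φ ψ : Occ N Q → ℂ) : braket φ (ham ψ) = star (braket ψ (ham φ)) := by
  have h0 : ((Q : ℂ) + 1) ^ 2 ≠ 0 := pow_ne_zero 2 (by exact_mod_cast Nat.succ_ne_zero Q)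
  refine mul_left_cancel₀ h0 ?_
  have h : ((Q : ℂ) + 1) ^ 2 = star (((Q : ℂ) + 1) ^ 2) := by simp
  conv_rhs => rw [h, ← star_mul', braket_ham]
  rw [braket_ham]
  simp only [star_sum, star_div₀, star_mul', star_star, Complex.star_def, Complex.conj_ofReal,
    Complex.conj_conj]
  exact Finset.sum_congr rfl fun p _ => Finset.sum_congr rfl fun x _ =>
    Finset.sum_congr rfl fun s _ => by ring

lemma pairZ_nonneg (s : ℕ) : 0 ≤ pairZ Q s :=
  Finset.sum_nonneg fun _ _ => Finset.sum_nonneg fun _ _ => sq_nonneg _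

/-- The energy as a sum of squares. -/
theorem energy_eq (ψ : Occ N Q → ℂ) :
    ((Q : ℝ) + 1) ^ 2 * energy ψ = ∑ p ∈ pairs N, ∑ x, ∑ s ∈ range (2 * Q + 1),
      ‖slice p.1 p.2 ψ s x‖ ^ 2 / pairZ Q s := by
  have h := congrArg Complex.re (braket_ham ψ ψ)
  rw [show ((Q : ℂ) + 1) ^ 2 = ((((Q : ℝ) + 1) ^ 2 : ℝ) : ℂ) by push_cast; rfl,
    Complex.re_ofReal_mul] at h
  rw [energy, h, Complex.re_sum]
  refine Finset.sum_congr rfl fun p _ => ?_
  rw [Complex.re_sum]
  refine Finset.sum_congr rfl fun x _ => ?_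
  rw [Complex.re_sum]
  refine Finset.sum_congr rfl fun s _ => ?_
  rw [Complex.star_def, Complex.conj_mul', ← Complex.ofReal_pow, ← Complex.ofReal_div,
    Complex.ofReal_re]

theorem energy_nonneg (ψ : Occ N Q → ℂ) : 0 ≤ energy ψ := by
  refine nonneg_of_mul_nonneg_right ?_ (by positivity : (0 : ℝ) < ((Q : ℝ) + 1) ^ 2)
  rw [energy_eq]
  exact Finset.sum_nonneg fun p _ => Finset.sum_nonneg fun x _ => Finset.sum_nonneg fun s _ =>
    div_nonneg (sq_nonneg _) (pairZ_nonneg s)

/-- A zero mode is orthogonal to every pair state. -/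
theorem ham_eq_zero_iff (ψ : Occ N Q → ℂ) :
    ham ψ = 0 ↔ ∀ i j : Fin N, i < j → ∀ s x, slice i j ψ s x = 0 := by
  constructor
  · intro h i j hij s x
    by_cases hs : 2 * Q < s
    · refine Finset.sum_eq_zero fun c _ => Finset.sum_eq_zero fun d _ => ?_
      have hne : (c : ℕ) + d ≠ s := by omega
      simp [pairVec, hne]
    rcases (pairZ_nonneg (Q := Q) s).eq_or_lt with hz | hz
    · refine Finset.sum_eq_zero fun c _ => Finset.sum_eq_zero fun d _ => ?_
      have h1 := (Finset.sum_eq_zero_iff_of_nonneg fun a _ =>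
        Finset.sum_nonneg fun b _ => sq_nonneg (pairVec Q s a b)).1 hz.symm c (mem_univ c)
      have h2 := (Finset.sum_eq_zero_iff_of_nonneg fun b _ => sq_nonneg (pairVec Q s c b)).1 h1 d
        (mem_univ d)
      rw [pow_eq_zero_iff two_ne_zero] at h2
      simp [h2]
    have he : ((Q : ℝ) + 1) ^ 2 * energy ψ = 0 := by simp [energy, braket, h]
    rw [energy_eq] at he
    have hnn : ∀ (p : Fin N × Fin N) (x : Occ N Q) (t : ℕ),
        0 ≤ ‖slice p.1 p.2 ψ t x‖ ^ 2 / pairZ Q t := fun p x t =>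
      div_nonneg (sq_nonneg _) (pairZ_nonneg t)
    have h1 := (Finset.sum_eq_zero_iff_of_nonneg fun p _ => Finset.sum_nonneg fun y _ =>
      Finset.sum_nonneg fun t _ => hnn p y t).1 he (i, j) (by simp [pairs, hij])
    have h2 := (Finset.sum_eq_zero_iff_of_nonneg fun y _ =>
      Finset.sum_nonneg fun t _ => hnn (i, j) y t).1 h1 x (mem_univ x)
    have h3 := (Finset.sum_eq_zero_iff_of_nonneg fun t _ => hnn (i, j) x t).1 h2 s
      (mem_range.2 (by omega))
    rw [div_eq_zero_iff, or_iff_left hz.ne', pow_eq_zero_iff two_ne_zero, norm_eq_zero] at h3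
    exact h3
  · intro h
    funext x
    refine Finset.sum_eq_zero fun p hp => ?_
    rw [pairOp_eq]
    exact Finset.sum_eq_zero fun s _ => by rw [h p.1 p.2 (mem_filter.1 hp).2 s x, mul_zero]

end Vale.Agent.P359
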