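import Vale.Agent.P359.Car

/-!
Sums of squares of level two on families of vectors: the coefficient identities that make a
one-body form at most `c`.
-/

namespace Vale.Agent.P359

open scoped InnerProductSpace
open Finset RCLike

variable {𝕜 E ι μ : Type*} [RCLike 𝕜] [NormedAddCommGroup E] [InnerProductSpace 𝕜 E]
  [Fintype ι] [DecidableEq ι] [Fintype μ] (C : Car 𝕜 E ι)

/-- The form of degree zero. -/
noncomputable def form0 (T : μ → μ → ℝ) (χ : μ → E) : ℝ :=
  re (∑ m, ∑ n, (T m n : 𝕜) * ⟪χ m, χ n⟫_𝕜)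

/-- The form of degree two. -/
noncomputable def Car.form2 (T : μ → μ → ι → ι → ℝ) (χ : μ → E) : ℝ :=
  re (∑ m, ∑ n, ∑ y, ∑ b, (T m n y b : 𝕜) * ⟪C.ann y (χ m), C.ann b (χ n)⟫_𝕜)

/-- The form of degree four. -/
noncomputable def Car.form4 (T : μ → μ → ι → ι → ι → ι → ℝ) (χ : μ → E) : ℝ :=
  re (∑ m, ∑ n, ∑ a, ∑ b, ∑ a', ∑ b', (T m n a b a' b' : 𝕜) *
    ⟪C.ann b (C.ann a (χ m)), C.ann b' (C.ann a' (χ n))⟫_𝕜)

theorem form0_add (S T : μ → μ → ℝ) (χ : μ → E) :
    form0 (𝕜 := 𝕜) (fun m n => S m n + T m n) χ =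
      form0 (𝕜 := 𝕜) S χ + form0 (𝕜 := 𝕜) T χ := by
  simp [form0, add_mul, Finset.sum_add_distrib]

theorem form0_sum {κ : Type*} [Fintype κ] (T : κ → μ → μ → ℝ) (χ : μ → E) :
    form0 (𝕜 := 𝕜) (fun m n => ∑ k, T k m n) χ = ∑ k, form0 (𝕜 := 𝕜) (T k) χ := by
  simp only [form0]
  rw [← map_sum]
  congr 1
  simp only [RCLike.ofReal_sum, Finset.sum_mul]
  simp only [Finset.sum_comm (s := (univ : Finset μ)) (t := (univ : Finset κ))]

theorem form0_diag [DecidableEq μ] (c : ℝ) (χ : μ → E) :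
    form0 (𝕜 := 𝕜) (fun m n => if m = n then c else 0) χ = c * ∑ m, ‖χ m‖ ^ 2 := by
  simp [form0, apply_ite (fun r : ℝ => (r : 𝕜)), Finset.mul_sum]

theorem Car.form2_add (S T : μ → μ → ι → ι → ℝ) (χ : μ → E) :
    C.form2 (fun m n y b => S m n y b + T m n y b) χ = C.form2 S χ + C.form2 T χ := by
  simp [Car.form2, add_mul, Finset.sum_add_distrib]

theorem Car.form2_neg (T : μ → μ → ι → ι → ℝ) (χ : μ → E) :
    C.form2 (fun m n y b => -T m n y b) χ = -C.form2 T χ := by
  simp [Car.form2, Finset.sum_neg_distrib]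

theorem Car.form2_sum {κ : Type*} [Fintype κ] (T : κ → μ → μ → ι → ι → ℝ) (χ : μ → E) :
    C.form2 (fun m n y b => ∑ k, T k m n y b) χ = ∑ k, C.form2 (T k) χ := by
  simp only [Car.form2]
  rw [← map_sum]
  congr 1
  simp only [RCLike.ofReal_sum, Finset.sum_mul]
  simp only [Finset.sum_comm (s := (univ : Finset ι)) (t := (univ : Finset κ)),
    Finset.sum_comm (s := (univ : Finset μ)) (t := (univ : Finset κ))]

theorem Car.form4_add (S T : μ → μ → ι → ι → ι → ι → ℝ) (χ : μ → E) :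
    C.form4 (fun m n a b a' b' => S m n a b a' b' + T m n a b a' b') χ =
      C.form4 S χ + C.form4 T χ := by
  simp [Car.form4, add_mul, Finset.sum_add_distrib]

theorem Car.form4_sum {κ : Type*} [Fintype κ] (T : κ → μ → μ → ι → ι → ι → ι → ℝ) (χ : μ → E) :
    C.form4 (fun m n a b a' b' => ∑ k, T k m n a b a' b') χ = ∑ k, C.form4 (T k) χ := by
  simp only [Car.form4]
  rw [← map_sum]
  congr 1
  simp only [RCLike.ofReal_sum, Finset.sum_mul]
  simp only [Finset.sum_comm (s := (univ : Finset ι)) (t := (univ : Finset κ)),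
    Finset.sum_comm (s := (univ : Finset μ)) (t := (univ : Finset κ))]

theorem Car.form4_swapL (T : μ → μ → ι → ι → ι → ι → ℝ) (χ : μ → E) :
    C.form4 (fun m n a b a' b' => T m n b a a' b') χ = -C.form4 T χ := by
  rw [Car.form4, Car.form4, ← map_neg]
  congr 1
  simp only [← Finset.sum_neg_distrib]
  refine sum_congr rfl fun m _ => sum_congr rfl fun n _ => ?_
  rw [Finset.sum_comm]
  refine sum_congr rfl fun a _ => sum_congr rfl fun b _ => sum_congr rfl fun a' _ =>
    sum_congr rfl fun b' _ => ?_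
  have h := LinearMap.congr_fun (C.anti a b) (χ m)
  simp only [Module.End.mul_apply, LinearMap.neg_apply] at h
  rw [h, inner_neg_left]
  simp

theorem Car.form4_swapR (T : μ → μ → ι → ι → ι → ι → ℝ) (χ : μ → E) :
    C.form4 (fun m n a b a' b' => T m n a b b' a') χ = -C.form4 T χ := by
  rw [Car.form4, Car.form4, ← map_neg]
  congr 1
  simp only [← Finset.sum_neg_distrib]
  refine sum_congr rfl fun m _ => sum_congr rfl fun n _ => sum_congr rfl fun a _ =>
    sum_congr rfl fun b _ => ?_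
  rw [Finset.sum_comm]
  refine sum_congr rfl fun a' _ => sum_congr rfl fun b' _ => ?_
  have h := LinearMap.congr_fun (C.anti a' b') (χ n)
  simp only [Module.End.mul_apply, LinearMap.neg_apply] at h
  rw [h, inner_neg_right]
  simp

/-- Only the antisymmetrised table of degree four matters. -/
theorem Car.form4_zero (T : μ → μ → ι → ι → ι → ι → ℝ)
    (h : ∀ m n a b a' b',
      T m n a b a' b' - T m n b a a' b' - T m n a b b' a' + T m n b a b' a' = 0) (χ : μ → E) :
    C.form4 T χ = 0 := by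
  have hneg : ∀ S : μ → μ → ι → ι → ι → ι → ℝ,
      C.form4 (fun m n a b a' b' => -S m n a b a' b') χ = -C.form4 S χ := by
    intro S; simp [Car.form4, Finset.sum_neg_distrib]
  have h0 : C.form4 (fun m n a b a' b' => T m n a b a' b' + -T m n b a a' b' +
      -T m n a b b' a' + T m n b a b' a') χ = 0 := by
    have e : (fun m n a b a' b' => T m n a b a' b' + -T m n b a a' b' +
        -T m n a b b' a' + T m n b a b' a') = fun _ _ _ _ _ _ => (0 : ℝ) := by
      funext m n a b a' b'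
      linear_combination h m n a b a' b'
    rw [e]; simp [Car.form4]
  rw [C.form4_add, C.form4_add, C.form4_add, hneg, hneg, C.form4_swapL, C.form4_swapR,
    C.form4_swapL (fun m n a b a' b' => T m n a b b' a'), C.form4_swapR] at h0
  linarith

/-- A square of the type annihilator times annihilator. -/
theorem Car.sq_annPair (t : μ → ι → ι → ℝ) (χ : μ → E) :
    ‖∑ m, ∑ a, ∑ b, (t m a b : 𝕜) • C.ann b (C.ann a (χ m))‖ ^ 2 =
      C.form4 (fun m n a b a' b' => t m a b * t n a' b') χ := by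
  rw [← inner_self_eq_norm_sq (𝕜 := 𝕜), Car.form4]
  congr 1
  simp only [sum_inner]
  simp only [inner_sum, inner_smul_left, inner_smul_right, RCLike.conj_ofReal]
  refine sum_congr rfl fun m _ => ?_
  rw [Finset.sum_comm_cycle]
  refine sum_congr rfl fun n _ => sum_congr rfl fun a _ => sum_congr rfl fun b _ =>
    sum_congr rfl fun a' _ => sum_congr rfl fun b' _ => ?_
  push_cast; ring

/-- A square of the type annihilator. -/
theorem Car.sq_ann (r : μ → ι → ℝ) (χ : μ → E) :
    ‖∑ m, ∑ a, (r m a : 𝕜) • C.ann a (χ m)‖ ^ 2 =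
      C.form2 (fun m n y b => r m y * r n b) χ := by
  rw [← inner_self_eq_norm_sq (𝕜 := 𝕜), Car.form2]
  congr 1
  simp only [sum_inner]
  simp only [inner_sum, inner_smul_left, inner_smul_right, RCLike.conj_ofReal]
  refine sum_congr rfl fun m _ => ?_
  rw [Finset.sum_comm]
  refine sum_congr rfl fun n _ => sum_congr rfl fun a _ => sum_congr rfl fun b _ => ?_
  push_cast; ring

omit [Fintype ι] in
theorem Car.inner_cre (a b : ι) (x y : E) :
    ⟪C.cre a x, C.cre b y⟫_𝕜 =
      (if a = b then ⟪x, y⟫_𝕜 else 0) - ⟪C.ann b x, C.ann a y⟫_𝕜 := by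
  have h := LinearMap.congr_fun (C.mix a b) y
  simp only [LinearMap.add_apply, Module.End.mul_apply] at h
  rw [C.adj, eq_sub_of_add_eq h, inner_sub_right]
  congr 1
  · split_ifs <;> simp
  · rw [← inner_conj_symm x, C.adj, inner_conj_symm]

/-- A square of the type creator. -/
theorem Car.sq_cre (s : μ → ι → ℝ) (χ : μ → E) :
    ‖∑ m, ∑ a, (s m a : 𝕜) • C.cre a (χ m)‖ ^ 2 =
      form0 (𝕜 := 𝕜) (fun m n => ∑ a, s m a * s n a) χ -
        C.form2 (fun m n y b => s m b * s n y) χ := by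
  rw [← inner_self_eq_norm_sq (𝕜 := 𝕜), Car.form2, form0, ← map_sub]
  congr 1
  simp only [sum_inner]
  simp only [inner_sum, inner_smul_left, inner_smul_right, RCLike.conj_ofReal, C.inner_cre,
    mul_sub, mul_ite, mul_zero, Finset.sum_sub_distrib]
  congr 1
  · refine sum_congr rfl fun m _ => ?_
    rw [Finset.sum_comm]
    refine sum_congr rfl fun n _ => ?_
    simp [Finset.sum_mul, mul_assoc, mul_left_comm]
  · refine sum_congr rfl fun m _ => ?_
    rw [Finset.sum_comm]
    refine sum_congr rfl fun n _ => ?_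
    rw [Finset.sum_comm]
    refine sum_congr rfl fun a _ => sum_congr rfl fun b _ => ?_
    push_cast; ring

/-- A square of the type scalar plus creator times annihilator. -/
theorem Car.sq_mixed (u : μ → ℝ) (t : μ → ι → ι → ℝ) (χ : μ → E) :
    ‖(∑ m, (u m : 𝕜) • χ m) + ∑ m, ∑ a, ∑ b, (t m a b : 𝕜) • C.cre a (C.ann b (χ m))‖ ^ 2 =
      form0 (𝕜 := 𝕜) (fun m n => u m * u n) χ
        + C.form2 (fun m n y b => 2 * (u m * t n y b) + ∑ a, t m a y * t n a b) χ
        + C.form4 (fun m n a b a' b' => -(t m b' a * t n b a')) χ := by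
  rw [@norm_add_sq 𝕜]
  have e1 : ‖∑ m, (u m : 𝕜) • χ m‖ ^ 2 = form0 (𝕜 := 𝕜) (fun m n => u m * u n) χ := by
    rw [← inner_self_eq_norm_sq (𝕜 := 𝕜), form0]
    congr 1
    simp only [sum_inner]
    simp only [inner_sum, inner_smul_left, inner_smul_right, RCLike.conj_ofReal]
    refine sum_congr rfl fun m _ => sum_congr rfl fun n _ => ?_
    push_cast; ring
  have e2 : 2 * re ⟪∑ m, (u m : 𝕜) • χ m,
      ∑ m, ∑ a, ∑ b, (t m a b : 𝕜) • C.cre a (C.ann b (χ m))⟫_𝕜 =
      C.form2 (fun m n y b => 2 * (u m * t n y b)) χ := by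
    rw [Car.form2]
    rw [show (2 : ℝ) * re ⟪∑ m, (u m : 𝕜) • χ m,
      ∑ m, ∑ a, ∑ b, (t m a b : 𝕜) • C.cre a (C.ann b (χ m))⟫_𝕜 = re ((2 : ℝ) •
        ⟪∑ m, (u m : 𝕜) • χ m, ∑ m, ∑ a, ∑ b, (t m a b : 𝕜) • C.cre a (C.ann b (χ m))⟫_𝕜) by
      rw [RCLike.smul_re]]
    congr 1
    simp only [sum_inner]
    simp only [inner_sum, inner_smul_left, inner_smul_right, RCLike.conj_ofReal,
      Finset.smul_sum, RCLike.real_smul_eq_coe_mul]
    refine sum_congr rfl fun m _ => sum_congr rfl fun n _ => sum_congr rfl fun a _ =>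
      sum_congr rfl fun b _ => ?_
    rw [← inner_conj_symm (χ m), C.adj, inner_conj_symm]
    push_cast; ring
  have e3 : ‖∑ m, ∑ a, ∑ b, (t m a b : 𝕜) • C.cre a (C.ann b (χ m))‖ ^ 2 =
      C.form2 (fun m n y b => ∑ a, t m a y * t n a b) χ
        + C.form4 (fun m n a b a' b' => -(t m b' a * t n b a')) χ := by
    rw [← inner_self_eq_norm_sq (𝕜 := 𝕜), Car.form2, Car.form4, ← map_add]
    congr 1
    simp only [sum_inner]
    simp only [inner_sum, inner_smul_left, inner_smul_right, RCLike.conj_ofReal, C.inner_cre,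
      mul_ite, mul_zero, sub_eq_add_neg, mul_add, mul_neg,
      Finset.sum_add_distrib, Finset.sum_neg_distrib]
    congr 1
    · refine sum_congr rfl fun m _ => ?_
      rw [Finset.sum_comm_cycle]
      refine sum_congr rfl fun n _ => ?_
      rw [Finset.sum_comm]
      refine sum_congr rfl fun y _ => ?_
      simp only [RCLike.ofReal_sum, Finset.sum_mul, Finset.sum_ite_irrel, Finset.sum_const_zero,
        Finset.sum_ite_eq, Finset.mem_univ, if_true]
      rw [Finset.sum_comm]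
      refine sum_congr rfl fun b _ => sum_congr rfl fun a _ => ?_
      push_cast; ring
    · simp only [← Finset.sum_neg_distrib]
      refine sum_congr rfl fun m _ => ?_
      rw [Finset.sum_comm_cycle]
      refine sum_congr rfl fun n _ => ?_
      simp only [← Fintype.sum_prod_type']
      exact Fintype.sum_equiv
        ⟨fun p => (p.2.1, p.2.2.1, p.2.2.2, p.1), fun p => (p.2.2.2, p.1, p.2.1, p.2.2.1),
          fun p => rfl, fun p => rfl⟩ _ _ fun p => by
          simp only [Equiv.coe_fn_mk]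
          push_cast
          ring
  rw [e1, e2, e3, C.form2_add]
  ring

/-- The certificate lemma: four kinds of squares whose tables add up to `c` minus `W`. -/
theorem Car.form2_le_of_sos [DecidableEq μ] {κp κg κc κa : Type*} [Fintype κp] [Fintype κg]
    [Fintype κc] [Fintype κa] (W : μ → μ → ι → ι → ℝ) (c : ℝ) (tp : κp → μ → ι → ι → ℝ)
    (u : κg → μ → ℝ) (tg : κg → μ → ι → ι → ℝ) (s : κc → μ → ι → ℝ) (r : κa → μ → ι → ℝ)
    (h0 : ∀ m n, (∑ k, u k m * u k n) + ∑ k, ∑ a, s k m a * s k n a = if m = n then c else 0)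
    (h2 : ∀ m n y b, (∑ k, (2 * (u k m * tg k n y b) + ∑ a, tg k m a y * tg k n a b))
      + (∑ k, r k m y * r k n b) + -(∑ k, s k m b * s k n y) = -W m n y b)
    (h4 : ∀ m n a b a' b',
      let T := fun a b a' b' =>
        (∑ k, tp k m a b * tp k n a' b') + ∑ k, -(tg k m b' a * tg k n b a')
      T a b a' b' - T b a a' b' - T a b b' a' + T b a b' a' = 0)
    (χ : μ → E) : C.form2 W χ ≤ c * ∑ m, ‖χ m‖ ^ 2 := by
  have hpos : 0 ≤ (∑ k, ‖∑ m, ∑ a, ∑ b, (tp k m a b : 𝕜) • C.ann b (C.ann a (χ m))‖ ^ 2)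
      + (∑ k, ‖(∑ m, (u k m : 𝕜) • χ m) +
          ∑ m, ∑ a, ∑ b, (tg k m a b : 𝕜) • C.cre a (C.ann b (χ m))‖ ^ 2)
      + (∑ k, ‖∑ m, ∑ a, (s k m a : 𝕜) • C.cre a (χ m)‖ ^ 2)
      + (∑ k, ‖∑ m, ∑ a, (r k m a : 𝕜) • C.ann a (χ m)‖ ^ 2) := by positivity
  simp only [C.sq_annPair, C.sq_mixed, C.sq_cre, C.sq_ann, Finset.sum_add_distrib,
    Finset.sum_sub_distrib, ← C.form2_sum, ← C.form4_sum, ← form0_sum] at hpos
  have z0 : form0 (𝕜 := 𝕜) (fun m n => ∑ k, u k m * u k n) χ +
      form0 (𝕜 := 𝕜) (fun m n => ∑ k, ∑ a, s k m a * s k n a) χ = c * ∑ m, ‖χ m‖ ^ 2 := by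
    rw [← form0_add, funext₂ h0, form0_diag]
  have z2 : C.form2 (fun m n y b => ∑ k, (2 * (u k m * tg k n y b) + ∑ a, tg k m a y * tg k n a b))
      χ + C.form2 (fun m n y b => ∑ k, r k m y * r k n b) χ +
      -C.form2 (fun m n y b => ∑ k, s k m b * s k n y) χ = -C.form2 W χ := by
    rw [← C.form2_neg, ← C.form2_neg, ← C.form2_add, ← C.form2_add]
    congr 1
    funext m n y b
    exact h2 m n y b
  have z4 : C.form4 (fun m n a b a' b' => ∑ k, tp k m a b * tp k n a' b') χ +
      C.form4 (fun m n a b a' b' => ∑ k, -(tg k m b' a * tg k n b a')) χ = 0 := by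
    rw [← C.form4_add]
    exact C.form4_zero _ h4 χ
  simp only [Finset.sum_add_distrib] at z2
  linarith

end Vale.Agent.P359
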