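import Vale.Agent.P359.Cube
import Vale.Agent.P359.Energy

/-!
# P359: the kernel at filling `1/3` is spanned by the Laughlin vector
-/

open Finset MvPolynomial

namespace Vale.Agent.P359

variable {N Q : ℕ}

/-- The exponent vector of a configuration. -/
noncomputable def expo (x : Occ N Q) : Fin N →₀ ℕ :=
  Finsupp.equivFunOnFinite.symm fun i => (x i : ℕ)

lemma expo_apply (x : Occ N Q) (i : Fin N) : expo x i = x i := rfl

lemma expo_injective : Function.Injective (expo (N := N) (Q := Q)) := fun x y h =>
  funext fun i => Fin.ext (by simpa [expo_apply] using DFunLike.congr_fun h i)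

/-- The normalisation of a monomial. -/
noncomputable def weight (x : Occ N Q) : ℂ := ∏ i, ((Real.sqrt (Q.choose (x i)) : ℝ) : ℂ)

lemma weight_ne_zero (x : Occ N Q) : weight x ≠ 0 :=
  Finset.prod_ne_zero_iff.2 fun i _ => Complex.ofReal_ne_zero.2
    (Real.sqrt_ne_zero'.2 (Nat.cast_pos.2 (Nat.choose_pos (Nat.lt_succ_iff.1 (x i).isLt))))

/-- The polynomial of a state, in the affine variables. -/
noncomputable def toPoly (ψ : Occ N Q → ℂ) : MvPolynomial (Fin N) ℂ :=
  ∑ x, monomial (expo x) (ψ x * weight x)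

lemma coeff_toPoly (ψ : Occ N Q → ℂ) (x : Occ N Q) : coeff (expo x) (toPoly ψ) = ψ x * weight x := by
  simp [toPoly, coeff_sum, coeff_monomial, expo_injective.eq_iff]

lemma toPoly_injective : Function.Injective (toPoly (N := N) (Q := Q)) := fun ψ φ h =>
  funext fun x => mul_right_cancel₀ (weight_ne_zero x) (by rw [← coeff_toPoly, ← coeff_toPoly, h])

lemma toPoly_smul (c : ℂ) (ψ : Occ N Q → ℂ) : toPoly (c • ψ) = C c * toPoly ψ := by
  simp [toPoly, Finset.mul_sum, C_mul_monomial, mul_assoc]

lemma degreeOf_toPoly_le (ψ : Occ N Q → ℂ) (k : Fin N) : degreeOf k (toPoly ψ) ≤ Q := by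
  classical
  rw [degreeOf_le_iff]
  intro m hm
  obtain ⟨x, -, hx⟩ := Finset.mem_biUnion.1 (support_sum hm)
  rw [support_monomial] at hx
  split_ifs at hx
  · simp at hx
  · rw [Finset.mem_singleton.1 hx, expo_apply]
    exact Nat.lt_succ_iff.1 (x k).isLt

lemma rename_toPoly (σ : Equiv.Perm (Fin N)) (ψ : Occ N Q → ℂ) :
    rename σ (toPoly ψ) = toPoly fun x => ψ (x ∘ σ) := by
  simp only [toPoly, map_sum, rename_monomial]
  refine Fintype.sum_equiv (Equiv.arrowCongr σ (Equiv.refl (Fin (Q + 1)))) _ _ fun x => ?_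
  have e : (Equiv.arrowCongr σ (Equiv.refl (Fin (Q + 1))) x) = x ∘ σ.symm := rfl
  rw [e, Function.comp_assoc, Equiv.symm_comp_self, Function.comp_id]
  refine congrArg₂ (fun (m : Fin N →₀ ℕ) (a : ℂ) => monomial m a) ?_ ?_
  · ext k
    obtain ⟨i, rfl⟩ := σ.surjective k
    rw [Finsupp.mapDomain_apply σ.injective, expo_apply, expo_apply, Function.comp_apply,
      Equiv.symm_apply_apply]
  · refine congrArg (ψ x * ·) ?_
    exact (Fintype.prod_equiv σ (fun i => ((Real.sqrt (Q.choose (x i)) : ℝ) : ℂ))
      (fun i => ((Real.sqrt (Q.choose ((x ∘ σ.symm) i)) : ℝ) : ℂ)) fun i => by simp)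

lemma toPoly_fermionic {ψ : Occ N Q → ℂ} :
    Fermionic ψ ↔ ∀ i j : Fin N, i ≠ j → rename (Equiv.swap i j) (toPoly ψ) = -toPoly ψ := by
  have hneg : toPoly (-ψ) = -toPoly ψ := by simp [toPoly, neg_mul]
  refine forall₃_congr fun i j _ => ?_
  rw [rename_toPoly, ← hneg, toPoly_injective.eq_iff, funext_iff]
  rfl

/-- Exponent after the diagonal restriction of a pair derivative. -/
noncomputable def diagExp (i j : Fin N) (s : ℕ) (x : Occ N Q) : Fin N →₀ ℕ :=
  Finsupp.equivFunOnFinite.symm fun k => if k = i then 0 else if k = j then s - 1 else (x k : ℕ)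

/-- Weight of the particles other than a pair. -/
noncomputable def restWeight (i j : Fin N) (x : Occ N Q) : ℂ :=
  ∏ k ∈ (univ.erase i).erase j, ((Real.sqrt (Q.choose (x k)) : ℝ) : ℂ)

lemma weight_eq {i j : Fin N} (hij : i ≠ j) (x : Occ N Q) :
    weight x = ((Real.sqrt (Q.choose (x i) * Q.choose (x j)) : ℝ) : ℂ) * restWeight i j x := by
  rw [Real.sqrt_mul (Nat.cast_nonneg _), Complex.ofReal_mul, mul_assoc, weight, restWeight,
    Finset.mul_prod_erase _ (fun k => ((Real.sqrt (Q.choose (x k)) : ℝ) : ℂ))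
      (mem_erase.2 ⟨hij.symm, mem_univ j⟩),
    Finset.mul_prod_erase _ (fun k => ((Real.sqrt (Q.choose (x k)) : ℝ) : ℂ)) (mem_univ i)]

lemma onDiag_deriv_monomial {i j : Fin N} (hij : i ≠ j) (x : Occ N Q) (a : ℂ) :
    onDiag i j (pderiv j (monomial (expo x) a) - pderiv i (monomial (expo x) a)) =
      monomial (diagExp i j ((x i : ℕ) + x j) x) (a * (((x j : ℕ) : ℂ) - ((x i : ℕ) : ℂ))) := by
  have hren : ∀ (l : Fin N) (b : ℂ), b * ((expo x l : ℕ) : ℂ) = 0 ∨ (l ≠ i ∧ l ≠ j) ∨
      (Finsupp.mapDomain (Function.update id i j) (expo x - Finsupp.single l 1)) =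
        diagExp i j ((x i : ℕ) + x j) x := by
    intro l b
    by_cases hl : l ≠ i ∧ l ≠ j
    · exact Or.inr (Or.inl hl)
    by_cases h0 : (x l : ℕ) = 0
    · exact Or.inl (by rw [expo_apply, h0, Nat.cast_zero, mul_zero])
    refine Or.inr (Or.inr ?_)
    ext k
    rw [Finsupp.mapDomain, Finsupp.sum_apply, Finsupp.sum_fintype _ _ (fun _ => by simp)]
    simp only [Finsupp.single_apply, Function.update_apply, id]
    rw [show diagExp i j ((x i : ℕ) + x j) x k =
      if k = i then 0 else if k = j then (x i : ℕ) + x j - 1 else (x k : ℕ) from rfl]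
    rcases eq_or_ne k i with rfl | hki
    · rw [if_pos rfl]
      exact Finset.sum_eq_zero fun m _ => by split_ifs <;> simp_all
    rcases eq_or_ne k j with rfl | hkj
    · rw [if_neg hki, if_pos rfl, Finset.sum_eq_add i k hij
        (fun m _ hm => by simp [hm.1, hm.2]) (by simp) (by simp)]
      simp only [if_pos, hij.symm, if_false]
      rcases not_and_or.1 hl with h | h <;> rw [not_not] at h <;> subst h <;>
        simp [Finsupp.tsub_apply, expo_apply, hij, hij.symm] <;> omega
    · rw [if_neg hki, if_neg hkj, Finset.sum_eq_single k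
        (fun m _ hm => by split_ifs <;> simp_all) (by simp)]
      rcases not_and_or.1 hl with h | h <;> rw [not_not] at h <;> subst h <;>
        simp [Finsupp.tsub_apply, expo_apply, hki, hkj]
  have key : ∀ l, l = i ∨ l = j → onDiag i j (pderiv l (monomial (expo x) a)) =
      monomial (diagExp i j ((x i : ℕ) + x j) x) (a * ((x l : ℕ) : ℂ)) := by
    intro l hl
    rw [pderiv_monomial, onDiag, aeval_monomial, MvPolynomial.algebraMap_eq]
    have e : ((expo x - Finsupp.single l 1).prod fun k m =>
        (X (Function.update id i j k) : MvPolynomial (Fin N) ℂ) ^ m) =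
        monomial (Finsupp.mapDomain (Function.update id i j) (expo x - Finsupp.single l 1)) 1 := by
      rw [monomial_eq, C_1, one_mul, Finsupp.prod_mapDomain_index (fun _ => pow_zero _)
        (fun _ _ _ => pow_add _ _ _)]
    rw [e, C_mul_monomial, mul_one]
    rcases hren l a with h | h | h
    · have h' : a * ((x l : ℕ) : ℂ) = 0 := h
      rw [expo_apply, h', monomial_zero, monomial_zero]
    · exact absurd hl (by tauto)
    · rw [h, expo_apply]
  rw [map_sub, key j (Or.inr rfl), key i (Or.inl rfl), ← map_sub, ← mul_sub]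

lemma onDiag_deriv_toPoly {i j : Fin N} (hij : i ≠ j) (ψ : Occ N Q → ℂ) :
    onDiag i j (pderiv j (toPoly ψ) - pderiv i (toPoly ψ)) =
      ∑ x, ∑ s ∈ range (2 * Q + 1),
        monomial (diagExp i j s x) ((pairVec Q s (x i) (x j) : ℂ) * ψ x * restWeight i j x) := by
  simp only [toPoly, map_sum, ← Finset.sum_sub_distrib]
  refine Finset.sum_congr rfl fun x _ => ?_
  rw [onDiag_deriv_monomial hij]
  have hs : (x i : ℕ) + x j ∈ range (2 * Q + 1) := mem_range.2 (by omega)
  rw [Finset.sum_eq_single ((x i : ℕ) + x j)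
    (fun s _ hs => by simp [pairVec, hs.symm]) (fun h => absurd hs h)]
  refine congrArg (monomial _) ?_
  rw [weight_eq hij, pairVec, if_pos rfl]
  push_cast
  ring

/-- The pair condition in coordinates. -/
lemma slice_eq_zero_iff {i j : Fin N} (hij : i ≠ j) (ψ : Occ N Q → ℂ) :
    (∀ s x, slice i j ψ s x = 0) ↔
      onDiag i j (pderiv j (toPoly ψ) - pderiv i (toPoly ψ)) = 0 := by
  classical
  rw [onDiag_deriv_toPoly hij]
  have hexp : ∀ s (x : Occ N Q) a b, diagExp i j s (put x i j a b) = diagExp i j s x := fun s x a b => by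
    ext k
    simp only [diagExp, Finsupp.coe_equivFunOnFinite_symm]
    split_ifs with h1 h2
    · rfl
    · rfl
    · rw [put_other _ h1 h2]
  have hrest : ∀ (x : Occ N Q) a b, restWeight i j (put x i j a b) = restWeight i j x := fun x a b =>
    Finset.prod_congr rfl fun k hk => by
      simp only [mem_erase] at hk
      rw [put_other _ hk.2.1 hk.1]
  have hlin : ∀ s m, ((Q : ℂ) + 1) ^ 2 *
      (∑ x, coeff m (monomial (diagExp i j s x) ((pairVec Q s (x i) (x j) : ℂ) * ψ x * restWeight i j x))) =
      ∑ x, coeff m (monomial (diagExp i j s x) (slice i j ψ s x * restWeight i j x)) := fun s m => by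
    rw [← sum_put hij]
    refine Finset.sum_congr rfl fun x _ => ?_
    simp only [hexp, hrest, put_fst _ hij, put_snd, coeff_monomial, slice, Finset.sum_mul]
    split_ifs <;> simp
  have h0 : ((Q : ℂ) + 1) ^ 2 ≠ 0 := pow_ne_zero 2 (by exact_mod_cast Nat.succ_ne_zero Q)
  constructor
  · intro h
    ext m
    simp only [coeff_sum, coeff_zero]
    rw [Finset.sum_comm]
    refine Finset.sum_eq_zero fun s _ => mul_left_cancel₀ h0 ?_
    rw [hlin, mul_zero]
    exact Finset.sum_eq_zero fun x _ => by rw [h s x]; simp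
  · intro h s x₀
    rcases eq_or_ne s 0 with rfl | hs0
    · refine Finset.sum_eq_zero fun c _ => Finset.sum_eq_zero fun d _ => ?_
      unfold pairVec
      split_ifs with hcd
      · simp [show (c : ℕ) = 0 by omega, show (d : ℕ) = 0 by omega]
      · simp
    by_cases hs2 : 2 * Q < s
    · refine Finset.sum_eq_zero fun c _ => Finset.sum_eq_zero fun d _ => ?_
      have hne : (c : ℕ) + d ≠ s := by omega
      simp [pairVec, hne]
    have hsum := congrArg (coeff (diagExp i j s x₀)) h
    simp only [coeff_sum, coeff_zero] at hsum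
    rw [Finset.sum_comm, Finset.sum_eq_single s (fun t _ ht => ?_)
      (fun hm => absurd (mem_range.2 (by omega)) hm)] at hsum
    · have h2 := hlin s (diagExp i j s x₀)
      rw [hsum, mul_zero] at h2
      have e : ∀ x : Occ N Q, coeff (diagExp i j s x₀)
          (monomial (diagExp i j s x) (slice i j ψ s x * restWeight i j x)) =
          if diagExp i j s x = diagExp i j s x₀ then slice i j ψ s x₀ * restWeight i j x₀ else 0 := by
        intro x
        rw [coeff_monomial]
        split_ifs with hx
        · have hk : ∀ k, k ≠ i → k ≠ j → x k = x₀ k := fun k hi hj => Fin.ext (by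
            simpa [diagExp, hi, hj] using DFunLike.congr_fun hx k)
          have hp : ∀ c d, put x i j c d = put x₀ i j c d := fun c d => by
            funext k
            rcases eq_or_ne k j with rfl | hj
            · rw [put_snd, put_snd]
            rcases eq_or_ne k i with rfl | hi
            · rw [put_fst _ hij, put_fst _ hij]
            · rw [put_other _ hi hj, put_other _ hi hj, hk k hi hj]
          have hr : restWeight i j x = restWeight i j x₀ := Finset.prod_congr rfl fun k hk' => by
            simp only [mem_erase] at hk'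
            rw [hk k hk'.2.1 hk'.1]
          simp only [slice, hp, hr]
        · rfl
      simp only [e, ← Finset.sum_filter, Finset.sum_const, nsmul_eq_mul] at h2
      rcases mul_eq_zero.1 h2.symm with h3 | h3
      · rw [Nat.cast_eq_zero, Finset.card_eq_zero, Finset.filter_eq_empty_iff] at h3
        exact absurd rfl (h3 (mem_univ x₀))
      · exact (mul_eq_zero.1 h3).resolve_right (Finset.prod_ne_zero_iff.2 fun k _ =>
          Complex.ofReal_ne_zero.2 (Real.sqrt_ne_zero'.2 (Nat.cast_pos.2
            (Nat.choose_pos (Nat.lt_succ_iff.1 (x₀ k).isLt)))))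
    · refine Finset.sum_eq_zero fun x _ => ?_
      rw [coeff_monomial]
      split_ifs with hx
      · by_cases ht0 : t = 0
        · subst ht0
          unfold pairVec
          split_ifs with hcd
          · simp [show (x i : ℕ) = 0 by omega, show (x j : ℕ) = 0 by omega]
          · simp
        · have := DFunLike.congr_fun hx j
          simp only [diagExp, Finsupp.coe_equivFunOnFinite_symm, hij.symm, if_false, if_true] at this
          exact absurd (by omega : t = s) ht
      · rfl

lemma toPoly_laughlin (N : ℕ) : toPoly (laughlin N) = laughlinPoly N := by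
  classical
  ext m
  by_cases hm : ∀ k, m k ≤ flux N
  · obtain ⟨x, rfl⟩ : ∃ x : Occ N (flux N), expo x = m :=
      ⟨fun k => ⟨m k, Nat.lt_succ_iff.2 (hm k)⟩, Finsupp.ext fun k => rfl⟩
    rw [coeff_toPoly, laughlin, ← weight, ← expo, div_mul_cancel₀ _ (weight_ne_zero x)]
  · obtain ⟨k, hk⟩ := not_forall.1 hm
    have h : ∀ P : MvPolynomial (Fin N) ℂ, degreeOf k P ≤ flux N → coeff m P = 0 := fun P hP => by
      by_contra hne
      exact hk ((monomial_le_degreeOf k (mem_support_iff.2 hne)).trans hP)
    rw [h _ (degreeOf_toPoly_le _ k), h _ (degreeOf_laughlinPoly k).le]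

theorem laughlin_fermionic (N : ℕ) : Fermionic (laughlin N) :=
  toPoly_fermionic.2 fun i j hij => by rw [toPoly_laughlin]; exact rename_laughlinPoly hij

theorem laughlin_ne_zero (N : ℕ) : laughlin N ≠ 0 := fun h =>
  laughlinPoly_ne_zero (by rw [← toPoly_laughlin, h]; simp [toPoly])

theorem ham_laughlin (N : ℕ) : ham (laughlin N) = 0 := by
  rw [ham_eq_zero_iff]
  intro i j hij
  refine (slice_eq_zero_iff hij.ne _).2 ?_
  rw [toPoly_laughlin]
  have hmem : (i, j) ∈ pairs N := by simp [pairs, hij]
  have hd : (X j - X i : MvPolynomial (Fin N) ℂ) ^ 3 ∣ laughlinPoly N := by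
    unfold laughlinPoly
    rw [← Finset.mul_prod_erase (pairs N) _ hmem]
    exact dvd_mul_right _ _
  exact onDiag_deriv_of_cube i j hd

/-- At filling `1/3` the fermionic kernel of `H` is spanned by the Laughlin vector. -/
theorem kernel_eq (N : ℕ) (ψ : Occ N (flux N) → ℂ) :
    Fermionic ψ ∧ ham ψ = 0 ↔ ∃ c : ℂ, ψ = c • laughlin N := by
  constructor
  · rintro ⟨hf, hz⟩
    obtain ⟨c, hc⟩ := eq_smul_laughlinPoly (toPoly_fermionic.1 hf)
      (fun i j hij => (slice_eq_zero_iff hij.ne ψ).1 ((ham_eq_zero_iff ψ).1 hz i j hij))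
      (degreeOf_toPoly_le ψ)
    exact ⟨c, toPoly_injective (by rw [hc, toPoly_smul, toPoly_laughlin])⟩
  · rintro ⟨c, rfl⟩
    refine ⟨fun i j hij x => by simp [laughlin_fermionic N i j hij x], ?_⟩
    funext x
    have h := congrFun (ham_laughlin N) x
    simp only [ham, pairOp, Pi.smul_apply, smul_eq_mul, Pi.zero_apply] at h ⊢
    simp only [mul_left_comm _ c, ← Finset.mul_sum]
    rw [h, mul_zero]

end Vale.Agent.P359
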