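import Vale.Agent.P359.Bridge
import Vale.Agent.P359.Kernel

/-!
The spectral gap at Laughlin flux from a one-body bound on the pair families.
-/

open Finset RCLike
open scoped InnerProductSpace

namespace Vale.Agent.P359

/-- A state of zero energy is a zero mode. -/
theorem ham_zero_of_energy {N Q : ℕ} (ψ : Occ N Q → ℂ) (h : energy ψ = 0) : ham ψ = 0 := by
  refine (ham_eq_zero_iff ψ).2 fun i j hij s x => ?_
  by_cases hs : 2 * Q < s
  · refine Finset.sum_eq_zero fun c _ => Finset.sum_eq_zero fun d _ => ?_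
    have hne : (c : ℕ) + d ≠ s := by omega
    simp [pairVec, hne]
  rcases (pairZ_nonneg (Q := Q) s).eq_or_lt with hz | hz
  · refine Finset.sum_eq_zero fun c _ => Finset.sum_eq_zero fun d _ => ?_
    have h1 := (Finset.sum_eq_zero_iff_of_nonneg fun a _ =>
      Finset.sum_nonneg fun b _ => sq_nonneg (pairVec Q s a b)).1 hz.symm c (mem_univ c)
    have h2 := (Finset.sum_eq_zero_iff_of_nonneg fun b _ => sq_nonneg (pairVec Q s c b)).1 h1 d
      (mem_univ d)
    rw [pow_eq_zero_iff two_ne_zero] at h2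
    simp [h2]
  have he : ((Q : ℝ) + 1) ^ 2 * energy ψ = 0 := by rw [h, mul_zero]
  rw [energy_eq] at he
  have hnn : ∀ (p : Fin N × Fin N) (x : Occ N Q) (t : ℕ),
      0 ≤ ‖slice p.1 p.2 ψ t x‖ ^ 2 / pairZ Q t := fun p x t =>
    div_nonneg (sq_nonneg _) (pairZ_nonneg t)
  have h1 := (Finset.sum_eq_zero_iff_of_nonneg fun p _ => Finset.sum_nonneg fun y _ =>
    Finset.sum_nonneg fun t _ => hnn p y t).1 he (i, j) (by simp [pairs, hij])
  have h2 := (Finset.sum_eq_zero_iff_of_nonneg fun y _ =>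
    Finset.sum_nonneg fun t _ => hnn (i, j) y t).1 h1 x (mem_univ x)
  have h3 := (Finset.sum_eq_zero_iff_of_nonneg fun t _ => hnn (i, j) x t).1 h2 s
    (mem_range.2 (by omega))
  rw [div_eq_zero_iff, or_iff_left hz.ne', pow_eq_zero_iff two_ne_zero, norm_eq_zero] at h3
  exact h3

/-- A square bound in the Fock sector gives the gap above the Laughlin vector. -/
theorem gapAt_of_square {N : ℕ} {γ : ℝ}
    (hsq : ∀ f ∈ Fock.sector ℂ (Fin (flux (N + 2) + 1)) (N + 2),
      γ * re ⟪f, (carQ (flux (N + 2))).ham (coef (flux (N + 2))) f⟫_ℂ ≤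
        ‖(carQ (flux (N + 2))).ham (coef (flux (N + 2))) f‖ ^ 2) :
    GapAt (N + 2) γ := fun _ hψ horth =>
  gap_of_square (laughlin (N + 2)) (fun φ hφ he => by
    obtain ⟨c, hc⟩ := (kernel_eq (N + 2) φ).1 ⟨hφ, ham_zero_of_energy φ he⟩
    exact ⟨c, by rw [hc]; rfl⟩) hsq hψ horth

/-- The real form of a one-body coefficient table on a family of Fock vectors. -/
noncomputable def wForm {Q : ℕ} (W : Chan Q → Chan Q → Fin (Q + 1) → Fin (Q + 1) → ℝ)
    (χ : Chan Q → FockQ Q) : ℝ :=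
  re (∑ m, ∑ n, ∑ y, ∑ b, (W m n y b : ℂ) *
    ⟪(carQ Q).ann y (χ m), (carQ Q).ann b (χ n)⟫_ℂ)

/-- The gap criterion: tables `W` agreeing with the commutator table on the pair families of
states, with form at most `c` on every family of `M`-particle vectors. -/
theorem gapAt_of_oneBody {N : ℕ} {c : ℝ}
    (W : Chan (flux (N + 2)) → Chan (flux (N + 2)) → Fin (flux (N + 2) + 1) →
      Fin (flux (N + 2) + 1) → ℝ)
    (hW : ∀ f ∈ Fock.sector ℂ (Fin (flux (N + 2) + 1)) (N + 2),
      wForm (fun m n y b => W m n y b - Kk (coef (flux (N + 2))) m n y b)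
        (fun m => (carQ (flux (N + 2))).pair (coef (flux (N + 2))) m f) = 0)
    (hc : ∀ χ : Chan (flux (N + 2)) → FockQ (flux (N + 2)),
      (∀ m, χ m ∈ Fock.sector ℂ (Fin (flux (N + 2) + 1)) N) →
        wForm W χ ≤ c * ∑ m, ‖χ m‖ ^ 2) :
    GapAt (N + 2) (1 - c) :=
  gapAt_of_square fun f hf =>
    (carQ (flux (N + 2))).gap_bound (coef (flux (N + 2))) (coef_anti _) (coef_orth _) W c f
      (hW f hf) (hc _ fun m => pair_mem hf m)

/-- A family of rank-one corrections along vectors killed by every pair family does not change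
the form. -/
theorem wForm_eq_zero_of_null {Q : ℕ} {κ : Type*} [Fintype κ] (lam : κ → ℝ)
    (v : κ → Chan Q → Fin (Q + 1) → ℝ) (χ : Chan Q → FockQ Q)
    (hv : ∀ k, ∑ m, ∑ y, (v k m y : ℂ) • (carQ Q).ann y (χ m) = 0) :
    wForm (fun m n y b => ∑ k, lam k * v k m y * v k n b) χ = 0 := by
  have h : ∀ k, (∑ m, ∑ n, ∑ y, ∑ b, ((lam k * v k m y * v k n b : ℝ) : ℂ) *
      ⟪(carQ Q).ann y (χ m), (carQ Q).ann b (χ n)⟫_ℂ) = (lam k : ℂ) *
        ⟪∑ m, ∑ y, (v k m y : ℂ) • (carQ Q).ann y (χ m),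
          ∑ m, ∑ y, (v k m y : ℂ) • (carQ Q).ann y (χ m)⟫_ℂ := by
    intro k
    simp only [sum_inner]
    simp only [inner_sum, inner_smul_left, inner_smul_right, Complex.conj_ofReal,
      Finset.mul_sum]
    refine sum_congr rfl fun m _ => ?_
    rw [sum_comm]
    refine sum_congr rfl fun y _ => sum_congr rfl fun n _ => sum_congr rfl fun b _ => ?_
    push_cast
    ring
  have h2 : (∑ m, ∑ n, ∑ y, ∑ b, ((∑ k, lam k * v k m y * v k n b : ℝ) : ℂ) *
      ⟪(carQ Q).ann y (χ m), (carQ Q).ann b (χ n)⟫_ℂ) = 0 := by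
    simp only [Complex.ofReal_sum, Finset.sum_mul]
    simp only [Finset.sum_comm (s := (univ : Finset (Fin (Q + 1)))) (t := (univ : Finset κ)),
      Finset.sum_comm (s := (univ : Finset (Chan Q))) (t := (univ : Finset κ))]
    exact sum_eq_zero fun k _ => by rw [h k, hv k, inner_zero_left, mul_zero]
  rw [wForm, h2, map_zero]

end Vale.Agent.P359
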