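import Vale.Agent.P359.GapCriterion

/-!
The gap in the operator form `H ≥ δ (I - P)`, from the bound on the orthogonal complement.
-/

open Finset

namespace Vale.Agent.P359

theorem gap_operator_form {N : ℕ} {δ : ℝ} (h : GapAt N δ) (ψ : Occ N (flux N) → ℂ)
    (hψ : Fermionic ψ) :
    δ * (nsq ψ - ‖braket (laughlin N) ψ‖ ^ 2 / nsq (laughlin N)) ≤ energy ψ := by
  set L := laughlin N with hL
  have hbr : braket L L = ((nsq L : ℝ) : ℂ) := by
    simp [braket, nsq, Complex.conj_mul']
  have hn : nsq L ≠ 0 := by
    intro h0
    refine laughlin_ne_zero N (funext fun x => ?_)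
    have := (sum_eq_zero_iff_of_nonneg fun y _ => sq_nonneg ‖L y‖).1 h0 x (mem_univ x)
    simpa using this
  set c : ℂ := braket L ψ / braket L L with hc
  set φ : Occ N (flux N) → ℂ := fun x => ψ x - c * L x with hφ
  have hf : Fermionic φ := fun i j hij x => by
    simp only [hφ]
    rw [hψ i j hij x, show L (x ∘ Equiv.swap i j) = -L x from laughlin_fermionic N i j hij x]
    ring
  have ho : braket L φ = 0 := by
    have e : braket L φ = braket L ψ - c * braket L L := by
      simp only [braket, hφ, mul_sub, Finset.sum_sub_distrib, Finset.mul_sum]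
      exact congrArg _ (sum_congr rfl fun x _ => by ring)
    rw [e, hc, div_mul_cancel₀ _ (by rw [hbr]; exact_mod_cast hn), sub_self]
  have hH : ham φ = ham ψ := by
    funext x
    have h0 := congrFun (ham_laughlin N) x
    have e : ham φ x = ham ψ x - c * ham L x := by
      simp only [ham, pairOp, hφ, mul_sub, Finset.sum_sub_distrib, Finset.mul_sum]
      exact congrArg _ (sum_congr rfl fun p _ => sum_congr rfl fun a _ => sum_congr rfl fun b _ =>
        by ring)
    rw [e, h0, Pi.zero_apply, mul_zero, sub_zero]
  have hE : energy φ = energy ψ := by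
    have h1 : braket L (ham ψ) = 0 := by
      rw [braket_ham_symm, hL, ham_laughlin]
      simp [braket]
    have e : braket φ (ham ψ) = braket ψ (ham ψ) - star c * braket L (ham ψ) := by
      simp only [braket, hφ, star_sub, star_mul', sub_mul, Finset.sum_sub_distrib, Finset.mul_sum]
      exact congrArg _ (sum_congr rfl fun x _ => by ring)
    rw [energy, energy, hH, e, h1, mul_zero, sub_zero]
  have hN : nsq φ = nsq ψ - ‖braket L ψ‖ ^ 2 / nsq L := by
    have hb : ∀ f : Occ N (flux N) → ℂ, ((nsq f : ℝ) : ℂ) = braket f f := fun f => by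
      simp [braket, nsq, Complex.conj_mul']
    have hsy : braket ψ L = star (braket L ψ) := by
      simp [braket, mul_comm]
    have e : braket φ φ = braket ψ ψ - star c * braket L ψ := by
      have e1 : braket φ φ = braket ψ φ - star c * braket L φ := by
        simp only [braket, hφ, star_sub, star_mul', sub_mul, Finset.sum_sub_distrib, Finset.mul_sum]
        exact congrArg _ (sum_congr rfl fun x _ => by ring)
      have e2 : braket ψ φ = braket ψ ψ - c * braket ψ L := by
        simp only [braket, hφ, mul_sub, Finset.sum_sub_distrib, Finset.mul_sum]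
        exact congrArg _ (sum_congr rfl fun x _ => by ring)
      rw [e1, e2, ho, hsy, mul_zero, sub_zero, hc, star_div₀, hbr, Complex.star_def,
        Complex.conj_ofReal]
      ring
    refine Complex.ofReal_injective ?_
    rw [hb, e, Complex.ofReal_sub, ← hb, hc, star_div₀, hbr]
    push_cast
    rw [← Complex.conj_mul', Complex.star_def, Complex.conj_ofReal]
    ring
  rw [← hN, ← hE]
  exact h φ hf ho

end Vale.Agent.P359
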