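import Vale.Agent.P359.Ladder

/-!
# Completeness of every level of two finite ladders

The two ladders have dimensions `P + 1` and `f + 1`; level `T` is the box of indices `i ≤ P`,
`T - i ≤ f`, and the components `n` are those with `n ≤ T`, `n ≤ P`, `n ≤ f`, `n + T ≤ P + f`.
-/

open Finset

namespace Vale.Agent.P359.Ladder

open Coef

variable {r₁ r₂ eps : ℝ} {P f T : ℕ}

/-- The largest component of level `T`. -/
def topComp (P f T : ℕ) : ℕ := min (min T (min P f)) (P + f - T)

lemma nrm_eq_zero {r : ℝ} {d i : ℕ} (hr : r = d * eps) (h : d < i) : nrm r eps i = 0 := by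
  refine Finset.prod_eq_zero (mem_range.2 h) ?_
  simp only [eCo, hr]
  push_cast
  ring

lemma box_pos (he : 0 < eps) (hP : r₁ = P * eps) (hf : r₂ = f * eps) {n : ℕ}
    (hT : T ≤ P + f) (hn : n ≤ topComp P f T) :
    0 < hwNrm r₁ r₂ eps n * nrm (rhoOf r₁ r₂ eps n) eps (T - n) := by
  simp only [topComp] at hn
  refine mul_pos (hwNrm_pos (fun l hl => ?_) fun l hl => ?_) (nrm_pos fun l hl => ?_)
  · rw [hP]; exact mul_lt_mul_of_pos_right (by exact_mod_cast (show l < P by omega)) he
  · rw [hf]; exact mul_lt_mul_of_pos_right (by exact_mod_cast (show l < f by omega)) he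
  · have hl' := mem_range.1 (mem_range.2 hl)
    have h : ((l + 2 * n : ℕ) : ℝ) < ((P + f : ℕ) : ℝ) := Nat.cast_lt.2 (by omega)
    push_cast at h
    rw [rhoOf, hP, hf]
    nlinarith

/-- Completeness of level `T` on its box. -/
theorem desc_complete_box (he : 0 < eps) (hP : r₁ = P * eps) (hf : r₂ = f * eps) (hT : T ≤ P + f)
    {i j : ℕ} (hiT : i ≤ T) (hiP : i ≤ P) (hif : T - i ≤ f) (hjT : j ≤ T) (hjP : j ≤ P)
    (hjf : T - j ≤ f) :
    ∑ n ∈ range (topComp P f T + 1), nrm r₁ eps i * nrm r₂ eps (T - i) *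
        desc r₁ r₂ eps n (T - n) i /
        (hwNrm r₁ r₂ eps n * nrm (rhoOf r₁ r₂ eps n) eps (T - n)) * desc r₁ r₂ eps n (T - n) j =
      if i = j then 1 else 0 := by
  have htop : topComp P f T = min (min T (min P f)) (P + f - T) := rfl
  set K := topComp P f T + 1 with hK
  set a0 := T - f with ha0
  let A : Matrix (Fin K) (Fin K) ℝ := fun n a => desc r₁ r₂ eps n (T - n) (a0 + a)
  let B : Matrix (Fin K) (Fin K) ℝ := fun a n =>
    nrm r₁ eps (a0 + a) * nrm r₂ eps (T - (a0 + a)) * desc r₁ r₂ eps n (T - n) (a0 + a) /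
      (hwNrm r₁ r₂ eps n * nrm (rhoOf r₁ r₂ eps n) eps (T - n))
  have hip : ∀ F G : ℕ → ℝ, ip r₁ r₂ eps T F G =
      ∑ a : Fin K, nrm r₁ eps (a0 + a) * nrm r₂ eps (T - (a0 + a)) * F (a0 + a) * G (a0 + a) := by
    intro F G
    rw [← Finset.sum_range (fun a => nrm r₁ eps (a0 + a) * nrm r₂ eps (T - (a0 + a)) *
      F (a0 + a) * G (a0 + a)), ip]
    have e := Finset.sum_Ico_eq_sum_range
      (fun i => nrm r₁ eps i * nrm r₂ eps (T - i) * F i * G i) a0 (a0 + K)
    rw [Nat.add_sub_cancel_left] at e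
    rw [← e]
    symm
    refine Finset.sum_subset (fun x hx => ?_) fun x hx hx' => ?_
    · simp only [mem_Ico, mem_range] at hx ⊢
      omega
    · simp only [mem_Ico, mem_range, not_and, not_lt] at hx hx'
      rcases Nat.lt_or_ge P x with h | h
      · rw [nrm_eq_zero hP h]
        simp
      · rw [nrm_eq_zero hf (show f < T - x by omega)]
        simp
  have hAB : A * B = 1 := by
    ext n n'
    have hn := n.isLt
    have hn' := n'.isLt
    have e := ip_desc r₁ r₂ eps (T := T) (n := n) (n' := n') (M := T - n) (M' := T - n')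
      (by omega) (by omega)
    rw [hip] at e
    rw [Matrix.mul_apply, Matrix.one_apply]
    calc ∑ a, A n a * B a n'
        = (∑ a : Fin K, nrm r₁ eps (a0 + a) * nrm r₂ eps (T - (a0 + a)) *
            desc r₁ r₂ eps n (T - n) (a0 + a) * desc r₁ r₂ eps n' (T - n') (a0 + a)) /
            (hwNrm r₁ r₂ eps n' * nrm (rhoOf r₁ r₂ eps n') eps (T - n')) := by
          rw [Finset.sum_div]
          exact Finset.sum_congr rfl fun a _ => by simp only [A, B]; ring
      _ = _ := by
          rw [e]
          rcases eq_or_ne n n' with rfl | hne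
          · rw [if_pos rfl, if_pos rfl, div_self (box_pos he hP hf hT (by omega)).ne']
          · rw [if_neg (fun e => hne (Fin.ext e)), if_neg hne, zero_div]
  have hBA' : B * A = 1 := mul_eq_one_comm.1 hAB
  have hi : i - a0 < K := by omega
  have hj : j - a0 < K := by omega
  have hBA := congrFun (congrFun hBA' (⟨i - a0, hi⟩ : Fin K)) (⟨j - a0, hj⟩ : Fin K)
  rw [Matrix.mul_apply, Matrix.one_apply] at hBA
  rw [Finset.sum_range]
  simp only [A, B, Fin.ext_iff, show a0 + (i - a0) = i by omega, show a0 + (j - a0) = j by omega,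
    show i - a0 = j - a0 ↔ i = j by omega] at hBA
  exact hBA

/-- INVERSION for finite ladders, at every level. -/
theorem inversion_box {𝕜 A : Type*} [RCLike 𝕜] [Ring A] [Algebra 𝕜 A] {X Y : ℕ → A} (he : 0 < eps)
    (hP : r₁ = P * eps) (hf : r₂ = f * eps) (hX : ∀ k, P < k → X k = 0) (hY : ∀ k, f < k → Y k = 0)
    {i b : ℕ} (hi : i ≤ P) (hb : b ≤ f) :
    Y b * X i = ∑ n ∈ range (topComp P f (i + b) + 1),
      ((nrm r₁ eps i * nrm r₂ eps b * desc r₁ r₂ eps n (i + b - n) i /
        (hwNrm r₁ r₂ eps n * nrm (rhoOf r₁ r₂ eps n) eps (i + b - n)) : ℝ) : 𝕜) •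
          comp 𝕜 r₁ r₂ eps n X Y (i + b - n) := by
  symm
  calc _ = ∑ n ∈ range (topComp P f (i + b) + 1), ∑ j ∈ range (i + b + 1),
        ((nrm r₁ eps i * nrm r₂ eps b * desc r₁ r₂ eps n (i + b - n) i /
          (hwNrm r₁ r₂ eps n * nrm (rhoOf r₁ r₂ eps n) eps (i + b - n)) *
          desc r₁ r₂ eps n (i + b - n) j : ℝ) : 𝕜) • (Y (i + b - j) * X j) := by
        refine Finset.sum_congr rfl fun n hn => ?_
        have hn' := mem_range.1 hn
        simp only [topComp] at hn'
        rw [comp, show n + (i + b - n) = i + b by omega, Finset.smul_sum]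
        exact Finset.sum_congr rfl fun j _ => by rw [smul_smul, RCLike.ofReal_mul]
    _ = ∑ j ∈ range (i + b + 1), ((if i = j then 1 else 0 : ℝ) : 𝕜) • (Y (i + b - j) * X j) := by
        rw [Finset.sum_comm]
        refine Finset.sum_congr rfl fun j hj => ?_
        rcases Nat.lt_or_ge P j with h | h
        · simp [hX j h]
        rcases Nat.lt_or_ge f (i + b - j) with h' | h'
        · simp [hY _ h']
        rw [← Finset.sum_smul, ← RCLike.ofReal_sum]
        have e := desc_complete_box (T := i + b) (i := i) (j := j) he hP hf (by omega) (by omega) hi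
          (by omega) (Nat.lt_succ_iff.1 (mem_range.1 hj)) h h'
        rw [show i + b - i = b by omega] at e
        rw [e]
    _ = Y b * X i := by
        rw [Finset.sum_eq_single i (fun j _ hj => by simp [Ne.symm hj]) (by simp)]
        simp

end Vale.Agent.P359.Ladder
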