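import Mathlib
import Vale.Agent.P359.LadderBox

/-!
The coupling of two scaled ladders on functions of two indices: the lowering and raising maps,
the descendants of the highest-weight vectors, their orthogonality and their norms.
-/

open Finset

namespace Vale.Agent.P359.KapL

open Coef Ladder

variable {r₁ r₂ eps : ℝ}

/-- Lowering on two indices. -/
def Fop (V : ℕ → ℕ → ℝ) (i b : ℕ) : ℝ :=
  (if 0 < i then V (i - 1) b else 0) + if 0 < b then V i (b - 1) else 0

/-- Raising on two indices. -/
noncomputable def Eop (r₁ r₂ eps : ℝ) (V : ℕ → ℕ → ℝ) (i b : ℕ) : ℝ :=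
  eCo r₁ eps (i + 1) * V (i + 1) b + eCo r₂ eps (b + 1) * V i (b + 1)

/-- The vector number `(n, M)` of the coupled ladders. -/
noncomputable def dVec (r₁ r₂ eps : ℝ) (n M i b : ℕ) : ℝ :=
  if i + b = n + M then desc r₁ r₂ eps n M i else 0

theorem Fop_dVec (r₁ r₂ eps : ℝ) (n M : ℕ) :
    Fop (dVec r₁ r₂ eps n M) = dVec r₁ r₂ eps n (M + 1) := by
  funext i b
  simp only [Fop, dVec]
  by_cases h : i + b = n + (M + 1)
  · rw [if_pos h, desc_succ, up]
    rcases Nat.eq_zero_or_pos b with hb | hb <;> rcases Nat.eq_zero_or_pos i with hi | hi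
    · omega
    · subst hb
      rw [if_neg (lt_irrefl 0), desc_eq_zero r₁ r₂ eps (show n + M < i by omega), if_pos hi,
        if_neg (show ¬ i = 0 by omega), if_pos (show i - 1 + 0 = n + M by omega)]
      ring
    · rw [if_pos hb, if_pos (show i + (b - 1) = n + M by omega), if_neg (show ¬ 0 < i by omega),
        if_pos hi]
      ring
    · rw [if_pos hb, if_pos (show i + (b - 1) = n + M by omega), if_pos hi,
        if_pos (show i - 1 + b = n + M by omega), if_neg (show ¬ i = 0 by omega)]
      ring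
  · rw [if_neg h]
    have h1 : (if 0 < i then if i - 1 + b = n + M then desc r₁ r₂ eps n M (i - 1) else 0 else 0)
        = (0 : ℝ) := by split_ifs <;> first | omega | rfl
    have h2 : (if 0 < b then if i + (b - 1) = n + M then desc r₁ r₂ eps n M i else 0 else 0)
        = (0 : ℝ) := by split_ifs <;> first | omega | rfl
    rw [h1, h2, add_zero]

/-- The highest-weight vectors are annihilated by raising. -/
theorem Eop_hw (r₁ r₂ eps : ℝ) (n : ℕ) :
    Eop r₁ r₂ eps (dVec r₁ r₂ eps n 0) = fun _ _ => 0 := by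
  funext i b
  simp only [Eop, dVec, desc_zero, Nat.add_zero]
  by_cases h : i + b + 1 = n
  · rw [if_pos (by omega), if_pos (by omega), hw, hw, if_pos (by omega), if_pos (by omega)]
    have hc : ((n.choose (i + 1) : ℝ)) * ((i : ℝ) + 1) = (n.choose i : ℝ) * ((b : ℝ) + 1) := by
      have := Nat.choose_succ_right_eq n i
      rw [show n - i = b + 1 by omega] at this
      exact_mod_cast this
    have hn : (n : ℝ) = (i : ℝ) + b + 1 := by exact_mod_cast h.symm
    rw [prod_range_succ, prod_eq_prod_Ico_succ_bot (show i < n by omega), pow_succ]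
    simp only [eCo]
    push_cast
    rw [hn]
    linear_combination (-((-1 : ℝ) ^ i) * (∏ l ∈ range i, (r₂ - ((i : ℝ) + b + 1 - 1 - l) * eps))
      * (r₂ - (b : ℝ) * eps) * (r₁ - (i : ℝ) * eps) *
        (∏ l ∈ Ico (i + 1) n, (r₁ - (l : ℝ) * eps))) * hc
  · rw [if_neg (by omega), if_neg (by omega)]
    ring

theorem Eop_Fop (r₁ r₂ eps : ℝ) (V : ℕ → ℕ → ℝ) (i b : ℕ) :
    Eop r₁ r₂ eps (Fop V) i b = Fop (Eop r₁ r₂ eps V) i b +
      (r₁ + r₂ - 2 * ((i : ℝ) + b) * eps) * V i b := by
  simp only [Eop, Fop, eCo]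
  rcases Nat.eq_zero_or_pos i with hi | hi <;> rcases Nat.eq_zero_or_pos b with hb | hb
  · subst hi hb; simp; ring
  · subst hi
    simp only [lt_irrefl, if_false, if_pos hb, if_pos (Nat.succ_pos _), zero_add,
      Nat.add_sub_cancel]
    rw [show b - 1 + 1 = b by omega, Nat.sub_self]
    push_cast [Nat.cast_sub hb]
    ring
  · subst hb
    simp only [lt_irrefl, if_false, if_pos hi, if_pos (Nat.succ_pos _), zero_add, add_zero,
      Nat.add_sub_cancel]
    rw [show i - 1 + 1 = i by omega, Nat.sub_self]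
    push_cast [Nat.cast_sub hi]
    ring
  · simp only [if_pos hi, if_pos hb, if_pos (Nat.succ_pos _), Nat.add_sub_cancel]
    rw [show i - 1 + 1 = i by omega, show b - 1 + 1 = b by omega]
    push_cast [Nat.cast_sub hb, Nat.cast_sub hi]
    ring

theorem Eop_dVec (r₁ r₂ eps : ℝ) (n M : ℕ) : Eop r₁ r₂ eps (dVec r₁ r₂ eps n M) =
    fun i b => eCo (rhoOf r₁ r₂ eps n) eps M * dVec r₁ r₂ eps n (M - 1) i b := by
  induction M with
  | zero => rw [Eop_hw]; simp [eCo_zero]
  | succ M ih =>
    funext i b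
    rw [← Fop_dVec, Eop_Fop, ih, Nat.add_sub_cancel]
    have hF : Fop (fun i b => eCo (rhoOf r₁ r₂ eps n) eps M * dVec r₁ r₂ eps n (M - 1) i b) i b =
        eCo (rhoOf r₁ r₂ eps n) eps M * dVec r₁ r₂ eps n M i b := by
      rcases Nat.eq_zero_or_pos M with hM | hM
      · subst hM; simp [Fop, eCo_zero]
      · conv_rhs => rw [show M = M - 1 + 1 by omega, ← Fop_dVec]
        rw [← show M = M - 1 + 1 by omega]
        simp only [Fop]
        split_ifs <;> ring
    rw [hF]
    by_cases h : i + b = n + M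
    · have hh : (i : ℝ) + b = n + M := by exact_mod_cast h
      rw [hh]
      simp only [eCo, rhoOf]
      push_cast
      ring
    · simp [dVec, h]

end Vale.Agent.P359.KapL
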