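import Mathlib
import Vale.Agent.P359.KapLadder
import Vale.Agent.P359.TailScaled

/-!
The exchange map of a pair and a particle in the scaled bases commutes with the two ladder maps,
so the coupled vectors are its eigenvectors, with eigenvalue `kappaS`.
-/

open Finset

namespace Vale.Agent.P359.KapL

open Coef Ladder

/-- The parameters of the sphere with flux `Q`. -/
structure Sphere (Q : ℕ) (eps : ℝ) : Prop where
  two_le : 2 ≤ Q
  pos : 0 < eps
  unit : (1 : ℝ) = Q * eps

theorem Sphere.rhoJ_eq {Q : ℕ} {eps : ℝ} (h : Sphere Q eps) :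
    rhoJ eps = ((2 * Q - 2 : ℕ) : ℝ) * eps := by
  have := h.two_le
  rw [Nat.cast_sub (by omega), rhoJ]
  push_cast
  linear_combination (2 : ℝ) * h.unit

theorem Sphere.nrm_one_pos {Q : ℕ} {eps : ℝ} (h : Sphere Q eps) {i : ℕ} (hi : i ≤ Q) :
    0 < nrm (1 : ℝ) eps i :=
  nrm_pos fun l hl => by
    rw [h.unit]
    exact mul_lt_mul_of_pos_right (by exact_mod_cast (show l < Q by omega)) h.pos

theorem Sphere.nrm_J_pos {Q : ℕ} {eps : ℝ} (h : Sphere Q eps) {i : ℕ} (hi : i ≤ 2 * Q - 2) :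
    0 < nrm (rhoJ eps) eps i :=
  nrm_pos fun l hl => by
    rw [h.rhoJ_eq]
    exact mul_lt_mul_of_pos_right (by exact_mod_cast (show l < 2 * Q - 2 by omega)) h.pos

/-- The coefficient of the pair vector. -/
noncomputable def pc1 (eps : ℝ) (m a : ℕ) : ℝ := desc (1 : ℝ) 1 eps 1 m a

theorem pc1_succ (eps : ℝ) (m a : ℕ) :
    pc1 eps (m + 1) a = pc1 eps m a + if a = 0 then 0 else pc1 eps m (a - 1) := by
  simp only [pc1, desc_succ, up]

theorem pc1_eq (eps : ℝ) : ∀ m a : ℕ,
    ((m : ℝ) + 1) * pc1 eps m a = ((m + 1).choose a : ℝ) * ((m : ℝ) + 1 - 2 * a) := by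
  intro m
  induction m with
  | zero =>
    intro a
    rw [pc1, desc_zero]
    rcases a with _ | _ | a
    · simp [hw]
    · simp [hw]; ring
    · rw [hw, if_neg (by omega), Nat.choose_eq_zero_of_lt (by omega)]; simp
  | succ m ih =>
    intro a
    rw [pc1_succ]
    have hm : ((m : ℝ) + 1) ≠ 0 := by positivity
    apply mul_left_cancel₀ hm
    rcases a with _ | a
    · have h0 := ih 0
      simp only [Nat.choose_zero_right, Nat.cast_one, Nat.cast_zero, one_mul] at h0
      simp only [if_true, Nat.choose_zero_right, Nat.cast_one, Nat.cast_zero, one_mul, add_zero]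
      push_cast
      linear_combination ((m : ℝ) + 2) * h0
    · rw [if_neg (Nat.succ_ne_zero a), Nat.add_sub_cancel]
      have h0 := ih (a + 1)
      have h1 := ih a
      have hc : ((m + 1).choose (a + 1) : ℝ) * ((a : ℝ) + 1) =
          ((m + 1).choose a : ℝ) * ((m : ℝ) + 1 - a) := by
        rcases Nat.lt_or_ge (m + 1) a with h | h
        · rw [Nat.choose_eq_zero_of_lt h, Nat.choose_eq_zero_of_lt (by omega)]
          simp
        · have := congrArg (fun k : ℕ => (k : ℝ)) (Nat.choose_succ_right_eq (m + 1) a)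
          push_cast [Nat.cast_sub h] at this
          linarith
      rw [show m + 1 + 1 = (m + 1) + 1 from rfl, Nat.choose_succ_succ' (m + 1) a]
      push_cast at h0 ⊢
      linear_combination ((m : ℝ) + 2) * h0 + ((m : ℝ) + 2) * h1 - 2 * hc

theorem pc1_zero (eps : ℝ) (m : ℕ) : pc1 eps m 0 = 1 := by
  have h := pc1_eq eps m 0
  simp at h
  exact mul_left_cancel₀ (show ((m : ℝ) + 1) ≠ 0 by positivity) (by linarith)

theorem pc1_one (eps : ℝ) (m : ℕ) : pc1 eps m 1 = (m : ℝ) - 1 := by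
  have h := pc1_eq eps m 1
  rw [Nat.choose_one_right] at h
  push_cast at h
  apply mul_left_cancel₀ (show ((m : ℝ) + 1) ≠ 0 by positivity)
  linear_combination h

theorem pc1_eq_zero (eps : ℝ) {m a : ℕ} (h : m + 1 < a) : pc1 eps m a = 0 :=
  desc_eq_zero _ _ _ (by omega)

theorem pc1_anti (eps : ℝ) {m a : ℕ} (h : a ≤ m + 1) :
    pc1 eps m (m + 1 - a) = -pc1 eps m a := by
  have h1 := pc1_eq eps m a
  have h2 := pc1_eq eps m (m + 1 - a)
  rw [Nat.choose_symm h, Nat.cast_sub h] at h2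
  push_cast at h2
  apply mul_left_cancel₀ (show ((m : ℝ) + 1) ≠ 0 by positivity)
  linear_combination h1 + h2

/-- Raising the pair vector. -/
theorem pc1_low (eps : ℝ) {a y m : ℕ} (h : a + y = m + 1) :
    eCo (1 : ℝ) eps (y + 1) * pc1 eps (m + 1) a + eCo (1 : ℝ) eps (a + 1) * pc1 eps (m + 1) (a + 1) =
      eCo (rhoJ eps) eps (m + 1) * pc1 eps m a := by
  have h1 := low_desc (1 : ℝ) 1 eps 1 m a (by omega)
  rw [low, show 1 + m + 1 - a = y + 1 by omega,
    show rhoOf (1 : ℝ) 1 eps 1 = rhoJ eps by simp [rhoOf, rhoJ]; ring] at h1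
  exact h1

/-- Lowering on three indices. -/
def Fop3 (T : ℕ → ℕ → ℕ → ℝ) (a y b : ℕ) : ℝ :=
  (if 0 < a then T (a - 1) y b else 0) + (if 0 < y then T a (y - 1) b else 0) +
    if 0 < b then T a y (b - 1) else 0

/-- Raising on three indices. -/
noncomputable def Eop3 (eps : ℝ) (T : ℕ → ℕ → ℕ → ℝ) (a y b : ℕ) : ℝ :=
  eCo (1 : ℝ) eps (a + 1) * T (a + 1) y b + eCo (1 : ℝ) eps (y + 1) * T a (y + 1) b +
    eCo (1 : ℝ) eps (b + 1) * T a y (b + 1)

/-- The pair and particle vector, read on three particles. -/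
noncomputable def iota (eps : ℝ) (V : ℕ → ℕ → ℝ) (a y b : ℕ) : ℝ :=
  if a + y = 0 then 0 else pc1 eps (a + y - 1) a * V (a + y - 1) b

/-- The projection of particles one and three onto the pair. -/
noncomputable def proj13 (eps : ℝ) (T : ℕ → ℕ → ℕ → ℝ) (m y : ℕ) : ℝ :=
  (∑ a ∈ range (m + 2),
    pc1 eps m a * nrm (1 : ℝ) eps a * nrm (1 : ℝ) eps (m + 1 - a) * T a y (m + 1 - a)) /
      nrm (rhoJ eps) eps m

/-- The exchange map. -/
noncomputable def exch (eps : ℝ) (V : ℕ → ℕ → ℝ) : ℕ → ℕ → ℝ := proj13 eps (iota eps V)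

theorem iota_Fop (eps : ℝ) (V : ℕ → ℕ → ℝ) : iota eps (Fop V) = Fop3 (iota eps V) := by
  funext a y b
  simp only [iota, Fop3, Fop]
  by_cases h : a + y = 0
  · obtain ⟨rfl, rfl⟩ : a = 0 ∧ y = 0 := by omega
    simp
  rw [if_neg h]
  obtain ⟨s, hs⟩ : ∃ s, a + y = s + 1 := ⟨a + y - 1, by omega⟩
  rw [hs, Nat.add_sub_cancel]
  have e : (if 0 < a then if a - 1 + y = 0 then 0 else pc1 eps (a - 1 + y - 1) (a - 1) *
        V (a - 1 + y - 1) b else 0) +
      (if 0 < y then if a + (y - 1) = 0 then 0 else pc1 eps (a + (y - 1) - 1) a *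
        V (a + (y - 1) - 1) b else 0) = pc1 eps s a * if 0 < s then V (s - 1) b else 0 := by
    rcases Nat.eq_zero_or_pos s with hs0 | hs0
    · subst hs0
      rw [if_neg (lt_irrefl 0), mul_zero]
      split_ifs <;> first | omega | simp
    · obtain ⟨t, rfl⟩ : ∃ t, s = t + 1 := ⟨s - 1, by omega⟩
      rw [if_pos hs0, Nat.add_sub_cancel, pc1_succ]
      rcases Nat.eq_zero_or_pos a with ha | ha <;> rcases Nat.eq_zero_or_pos y with hy | hy
      · omega
      · subst ha
        rw [if_neg (lt_irrefl 0), if_pos hy, if_neg (by omega), if_pos rfl,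
          show 0 + (y - 1) - 1 = t by omega]
        ring
      · subst hy
        rw [if_neg (lt_irrefl 0), if_pos ha, if_neg (by omega), if_neg (by omega),
          show a - 1 + 0 - 1 = t by omega, pc1_eq_zero eps (show t + 1 < a by omega)]
        ring
      · rw [if_pos ha, if_neg (by omega), if_pos hy, if_neg (by omega), if_neg (by omega),
          show a - 1 + y - 1 = t by omega, show a + (y - 1) - 1 = t by omega]
        ring
  rw [e]
  simp only [Nat.succ_ne_zero, if_false]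
  split_ifs <;> ring

theorem iota_Eop (eps : ℝ) (V : ℕ → ℕ → ℝ) :
    iota eps (Eop (rhoJ eps) 1 eps V) = Eop3 eps (iota eps V) := by
  funext a y b
  simp only [iota, Eop3, Eop]
  by_cases h : a + y = 0
  · obtain ⟨rfl, rfl⟩ : a = 0 ∧ y = 0 := by omega
    simp [pc1, Ladder.desc_zero, hw, eCo]
  rw [if_neg h]
  obtain ⟨s, hs⟩ : ∃ s, a + y = s + 1 := ⟨a + y - 1, by omega⟩
  simp only [show a + 1 + y = s + 1 + 1 by omega, show a + (y + 1) = s + 1 + 1 by omega, hs,
    Nat.succ_ne_zero, if_false, Nat.add_sub_cancel]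
  linear_combination (-(V (s + 1) b)) * pc1_low eps hs

theorem proj13_Fop {Q : ℕ} {eps : ℝ} (hQ : Sphere Q eps) (T : ℕ → ℕ → ℕ → ℝ) {m : ℕ}
    (hm : m ≤ 2 * Q - 2) (y : ℕ) : proj13 eps (Fop3 T) m y = Fop (proj13 eps T) m y := by
  set n1 := nrm (1 : ℝ) eps with hn1
  set S : ℕ → ℝ := fun a => pc1 eps m a * n1 a * n1 (m + 1 - a) with hS
  have hsplit : ∑ a ∈ range (m + 2), S a * Fop3 T a y (m + 1 - a) =
      (∑ a ∈ range (m + 1),
        (S (a + 1) * T a y (m - a) + S a * T a y (m - a))) +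
      ∑ a ∈ range (m + 2), (if 0 < y then S a * T a (y - 1) (m + 1 - a) else 0) := by
    have e : ∀ a, S a * Fop3 T a y (m + 1 - a) =
        (if 0 < a then S a * T (a - 1) y (m + 1 - a) else 0) +
        (if 0 < m + 1 - a then S a * T a y (m + 1 - a - 1) else 0) +
        (if 0 < y then S a * T a (y - 1) (m + 1 - a) else 0) := by
      intro a; simp only [Fop3]; split_ifs <;> ring
    simp only [e, sum_add_distrib]
    congr 2
    · rw [sum_range_succ']
      simp
    · rw [sum_range_succ _ (m + 1)]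
      simp only [Nat.sub_self, lt_irrefl, if_false, add_zero]
      refine sum_congr rfl fun a ha => ?_
      have := mem_range.1 ha
      rw [if_pos (by omega), show m + 1 - a - 1 = m - a by omega]
  have hfirst : ∑ a ∈ range (m + 1), (S (a + 1) * T a y (m - a) + S a * T a y (m - a)) =
      eCo (rhoJ eps) eps m * ∑ a ∈ range (m + 1),
        (if 0 < m then pc1 eps (m - 1) a * n1 a * n1 (m - a) * T a y (m - a) else 0) := by
    rw [mul_sum]
    refine sum_congr rfl fun a ha => ?_
    have ha' := Nat.le_of_lt_succ (mem_range.1 ha)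
    rcases Nat.eq_zero_or_pos m with h0 | h0
    · subst h0
      obtain rfl : a = 0 := by omega
      simp [hS, hn1, pc1, Ladder.desc_zero, hw, nrm, eCo]
    · obtain ⟨k, rfl⟩ : ∃ k, m = k + 1 := ⟨m - 1, by omega⟩
      have hl := pc1_low eps (show a + (k + 1 - a) = k + 1 by omega)
      simp only [hS, hn1, if_pos h0, Nat.add_sub_cancel, nrm_succ,
        show k + 1 + 1 - (a + 1) = k + 1 - a by omega,
        show k + 1 + 1 - a = k + 1 - a + 1 by omega]
      linear_combination (nrm (1 : ℝ) eps a * nrm (1 : ℝ) eps (k + 1 - a) *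
        T a y (k + 1 - a)) * hl
  have hdef : proj13 eps (Fop3 T) m y =
      (∑ a ∈ range (m + 2), S a * Fop3 T a y (m + 1 - a)) / nrm (rhoJ eps) eps m := by
    simp only [proj13, hS, hn1]
  rw [hdef, hsplit, hfirst, add_div]
  simp only [Fop, proj13]
  congr 1
  · rcases Nat.eq_zero_or_pos m with h0 | h0
    · subst h0; simp
    · obtain ⟨k, rfl⟩ : ∃ k, m = k + 1 := ⟨m - 1, by omega⟩
      simp only [if_pos h0, Nat.add_sub_cancel, nrm_succ (r := rhoJ eps)]
      have hne := (hQ.nrm_J_pos hm).ne'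
      rw [nrm_succ] at hne
      rw [mul_comm (nrm (rhoJ eps) eps k), mul_div_mul_left _ _ (mul_ne_zero_iff.1 hne).2]
  · split_ifs
    · rfl
    · simp

theorem proj13_Eop {Q : ℕ} {eps : ℝ} (hQ : Sphere Q eps) (T : ℕ → ℕ → ℕ → ℝ) {m : ℕ}
    (hm : m ≤ 2 * Q - 2) (y : ℕ) :
    proj13 eps (Eop3 eps T) m y = Eop (rhoJ eps) 1 eps (proj13 eps T) m y := by
  set n1 := nrm (1 : ℝ) eps with hn1
  set S : ℕ → ℝ := fun a => pc1 eps m a * n1 a * n1 (m + 1 - a) with hS
  set S' : ℕ → ℝ := fun a => pc1 eps (m + 1) a * n1 a * n1 (m + 1 + 1 - a) with hS'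
  have hmain : ∑ a ∈ range (m + 2), (S a * (eCo (1 : ℝ) eps (a + 1) * T (a + 1) y (m + 1 - a)) +
      S a * (eCo (1 : ℝ) eps (m + 1 - a + 1) * T a y (m + 1 - a + 1))) =
      ∑ a ∈ range (m + 3), S' a * T a y (m + 1 + 1 - a) := by
    rw [sum_add_distrib]
    have e1 : ∑ a ∈ range (m + 2), S a * (eCo (1 : ℝ) eps (a + 1) * T (a + 1) y (m + 1 - a)) =
        ∑ a ∈ range (m + 3), (if a = 0 then 0 else
          pc1 eps m (a - 1) * n1 a * n1 (m + 1 + 1 - a) * T a y (m + 1 + 1 - a)) := by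
      rw [sum_range_succ' _ (m + 2)]
      simp only [Nat.succ_ne_zero, if_false, if_true, add_zero, Nat.add_sub_cancel,
        Nat.add_sub_add_right]
      refine sum_congr rfl fun a _ => ?_
      simp only [hS, hn1, nrm_succ]
      ring
    have e2 : ∑ a ∈ range (m + 2),
        S a * (eCo (1 : ℝ) eps (m + 1 - a + 1) * T a y (m + 1 - a + 1)) =
        ∑ a ∈ range (m + 3), pc1 eps m a * n1 a * n1 (m + 1 + 1 - a) * T a y (m + 1 + 1 - a) := by
      rw [sum_range_succ _ (m + 2), pc1_eq_zero eps (show m + 1 < m + 2 by omega)]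
      simp only [zero_mul, add_zero]
      refine sum_congr rfl fun a ha => ?_
      have := mem_range.1 ha
      simp only [hS, hn1, show m + 1 + 1 - a = m + 1 - a + 1 by omega, nrm_succ]
      ring
    rw [e1, e2, ← sum_add_distrib]
    refine sum_congr rfl fun a _ => ?_
    simp only [hS', pc1_succ]
    split_ifs <;> ring
  have hdef : proj13 eps (Eop3 eps T) m y =
      (∑ a ∈ range (m + 2), (S a * (eCo (1 : ℝ) eps (a + 1) * T (a + 1) y (m + 1 - a)) +
        S a * (eCo (1 : ℝ) eps (m + 1 - a + 1) * T a y (m + 1 - a + 1)))) / nrm (rhoJ eps) eps m +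
      eCo (1 : ℝ) eps (y + 1) * proj13 eps T m (y + 1) := by
    simp only [proj13, Eop3, hS, hn1, mul_div_assoc', mul_sum]
    rw [← add_div, ← sum_add_distrib]
    congr 1
    exact sum_congr rfl fun a _ => by ring
  rw [hdef, hmain, Eop]
  congr 1
  rcases Nat.lt_or_ge m (2 * Q - 2) with h | h
  · simp only [proj13, hS', hn1, show m + 1 + 2 = m + 3 by omega, nrm_succ (r := rhoJ eps)]
    have hne := (hQ.nrm_J_pos (show m + 1 ≤ 2 * Q - 2 by omega)).ne'
    rw [nrm_succ] at hne
    have h2 := (mul_ne_zero_iff.1 hne).2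
    have h1 := (mul_ne_zero_iff.1 hne).1
    field_simp
  · have h2 := hQ.two_le
    have hzero : ∀ a ∈ range (m + 3), S' a * T a y (m + 1 + 1 - a) = 0 := by
      intro a ha
      have := mem_range.1 ha
      rcases lt_trichotomy a Q with h' | h' | h'
      · simp only [hS', hn1]
        rw [Ladder.nrm_eq_zero hQ.unit (show Q < m + 1 + 1 - a by omega)]
        simp
      · subst h'
        have hp := pc1_anti eps (show a ≤ m + 1 + 1 by omega)
        rw [show m + 1 + 1 - a = a by omega] at hp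
        simp only [hS', show pc1 eps (m + 1) a = 0 by linarith, zero_mul]
      · simp only [hS', hn1]
        rw [Ladder.nrm_eq_zero hQ.unit h']
        simp
    rw [sum_eq_zero hzero, zero_div]
    have : eCo (rhoJ eps) eps (m + 1) = 0 := by
      rw [eCo, hQ.rhoJ_eq, show 2 * Q - 2 = m by omega]
      push_cast
      ring
    rw [this, zero_mul]

theorem exch_Fop {Q : ℕ} {eps : ℝ} (hQ : Sphere Q eps) (V : ℕ → ℕ → ℝ) {m : ℕ}
    (hm : m ≤ 2 * Q - 2) (y : ℕ) : exch eps (Fop V) m y = Fop (exch eps V) m y := by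
  rw [exch, iota_Fop, proj13_Fop hQ _ hm]
  rfl

theorem exch_Eop {Q : ℕ} {eps : ℝ} (hQ : Sphere Q eps) (V : ℕ → ℕ → ℝ) {m : ℕ}
    (hm : m ≤ 2 * Q - 2) (y : ℕ) :
    exch eps (Eop (rhoJ eps) 1 eps V) m y = Eop (rhoJ eps) 1 eps (exch eps V) m y := by
  rw [exch, iota_Eop, proj13_Eop hQ _ hm]
  rfl

/-- The exchange map on the highest-weight vector at pair index zero. -/
theorem exch_hw_zero {Q : ℕ} {eps : ℝ} (hQ : Sphere Q eps) {n : ℕ} (hn : n ≤ Q) :
    exch eps (dVec (rhoJ eps) 1 eps n 0) 0 n =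
      kappaS eps n * dVec (rhoJ eps) 1 eps n 0 0 n := by
  have hA : (∏ l ∈ range n, (2 - 2 * eps - (l : ℝ) * eps)) ≠ 0 := by
    refine (prod_pos fun l hl => ?_).ne'
    have := hQ.two_le
    have h := mul_lt_mul_of_pos_right
      (show (l : ℝ) < ((2 * Q - 2 : ℕ) : ℝ) by
        exact_mod_cast (show l < 2 * Q - 2 by have := mem_range.1 hl; omega)) hQ.pos
    have := hQ.rhoJ_eq
    rw [rhoJ] at this
    linarith
  have e1 : nrm (1 : ℝ) eps 1 = 1 := by simp [nrm, eCo]
  have e0 : nrm (1 : ℝ) eps 0 = 1 := by simp [nrm]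
  have eJ : nrm (rhoJ eps) eps 0 = 1 := by simp [nrm]
  have hp0 : pc1 eps 0 0 = 1 := pc1_zero eps 0
  have hp1 : pc1 eps 0 1 = -1 := by rw [pc1_one]; simp
  simp only [exch, proj13, sum_range_succ, range_zero, sum_empty, zero_add, Nat.sub_zero,
    Nat.sub_self, e1, e0, eJ, div_one, mul_one, hp0, hp1, one_mul]
  simp only [iota, dVec, Nat.add_zero, Nat.zero_add, Ladder.desc_zero]
  rw [if_neg (show ¬ 1 + n = 0 by omega), show 1 + n - 1 = n by omega, if_pos rfl, pc1_one,
    kappaS, prod_div_distrib]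
  simp only [if_true]
  rcases n with _ | k
  · simp [hw]
  rw [if_neg (Nat.succ_ne_zero k), Nat.add_sub_cancel, pc1_zero, if_pos rfl]
  simp only [hw, Nat.zero_le, if_true, Nat.le_succ, le_refl, Nat.choose_self, Nat.cast_one,
    Nat.choose_zero_right, Nat.choose_succ_self_right, range_zero, prod_empty, Ico_self, mul_one,
    Nat.Ico_succ_singleton, prod_singleton, pow_zero, one_mul, ← range_eq_Ico]
  have hrefl : ∏ l ∈ range (k + 1), ((1 : ℝ) - (((k + 1 : ℕ) : ℝ) - 1 - l) * eps) =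
      ∏ l ∈ range (k + 1), ((1 : ℝ) - (l : ℝ) * eps) := by
    rw [← prod_range_reflect (fun l => (1 : ℝ) - (l : ℝ) * eps) (k + 1)]
    refine prod_congr rfl fun l hl => ?_
    have := mem_range.1 hl
    rw [Nat.cast_sub (by omega), Nat.cast_sub (by omega)]
    push_cast
    ring
  have hlast : ∏ l ∈ range (k + 1), ((1 : ℝ) - (((k + 1 : ℕ) : ℝ) - 1 - l) * eps) =
      ∏ l ∈ range k, ((1 : ℝ) - (((k + 1 : ℕ) : ℝ) - 1 - l) * eps) := by
    rw [prod_range_succ]
    push_cast
    ring
  rw [← hrefl, hlast]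
  simp only [rhoJ]
  generalize (∏ l ∈ range k, ((1 : ℝ) - (((k + 1 : ℕ) : ℝ) - 1 - l) * eps)) = B
  generalize (∏ l ∈ range (k + 1), ((2 : ℝ) - 2 * eps - (l : ℝ) * eps)) = A at hA ⊢
  push_cast
  field_simp
  ring

/-- The coupled vectors are eigenvectors of the exchange map. -/
theorem exch_dVec {Q : ℕ} {eps : ℝ} (hQ : Sphere Q eps) {n : ℕ} (hn : n ≤ Q) :
    ∀ M m y : ℕ, m ≤ 2 * Q - 2 →
      exch eps (dVec (rhoJ eps) 1 eps n M) m y = kappaS eps n * dVec (rhoJ eps) 1 eps n M m y := by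
  intro M
  induction M with
  | zero =>
    intro m y hm
    have hsupp : ∀ m y, m + y ≠ n → exch eps (dVec (rhoJ eps) 1 eps n 0) m y = 0 := by
      intro m y h
      simp only [exch, proj13]
      rw [sum_eq_zero, zero_div]
      intro a ha
      have := mem_range.1 ha
      simp only [iota, dVec]
      split_ifs <;> first | omega | simp
    by_cases hmy : m + y = n
    swap
    · rw [hsupp m y hmy, dVec, if_neg (by omega), mul_zero]
    induction m generalizing y with
    | zero => rw [show y = n by omega]; exact exch_hw_zero hQ hn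
    | succ m ih =>
      have h := exch_Eop hQ (dVec (rhoJ eps) 1 eps n 0) (show m ≤ 2 * Q - 2 by omega) y
      rw [Eop_hw] at h
      have hz : exch eps (fun _ _ => (0 : ℝ)) m y = 0 := by simp [exch, proj13, iota]
      have hd := congrFun (congrFun (Eop_hw (rhoJ eps) (1 : ℝ) eps n) m) y
      rw [hz] at h
      simp only [Eop] at h hd
      rw [ih (y + 1) (by omega) (by omega)] at h
      have he : eCo (rhoJ eps) eps (m + 1) ≠ 0 := by
        intro h0
        have := (hQ.nrm_J_pos (show m + 1 ≤ 2 * Q - 2 by omega)).ne'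
        rw [nrm_succ, h0, mul_zero] at this
        exact this rfl
      apply mul_left_cancel₀ he
      linear_combination (-1 : ℝ) * h - kappaS eps n * hd
  | succ M ih =>
    intro m y hm
    rw [← Fop_dVec, exch_Fop hQ _ hm]
    simp only [Fop]
    split_ifs
    · rw [ih (m - 1) y (by omega), ih m (y - 1) hm]; ring
    · rw [ih (m - 1) y (by omega)]; ring
    · rw [ih m (y - 1) hm]; ring
    · ring

end Vale.Agent.P359.KapL
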