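import Mathlib
import Vale.Agent.P359.Bridge
import Vale.Agent.P359.KapEigen

/-!
The commutator table of the pair channels in the scaled bases, and its spectral decomposition
over the coupled channels of a pair and a particle.
-/

open Finset

namespace Vale.Agent.P359.KapL

open Coef Ladder

theorem nrm_closed {r eps : ℝ} {d : ℕ} (hr : r = (d : ℝ) * eps) :
    ∀ i : ℕ, nrm r eps i = (i.factorial : ℝ) ^ 2 * (d.choose i : ℝ) * eps ^ i := by
  intro i
  induction i with
  | zero => simp [nrm]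
  | succ i ih =>
    rcases Nat.lt_or_ge d (i + 1) with h | h
    · rw [Ladder.nrm_eq_zero hr h, Nat.choose_eq_zero_of_lt h]
      simp
    · have hc := congrArg (fun k : ℕ => (k : ℝ)) (Nat.choose_succ_right_eq d i)
      push_cast [Nat.cast_sub (show i ≤ d by omega)] at hc
      rw [nrm_succ, ih, eCo, hr, Nat.factorial_succ, pow_succ eps i]
      push_cast
      linear_combination (-((i : ℝ) + 1) * (i.factorial : ℝ) ^ 2 * eps ^ i * eps) * hc

theorem hwNrm_pair (eps : ℝ) : hwNrm (1 : ℝ) 1 eps 1 = 2 := by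
  simp [hwNrm, hw, sum_range_succ, nrm, eCo]
  norm_num

theorem rhoOf_pair (eps : ℝ) : rhoOf (1 : ℝ) 1 eps 1 = rhoJ eps := by
  simp [rhoOf, rhoJ]
  ring

/-- The pair coefficient in the orthonormal basis. -/
theorem pc1_sqrt {Q : ℕ} {eps : ℝ} (hQ : Sphere Q eps) {m a : ℕ} (h : a ≤ m + 1) :
    pc1 eps m a * Real.sqrt (nrm (1 : ℝ) eps a * nrm (1 : ℝ) eps (m + 1 - a)) =
      (m.factorial : ℝ) * (((m + 1 - a : ℕ) : ℝ) - a) *
        Real.sqrt ((Q.choose a : ℝ) * (Q.choose (m + 1 - a) : ℝ)) *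
        Real.sqrt (eps ^ (m + 1)) := by
  set b := m + 1 - a with hb
  have hab : a + b = m + 1 := by omega
  have he := hQ.pos.le
  have e : nrm (1 : ℝ) eps a * nrm (1 : ℝ) eps b = ((a.factorial : ℝ) * (b.factorial : ℝ)) ^ 2 *
      ((Q.choose a : ℝ) * (Q.choose b : ℝ)) * eps ^ (m + 1) := by
    rw [nrm_closed hQ.unit, nrm_closed hQ.unit, ← hab, pow_add]
    ring
  rw [e, Real.sqrt_mul (by positivity), Real.sqrt_mul (by positivity),
    Real.sqrt_sq (by positivity)]
  have hp := pc1_eq eps m a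
  have hf : ((m + 1).choose a : ℝ) * ((a.factorial : ℝ) * (b.factorial : ℝ)) =
      ((m : ℝ) + 1) * (m.factorial : ℝ) := by
    have := Nat.choose_mul_factorial_mul_factorial h
    rw [← hb, mul_assoc, Nat.factorial_succ] at this
    exact_mod_cast this
  have hbr : (b : ℝ) = (m : ℝ) + 1 - a := by
    have : (a : ℝ) + b = (m : ℝ) + 1 := by exact_mod_cast hab
    linarith
  rw [hbr]
  have key : pc1 eps m a * ((a.factorial : ℝ) * (b.factorial : ℝ)) =
      (m.factorial : ℝ) * ((m : ℝ) + 1 - a - a) := by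
    apply mul_left_cancel₀ (show ((m : ℝ) + 1) ≠ 0 by positivity)
    linear_combination ((a.factorial : ℝ) * (b.factorial : ℝ)) * hp +
      ((m : ℝ) + 1 - 2 * a) * hf
  linear_combination (Real.sqrt ((Q.choose a : ℝ) * (Q.choose b : ℝ)) *
    Real.sqrt (eps ^ (m + 1))) * key

/-- The norms of the pair states. -/
theorem pairZ_eq {Q : ℕ} {eps : ℝ} (hQ : Sphere Q eps) (m : ℕ) :
    pairZ Q (m + 1) * eps = 2 * ((2 * Q - 2).choose m : ℝ) := by
  set F : ℕ → ℝ := fun a => (((m + 1 - a : ℕ) : ℝ) - a) ^ 2 *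
    ((Q.choose a : ℝ) * (Q.choose (m + 1 - a) : ℝ)) with hF
  have h1 : pairZ Q (m + 1) = ∑ a ∈ range (m + 2), F a := by
    have e : ∀ a : Fin (Q + 1), ∑ b, pairVec Q (m + 1) a b ^ 2 =
        if (a : ℕ) ≤ m + 1 then F a else 0 := by
      intro a
      by_cases ha : (a : ℕ) ≤ m + 1
      · rw [if_pos ha]
        by_cases hb : m + 1 - (a : ℕ) < Q + 1
        · rw [sum_eq_single_of_mem (⟨m + 1 - a, hb⟩ : Fin (Q + 1)) (mem_univ _)]
          · rw [pairVec, if_pos (by simp; omega), mul_pow, Real.sq_sqrt (by positivity)]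
          · intro c _ hc
            rw [pairVec, if_neg (fun h => hc (Fin.ext (by simp; omega)))]
            simp
        · rw [sum_eq_zero fun c _ => by rw [pairVec, if_neg (by omega)]; simp]
          simp [hF, Nat.choose_eq_zero_of_lt (show Q < m + 1 - (a : ℕ) by omega)]
      · rw [if_neg ha, sum_eq_zero fun c _ => by rw [pairVec, if_neg (by omega)]; simp]
    rw [pairZ, sum_congr rfl fun a _ => e a,
      ← sum_range (fun a => if a ≤ m + 1 then F a else 0), ← sum_filter]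
    refine sum_subset (fun a ha => ?_) fun a ha hna => ?_
    · simp only [mem_filter, mem_range] at ha ⊢; omega
    · simp only [mem_filter, mem_range] at ha hna
      simp [hF, Nat.choose_eq_zero_of_lt (show Q < a by omega)]
  have h2 := ip_desc (1 : ℝ) 1 eps (T := 1 + m) (n := 1) (n' := 1) (M := m) (M' := m) rfl rfl
  rw [if_pos rfl, hwNrm_pair, rhoOf_pair, nrm_closed hQ.rhoJ_eq] at h2
  have h3 : ip (1 : ℝ) 1 eps (1 + m) (desc (1 : ℝ) 1 eps 1 m) (desc (1 : ℝ) 1 eps 1 m) =
      (m.factorial : ℝ) ^ 2 * eps ^ (m + 1) * pairZ Q (m + 1) := by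
    rw [h1, mul_sum, ip, show 1 + m + 1 = m + 2 by omega]
    refine sum_congr rfl fun a ha => ?_
    have ha' : a ≤ m + 1 := by have := mem_range.1 ha; omega
    have h := congrArg (fun t : ℝ => t ^ 2) (pc1_sqrt hQ ha')
    simp only [mul_pow] at h
    rw [Real.sq_sqrt, Real.sq_sqrt (by positivity), Real.sq_sqrt (pow_nonneg hQ.pos.le _)] at h
    · rw [show 1 + m - a = m + 1 - a by omega]
      simp only [hF, pc1] at h ⊢
      linear_combination h
    · rw [nrm_closed hQ.unit, nrm_closed hQ.unit]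
      have := hQ.pos
      positivity
  rw [h3] at h2
  have he := hQ.pos
  have : (m.factorial : ℝ) ^ 2 * eps ^ m ≠ 0 := by positivity
  apply mul_left_cancel₀ this
  rw [pow_succ] at h2
  linear_combination h2

/-- The coefficient tables in the scaled bases. -/
theorem coef_eq {Q : ℕ} {eps : ℝ} (hQ : Sphere Q eps) (m : Chan Q) (a b : Fin (Q + 1)) :
    coef Q m a b = if (a : ℕ) + b = (m : ℕ) + 1 then
      pc1 eps m a * (Real.sqrt (nrm (1 : ℝ) eps a) * Real.sqrt (nrm (1 : ℝ) eps b)) /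
        (2 * Real.sqrt (nrm (rhoJ eps) eps m)) else 0 := by
  by_cases h : (a : ℕ) + b = (m : ℕ) + 1
  swap
  · rw [if_neg h, coef, pairVec, if_neg h, zero_div]
  rw [if_pos h, coef, pairVec, if_pos h]
  have he := hQ.pos
  have hm := m.2
  have ha := a.2
  have hb : (b : ℕ) = (m : ℕ) + 1 - a := by omega
  have hC : (0 : ℝ) < ((2 * Q - 2).choose (m : ℕ) : ℝ) := by
    exact_mod_cast Nat.choose_pos (show (m : ℕ) ≤ 2 * Q - 2 by omega)
  have hz := pairZ_eq hQ (m : ℕ)
  rw [← Real.sqrt_mul (hQ.nrm_one_pos (by omega)).le, hb, pc1_sqrt hQ (by omega),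
    nrm_closed hQ.rhoJ_eq]
  have hz' : 2 * pairZ Q ((m : ℕ) + 1) = 2 ^ 2 * ((2 * Q - 2).choose (m : ℕ) : ℝ) / eps := by
    rw [eq_div_iff he.ne']; linarith
  have hpm : (0 : ℝ) ≤ eps ^ (m : ℕ) := pow_nonneg he.le _
  have e1 : Real.sqrt (2 * pairZ Q ((m : ℕ) + 1)) =
      2 * Real.sqrt ((2 * Q - 2).choose (m : ℕ) : ℝ) / Real.sqrt eps := by
    rw [hz', Real.sqrt_div (by positivity), Real.sqrt_mul (by positivity),
      Real.sqrt_sq (show (0 : ℝ) ≤ 2 by norm_num)]
  have e2 : Real.sqrt (((m : ℕ).factorial : ℝ) ^ 2 * ((2 * Q - 2).choose (m : ℕ) : ℝ) *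
      eps ^ (m : ℕ)) = ((m : ℕ).factorial : ℝ) * Real.sqrt ((2 * Q - 2).choose (m : ℕ) : ℝ) *
        Real.sqrt (eps ^ (m : ℕ)) := by
    rw [Real.sqrt_mul (by positivity), Real.sqrt_mul (by positivity),
      Real.sqrt_sq (by positivity)]
  have e3 : Real.sqrt (eps ^ ((m : ℕ) + 1)) = Real.sqrt (eps ^ (m : ℕ)) * Real.sqrt eps := by
    rw [pow_succ, Real.sqrt_mul hpm]
  rw [e1, e2, e3]
  have := (Real.sqrt_pos.2 hC).ne'
  have := (Real.sqrt_pos.2 he).ne'
  have := (Real.sqrt_pos.2 (pow_pos he (m : ℕ))).ne'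
  have : ((m : ℕ).factorial : ℝ) ≠ 0 := by positivity
  field_simp

/-- The norm of the coupled vector `(n, T - n)`. -/
noncomputable def chanN (eps : ℝ) (n T : ℕ) : ℝ :=
  coNrm eps n * nrm (rho3 eps n) eps (T - n)

theorem chanN_pos {Q : ℕ} {eps : ℝ} (hQ : Sphere Q eps) {n T : ℕ} (hT : T ≤ 2 * Q - 2 + Q)
    (hn : n ≤ topComp (2 * Q - 2) Q T) : 0 < chanN eps n T :=
  box_pos hQ.pos hQ.rhoJ_eq hQ.unit hT hn

/-- Spectral form of one exchange entry, at pair and particle indices inside the box. -/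
theorem exch_spectral {Q : ℕ} {eps : ℝ} (hQ : Sphere Q eps) {m y i b : ℕ} (hm : m ≤ 2 * Q - 2)
    (hy : y ≤ Q) (hi : i ≤ 2 * Q - 2) (hb : b ≤ Q) (h : m + y = i + b) :
    ∑ n ∈ range (topComp (2 * Q - 2) Q (m + y) + 1),
      kappaS eps n * (desc (rhoJ eps) 1 eps n (m + y - n) i / chanN eps n (m + y) *
        (nrm (rhoJ eps) eps i * nrm (1 : ℝ) eps b)) *
          desc (rhoJ eps) 1 eps n (m + y - n) m =
      if y ≤ i + 1 ∧ b ≤ m + 1 then
        pc1 eps m (m + 1 - b) * pc1 eps i (i + 1 - y) * nrm (1 : ℝ) eps (m + 1 - b) *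
          nrm (1 : ℝ) eps b / nrm (rhoJ eps) eps m
      else 0 := by
  have h2 := hQ.two_le
  set T := m + y with hT
  set c : ℕ → ℝ := fun n => desc (rhoJ eps) 1 eps n (T - n) i / chanN eps n T *
    (nrm (rhoJ eps) eps i * nrm (1 : ℝ) eps b) with hc
  have hstep : ∀ n ∈ range (topComp (2 * Q - 2) Q T + 1),
      kappaS eps n * c n * desc (rhoJ eps) 1 eps n (T - n) m =
        c n * exch eps (dVec (rhoJ eps) 1 eps n (T - n)) m y := by
    intro n hn
    have hn' := Nat.le_of_lt_succ (mem_range.1 hn)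
    simp only [topComp] at hn'
    rw [exch_dVec hQ (by omega) _ _ _ hm, dVec, if_pos (by omega)]
    ring
  rw [sum_congr rfl hstep]
  have hexp : ∀ V, exch eps V m y = ∑ a ∈ range (m + 2), pc1 eps m a * nrm (1 : ℝ) eps a *
      nrm (1 : ℝ) eps (m + 1 - a) * iota eps V a y (m + 1 - a) / nrm (rhoJ eps) eps m := by
    intro V; rw [exch, proj13, sum_div]
  simp only [hexp, mul_sum]
  rw [sum_comm]
  have hterm : ∀ a ∈ range (m + 2), (∑ n ∈ range (topComp (2 * Q - 2) Q T + 1),
      c n * (pc1 eps m a * nrm (1 : ℝ) eps a * nrm (1 : ℝ) eps (m + 1 - a) *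
        iota eps (dVec (rhoJ eps) 1 eps n (T - n)) a y (m + 1 - a) / nrm (rhoJ eps) eps m)) =
      if a + y = i + 1 then pc1 eps m a * nrm (1 : ℝ) eps a * nrm (1 : ℝ) eps (m + 1 - a) *
        pc1 eps i a / nrm (rhoJ eps) eps m else 0 := by
    intro a ha
    have ha' := mem_range.1 ha
    by_cases hbox : a ≤ Q ∧ m + 1 - a ≤ Q
    swap
    · have hz : nrm (1 : ℝ) eps a * nrm (1 : ℝ) eps (m + 1 - a) = 0 := by
        rcases not_and_or.1 hbox with h' | h'
        · rw [Ladder.nrm_eq_zero hQ.unit (by omega)]; ring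
        · rw [Ladder.nrm_eq_zero hQ.unit (show Q < m + 1 - a by omega)]; ring
      have e : ∀ p q : ℝ, p * nrm (1 : ℝ) eps a * nrm (1 : ℝ) eps (m + 1 - a) * q = 0 :=
        fun p q => by rw [mul_assoc p, hz]; ring
      simp only [e, zero_div, mul_zero, sum_const_zero, ite_self]
    rcases Nat.eq_zero_or_pos (a + y) with h0 | h0
    · rw [if_neg (by omega)]
      simp [iota, h0]
    obtain ⟨j, hj⟩ : ∃ j, a + y = j + 1 := ⟨a + y - 1, by omega⟩
    simp only [iota, hj, Nat.succ_ne_zero, if_false, Nat.add_sub_cancel]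
    by_cases hjP : j ≤ 2 * Q - 2
    · have e := desc_complete_box (r₁ := rhoJ eps) (r₂ := 1) (T := T) (i := i) (j := j) hQ.pos
        hQ.rhoJ_eq hQ.unit (by omega) (by omega) hi (by omega) (by omega) hjP (by omega)
      rw [show T - i = b by omega] at e
      have e2 : ∀ n ∈ range (topComp (2 * Q - 2) Q T + 1), c n *
          (pc1 eps m a * nrm (1 : ℝ) eps a * nrm (1 : ℝ) eps (m + 1 - a) *
            (pc1 eps j a * dVec (rhoJ eps) 1 eps n (T - n) j (m + 1 - a)) /
            nrm (rhoJ eps) eps m) =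
          pc1 eps m a * nrm (1 : ℝ) eps a * nrm (1 : ℝ) eps (m + 1 - a) * pc1 eps j a /
            nrm (rhoJ eps) eps m *
          (nrm (rhoJ eps) eps i * nrm (1 : ℝ) eps b * desc (rhoJ eps) 1 eps n (T - n) i /
            (hwNrm (rhoJ eps) 1 eps n * nrm (rhoOf (rhoJ eps) 1 eps n) eps (T - n)) *
            desc (rhoJ eps) 1 eps n (T - n) j) := by
        intro n hn
        have hn' := Nat.le_of_lt_succ (mem_range.1 hn)
        simp only [topComp] at hn'
        rw [dVec, if_pos (by omega)]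
        simp only [hc, chanN, coNrm, rho3]
        ring
      rw [sum_congr rfl e2, ← mul_sum, e]
      by_cases hij : i = j
      · subst hij; simp
      · rw [if_neg hij, if_neg (by omega), mul_zero]
    · have haQ : a = Q ∧ j = 2 * Q - 1 := by omega
      have hp : pc1 eps j a = 0 := by
        have := pc1_anti eps (show a ≤ j + 1 by omega)
        rw [show j + 1 - a = a by omega] at this
        linarith
      rw [if_neg (by omega)]
      simp [hp]
  rw [sum_congr rfl hterm]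
  by_cases hcond : y ≤ i + 1 ∧ b ≤ m + 1
  · rw [if_pos hcond, sum_eq_single_of_mem (i + 1 - y) (mem_range.2 (by omega))]
    · rw [if_pos (by omega), show m + 1 - b = i + 1 - y by omega,
        show m + 1 - (i + 1 - y) = b by omega]
      ring
    · intro a _ ha
      rw [if_neg (by omega)]
  · rw [if_neg hcond]
    refine sum_eq_zero fun a ha => ?_
    have := mem_range.1 ha
    rw [if_neg (by omega)]

/-- The normalised coupled vector `(n, M)` in the orthonormal bases. -/
noncomputable def dNrm (Q : ℕ) (eps : ℝ) (n M : ℕ) (m : Chan Q) (y : Fin (Q + 1)) : ℝ :=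
  dVec (rhoJ eps) 1 eps n M m y *
    (Real.sqrt (nrm (rhoJ eps) eps m) * Real.sqrt (nrm (1 : ℝ) eps y)) /
      Real.sqrt (chanN eps n (n + M))

/-- The spectral decomposition of the commutator table. -/
theorem Kk_spectral {Q : ℕ} {eps : ℝ} (hQ : Sphere Q eps) (m m' : Chan Q) (y b : Fin (Q + 1)) :
    Kk (coef Q) m m' y b = ∑ n ∈ range (Q + 1), ∑ M ∈ range (2 * Q - 2 + Q - 2 * n + 1),
      kappaS eps n * (dNrm Q eps n M m y * dNrm Q eps n M m' b) := by
  have h2 := hQ.two_le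
  have hm := m.2
  have hm' := m'.2
  have hy := y.2
  have hb := b.2
  by_cases h : (m : ℕ) + y = (m' : ℕ) + b
  swap
  · have hL : Kk (coef Q) m m' y b = 0 := by
      refine mul_eq_zero_of_right _ (sum_eq_zero fun a _ => ?_)
      rw [coef_eq hQ, coef_eq hQ]
      split_ifs <;> first | omega | simp
    rw [hL]
    refine (sum_eq_zero fun n _ => sum_eq_zero fun M _ => ?_).symm
    simp only [dNrm, dVec]
    split_ifs <;> first | omega | simp
  have hsp := exch_spectral hQ (show (m : ℕ) ≤ 2 * Q - 2 by omega) (Nat.le_of_lt_succ hy)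
    (show (m' : ℕ) ≤ 2 * Q - 2 by omega) (Nat.le_of_lt_succ hb) h
  set T := (m : ℕ) + y with hT
  set W := Real.sqrt (nrm (rhoJ eps) eps m) * Real.sqrt (nrm (1 : ℝ) eps y) /
    (Real.sqrt (nrm (rhoJ eps) eps m') * Real.sqrt (nrm (1 : ℝ) eps b)) with hW
  have hR : ∑ n ∈ range (Q + 1), ∑ M ∈ range (2 * Q - 2 + Q - 2 * n + 1),
      kappaS eps n * (dNrm Q eps n M m y * dNrm Q eps n M m' b) =
      (∑ n ∈ range (topComp (2 * Q - 2) Q T + 1),
        kappaS eps n * (desc (rhoJ eps) 1 eps n (T - n) m' / chanN eps n T *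
          (nrm (rhoJ eps) eps m' * nrm (1 : ℝ) eps b)) *
            desc (rhoJ eps) 1 eps n (T - n) m) * W := by
    rw [sum_mul]
    symm
    have hsub : range (topComp (2 * Q - 2) Q T + 1) ⊆ range (Q + 1) := by
      intro n hn; simp only [mem_range, topComp] at hn ⊢; omega
    rw [← sum_subset hsub (fun n hn hn' => ?_)]
    · refine sum_congr rfl fun n hn => ?_
      have hn' := Nat.le_of_lt_succ (mem_range.1 hn)
      have hpos := chanN_pos hQ (show T ≤ 2 * Q - 2 + Q by omega) hn'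
      simp only [topComp] at hn'
      rw [sum_eq_single_of_mem (T - n) (mem_range.2 (by omega))]
      · simp only [dNrm, dVec, show n + (T - n) = T by omega, if_pos hT.symm, if_pos h.symm]
        have p1 := hQ.nrm_J_pos (show (m' : ℕ) ≤ 2 * Q - 2 by omega)
        have p2 := hQ.nrm_one_pos (Nat.le_of_lt_succ hb)
        have q1 := (Real.sqrt_pos.2 p1).ne'
        have q2 := (Real.sqrt_pos.2 p2).ne'
        have q3 := (Real.sqrt_pos.2 hpos).ne'
        rw [hW]
        field_simp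
        rw [Real.sq_sqrt hpos.le, Real.sq_sqrt p1.le, Real.sq_sqrt p2.le]
        ring
      · intro M _ hM
        simp only [dNrm, dVec]
        rw [if_neg (by omega)]
        simp
    · refine sum_eq_zero fun M hM => ?_
      simp only [mem_range, topComp] at hn hn' hM
      simp only [dNrm, dVec]
      rw [if_neg (by omega)]
      simp
  rw [hR, hsp, Kk]
  by_cases hc : (y : ℕ) ≤ (m' : ℕ) + 1 ∧ (b : ℕ) ≤ (m : ℕ) + 1
  swap
  · rw [if_neg hc, zero_mul]
    refine mul_eq_zero_of_right _ (sum_eq_zero fun a _ => ?_)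
    rw [coef_eq hQ, coef_eq hQ]
    split_ifs <;> first | omega | simp
  rw [if_pos hc]
  by_cases ha : (m : ℕ) + 1 - b < Q + 1
  swap
  · rw [Ladder.nrm_eq_zero hQ.unit (show Q < (m : ℕ) + 1 - b by omega)]
    simp only [mul_zero, zero_mul, zero_div]
    refine mul_eq_zero_of_right _ (sum_eq_zero fun a _ => ?_)
    rw [coef_eq hQ, coef_eq hQ]
    have := a.2
    split_ifs <;> first | omega | simp
  set a₀ : Fin (Q + 1) := ⟨(m : ℕ) + 1 - b, ha⟩ with ha₀
  rw [sum_eq_single_of_mem a₀ (mem_univ _)]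
  · rw [coef_eq hQ, coef_eq hQ, if_pos (show (a₀ : ℕ) + b = (m : ℕ) + 1 by simp [ha₀]; omega),
      if_pos (show (a₀ : ℕ) + y = (m' : ℕ) + 1 by simp [ha₀]; omega)]
    rw [show ((a₀ : ℕ)) = (m : ℕ) + 1 - b from rfl,
      show (m' : ℕ) + 1 - y = (m : ℕ) + 1 - b by omega]
    have p0 := hQ.nrm_J_pos (show (m : ℕ) ≤ 2 * Q - 2 by omega)
    have p1 := hQ.nrm_J_pos (show (m' : ℕ) ≤ 2 * Q - 2 by omega)
    have p2 := hQ.nrm_one_pos (Nat.le_of_lt_succ hb)
    have p3 := hQ.nrm_one_pos (Nat.le_of_lt_succ ha)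
    have q0 := (Real.sqrt_pos.2 p0).ne'
    have q1 := (Real.sqrt_pos.2 p1).ne'
    have q2 := (Real.sqrt_pos.2 p2).ne'
    have n0 := p0.ne'
    rw [hW]
    field_simp
    rw [Real.sq_sqrt p0.le, Real.sq_sqrt p2.le, Real.sq_sqrt p3.le]
    ring
  · intro a _ hne
    rw [coef_eq hQ, coef_eq hQ]
    have : (a : ℕ) ≠ (m : ℕ) + 1 - b := fun h => hne (Fin.ext h)
    split_ifs <;> first | omega | simp

end Vale.Agent.P359.KapL
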