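import Vale.Agent.P359.GapCriterion

/-!
`GapConjecture` from a certificate that is uniform in the flux and in the particle number, with
the two-pair term `Y` used as slack.
-/

open Finset RCLike
open scoped InnerProductSpace

namespace Vale.Agent.P359

/-- The two-pair form `∑ m, ∑ n, ‖B_n χ_m‖²`. -/
noncomputable def yForm {Q : ℕ} (χ : Chan Q → FockQ Q) : ℝ :=
  ∑ m, ∑ n, ‖(carQ Q).pair (coef Q) n (χ m)‖ ^ 2

theorem yForm_nonneg {Q : ℕ} (χ : Chan Q → FockQ Q) : 0 ≤ yForm χ := by
  unfold yForm; positivity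

/-- The pair family of a Fock vector. -/
noncomputable def pairFam {Q : ℕ} (f : FockQ Q) (m : Chan Q) : FockQ Q :=
  (carQ Q).pair (coef Q) m f

/-- The gap criterion with slack: a table agreeing with the commutator table on pair families,
bounded there by `c` plus `ε ≤ 1` times the two-pair form. -/
theorem gapAt_of_slack {N : ℕ} {c ε : ℝ} (hε : ε ≤ 1)
    (W : Chan (flux (N + 2)) → Chan (flux (N + 2)) → Fin (flux (N + 2) + 1) →
      Fin (flux (N + 2) + 1) → ℝ)
    (hW : ∀ f ∈ Fock.sector ℂ (Fin (flux (N + 2) + 1)) (N + 2),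
      wForm (fun m n y b => W m n y b - Kk (coef (flux (N + 2))) m n y b) (pairFam f) = 0)
    (hc : ∀ f ∈ Fock.sector ℂ (Fin (flux (N + 2) + 1)) (N + 2),
      wForm W (pairFam f) ≤ c * (∑ m, ‖pairFam f m‖ ^ 2) + ε * yForm (pairFam f)) :
    GapAt (N + 2) (1 - c) :=
  gapAt_of_square fun f hf => by
    have hw := hW f hf
    have hb := hc f hf
    have hy : ε * yForm (pairFam f) ≤ yForm (pairFam f) :=
      mul_le_of_le_one_left (yForm_nonneg _) hε
    have hsub : wForm (fun m n y b => W m n y b - Kk (coef (flux (N + 2))) m n y b) (pairFam f) =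
        wForm W (pairFam f) - wForm (Kk (coef (flux (N + 2)))) (pairFam f) := by
      simp only [wForm, Complex.ofReal_sub, sub_mul, Finset.sum_sub_distrib, map_sub]
    have he : ‖(carQ (flux (N + 2))).ham (coef (flux (N + 2))) f‖ ^ 2 =
        yForm (pairFam f) + (∑ m, ‖pairFam f m‖ ^ 2) -
          wForm (Kk (coef (flux (N + 2)))) (pairFam f) :=
      (carQ _).norm_ham_sq (coef _) (coef_anti _) (coef_orth _) f
    have hf2 : re ⟪f, (carQ (flux (N + 2))).ham (coef (flux (N + 2))) f⟫_ℂ =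
        ∑ m, ‖pairFam f m‖ ^ 2 := (carQ _).form_ham (coef _) f
    rw [he, hf2]
    linarith

/-- A bound on the commutator form, uniform for all fluxes `Q ≥ Q₀` and all particle numbers. -/
def UniformCert : Prop :=
  ∃ g : ℝ, 0 < g ∧ ∃ Q₀ : ℕ, ∀ Q, Q₀ ≤ Q → ∀ M : ℕ, ∀ f ∈ Fock.sector ℂ (Fin (Q + 1)) (M + 2),
    wForm (Kk (coef Q)) (pairFam f) ≤ (1 - g) * (∑ m, ‖pairFam f m‖ ^ 2) + yForm (pairFam f)

/-- Q1 follows from the uniform certificate. -/
theorem gapConjecture_of_uniformCert (h : UniformCert) : GapConjecture := by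
  obtain ⟨g, hg, Q₀, hQ⟩ := h
  refine ⟨g, hg, Q₀ + 2, fun N hN => ?_⟩
  obtain ⟨M, rfl⟩ : ∃ M, N = M + 2 := ⟨N - 2, by omega⟩
  have h0 : GapAt (M + 2) (1 - (1 - g)) :=
    gapAt_of_slack le_rfl (Kk (coef (flux (M + 2))))
      (fun f _ => by simp [wForm])
      (fun f hf => by rw [one_mul]; exact hQ (flux (M + 2)) (by simp only [flux]; omega) M f hf)
  simpa using h0

end Vale.Agent.P359
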