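import Mathlib

/-!
A kernel-checkable certificate that a matrix is positive semidefinite, in the form needed for operator
inequalities: `0 ≤ ∑ i j, S i j * re ⟪φ i, φ j⟫` for every family of vectors.

The certificate is an integer factor `B` with `s * M - B Bᵀ` strictly diagonally dominant.
Strictness gives the same inequality for every real matrix close to `M`, hence eventually along a limit.
-/

open Finset Filter RCLike
open scoped InnerProductSpace Topology

namespace Vale.Agent.P359.Psd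

/-- Strict diagonal dominance of the symmetric part. -/
def DiagDom {n : ℕ} (R : Fin n → Fin n → ℝ) : Prop :=
  ∀ i, ∑ j ∈ univ.erase i, (|R i j| + |R j i|) < 2 * R i i

/-- The form of a matrix on a family of vectors. -/
noncomputable def form {𝕜 E : Type*} [RCLike 𝕜] [NormedAddCommGroup E] [InnerProductSpace 𝕜 E] {n : ℕ}
    (S : Fin n → Fin n → ℝ) (φ : Fin n → E) : ℝ :=
  ∑ i, ∑ j, S i j * re ⟪φ i, φ j⟫_𝕜

variable {𝕜 E : Type*} [RCLike 𝕜] [NormedAddCommGroup E] [InnerProductSpace 𝕜 E] {n : ℕ}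

theorem form_nonneg_of_diagDom {R : Fin n → Fin n → ℝ} (h : DiagDom R) (φ : Fin n → E) :
    0 ≤ form (𝕜 := 𝕜) R φ := by
  have hterm : ∀ i j, -(|R i j| * ((‖φ i‖ ^ 2 + ‖φ j‖ ^ 2) / 2)) ≤ R i j * re ⟪φ i, φ j⟫_𝕜 := by
    intro i j
    have h1 : |re ⟪φ i, φ j⟫_𝕜| ≤ (‖φ i‖ ^ 2 + ‖φ j‖ ^ 2) / 2 := by
      have := (abs_re_le_norm _).trans (norm_inner_le_norm (𝕜 := 𝕜) (φ i) (φ j))
      nlinarith [sq_nonneg (‖φ i‖ - ‖φ j‖)]
    have h2 : |R i j * re ⟪φ i, φ j⟫_𝕜| ≤ |R i j| * ((‖φ i‖ ^ 2 + ‖φ j‖ ^ 2) / 2) := by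
      rw [abs_mul]; exact mul_le_mul_of_nonneg_left h1 (abs_nonneg _)
    linarith [neg_abs_le (R i j * re ⟪φ i, φ j⟫_𝕜)]
  have hsplit : form (𝕜 := 𝕜) R φ
      = ∑ i, R i i * ‖φ i‖ ^ 2 + ∑ i, ∑ j ∈ univ.erase i, R i j * re ⟪φ i, φ j⟫_𝕜 := by
    rw [form, ← sum_add_distrib]
    refine sum_congr rfl fun i _ => ?_
    rw [← add_sum_erase _ _ (mem_univ i), inner_self_eq_norm_sq]
  have hswap : ∑ i, ∑ j ∈ univ.erase i, |R i j| * ‖φ j‖ ^ 2
      = ∑ i, ∑ j ∈ univ.erase i, |R j i| * ‖φ i‖ ^ 2 :=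
    sum_comm' (by simp [ne_comm])
  have hoff : -(∑ i, ∑ j ∈ univ.erase i, (|R i j| + |R j i|) * ‖φ i‖ ^ 2 / 2)
      ≤ ∑ i, ∑ j ∈ univ.erase i, R i j * re ⟪φ i, φ j⟫_𝕜 := by
    calc -(∑ i, ∑ j ∈ univ.erase i, (|R i j| + |R j i|) * ‖φ i‖ ^ 2 / 2)
        = -(∑ i, ∑ j ∈ univ.erase i, |R i j| * ((‖φ i‖ ^ 2 + ‖φ j‖ ^ 2) / 2)) := by
          have e1 : ∑ i, ∑ j ∈ univ.erase i, |R i j| * ((‖φ i‖ ^ 2 + ‖φ j‖ ^ 2) / 2)
              = ((∑ i, ∑ j ∈ univ.erase i, |R i j| * ‖φ i‖ ^ 2)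
                + ∑ i, ∑ j ∈ univ.erase i, |R i j| * ‖φ j‖ ^ 2) / 2 := by
            simp only [add_div, sum_div, ← sum_add_distrib]
            exact sum_congr rfl fun i _ => sum_congr rfl fun j _ => by ring
          rw [e1, hswap]
          simp only [add_div, sum_div, ← sum_add_distrib]
          congr 1
          exact sum_congr rfl fun i _ => sum_congr rfl fun j _ => by ring
      _ ≤ _ := by
          simp only [← sum_neg_distrib]
          exact sum_le_sum fun i _ => sum_le_sum fun j _ => hterm i j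
  have hdiag : ∑ i, ∑ j ∈ univ.erase i, (|R i j| + |R j i|) * ‖φ i‖ ^ 2 / 2
      ≤ ∑ i, R i i * ‖φ i‖ ^ 2 := by
    refine sum_le_sum fun i _ => ?_
    rw [← sum_div, ← sum_mul]
    nlinarith [h i, sq_nonneg ‖φ i‖]
  rw [hsplit]
  linarith

/-- `S - B Bᵀ` is strictly diagonally dominant: `S` is positive definite, stably. -/
def Cert {m : ℕ} (S : Fin n → Fin n → ℝ) (B : Fin n → Fin m → ℝ) : Prop :=
  DiagDom fun i j => S i j - ∑ k, B i k * B j k

theorem form_gram_nonneg {m : ℕ} (B : Fin n → Fin m → ℝ) (φ : Fin n → E) :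
    0 ≤ form (𝕜 := 𝕜) (fun i j => ∑ k, B i k * B j k) φ := by
  have h : form (𝕜 := 𝕜) (fun i j => ∑ k, B i k * B j k) φ
      = ∑ k, re ⟪∑ i, (B i k : 𝕜) • φ i, ∑ j, (B j k : 𝕜) • φ j⟫_𝕜 := by
    simp only [form, sum_inner, inner_sum, inner_smul_left, inner_smul_right, conj_ofReal, map_sum,
      re_ofReal_mul, mul_sum, sum_mul]
    rw [Finset.sum_comm (s := (univ : Finset (Fin m)))]
    refine sum_congr rfl fun i _ => ?_
    rw [Finset.sum_comm (s := (univ : Finset (Fin m)))]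
    refine sum_congr rfl fun j _ => ?_
    refine sum_congr rfl fun k _ => ?_
    rw [inner_re_symm (𝕜 := 𝕜) (φ j) (φ i)]
    ring
  rw [h]
  exact sum_nonneg fun k _ => inner_self_nonneg

theorem Cert.form_nonneg {m : ℕ} {S : Fin n → Fin n → ℝ} {B : Fin n → Fin m → ℝ} (h : Cert S B)
    (φ : Fin n → E) : 0 ≤ form (𝕜 := 𝕜) S φ := by
  have h1 := form_nonneg_of_diagDom (𝕜 := 𝕜) h φ
  have h2 := form_gram_nonneg (𝕜 := 𝕜) B φ
  have e : form (𝕜 := 𝕜) S φ = form (𝕜 := 𝕜) (fun i j => S i j - ∑ k, B i k * B j k) φ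
      + form (𝕜 := 𝕜) (fun i j => ∑ k, B i k * B j k) φ := by
    simp only [form, ← sum_add_distrib]
    exact sum_congr rfl fun i _ => sum_congr rfl fun j _ => by ring
  linarith

/-- The certificate survives small perturbations. -/
theorem Cert.eventually {m : ℕ} {S : Fin n → Fin n → ℝ} {B : Fin n → Fin m → ℝ} (h : Cert S B)
    {α : Type*} {l : Filter α} {F : α → Fin n → Fin n → ℝ}
    (hF : ∀ i j, Tendsto (fun a => F a i j) l (𝓝 (S i j))) : ∀ᶠ a in l, Cert (F a) B := by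
  refine Filter.eventually_all.2 fun i => ?_
  refine Tendsto.eventually_lt (tendsto_finsetSum _ fun j _ => ?_)
    (tendsto_const_nhds.mul ((hF i i).sub tendsto_const_nhds)) (h i)
  exact ((hF i j).sub tendsto_const_nhds).abs.add ((hF j i).sub tendsto_const_nhds).abs

/-- Along a limit the form is eventually nonnegative on every family of vectors. -/
theorem Cert.eventually_form_nonneg {m : ℕ} {S : Fin n → Fin n → ℝ} {B : Fin n → Fin m → ℝ}
    (h : Cert S B) {α : Type*} {l : Filter α} {F : α → Fin n → Fin n → ℝ}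
    (hF : ∀ i j, Tendsto (fun a => F a i j) l (𝓝 (S i j))) :
    ∀ᶠ a in l, ∀ φ : Fin n → E, 0 ≤ form (𝕜 := 𝕜) (F a) φ :=
  (h.eventually hF).mono fun _ ha φ => ha.form_nonneg φ

/-! ### The Boolean checker -/

/-- Dot product of two integer lists. -/
def dot : List ℤ → List ℤ → ℤ
  | a :: as, b :: bs => a * b + dot as bs
  | _, _ => 0

/-- Entry of `s * M - B Bᵀ`. -/
def resid (s : ℤ) (M : ℕ → ℕ → ℤ) (B : List (List ℤ)) (i j : ℕ) : ℤ :=
  s * M i j - dot (B.getD i []) (B.getD j [])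

/-- One row of the dominance test. -/
def checkRow (n : ℕ) (s : ℤ) (M : ℕ → ℕ → ℤ) (B : List (List ℤ)) (i : ℕ) : Bool :=
  decide (((List.range n).map fun j =>
      if j = i then 0 else (|resid s M B i j| + |resid s M B j i|)).sum < 2 * resid s M B i i)

/-- The checker: decide this with `decide +kernel`. -/
def check (n : ℕ) (s : ℤ) (M : ℕ → ℕ → ℤ) (B : List (List ℤ)) : Bool :=
  (List.range n).all (checkRow n s M B)

/-- A matrix of integers given by its rows. -/
def ofRows (M : List (List ℤ)) (i j : ℕ) : ℤ := (M.getD i []).getD j 0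

theorem dot_eq : ∀ (m : ℕ) (a b : List ℤ), a.length ≤ m →
    dot a b = ∑ k : Fin m, a.getD k 0 * b.getD k 0
  | _, [], b, _ => by simp [dot]
  | _, a :: as, [], _ => by simp [dot]
  | 0, a :: as, b :: bs, h => by simp at h
  | m + 1, a :: as, b :: bs, h => by
    rw [dot, dot_eq m as bs (by simpa using h), Fin.sum_univ_succ]
    simp

theorem length_getD_le (B : List (List ℤ)) (i : ℕ) :
    (B.getD i []).length ≤ (B.map List.length).sum := by
  induction B generalizing i with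
  | nil => simp
  | cons a B ih => cases i with
    | zero => simp
    | succ i => simp only [List.getD_cons_succ, List.map_cons, List.sum_cons]; have := ih i; omega

/-- Soundness: the checked matrix has a certificate, after any positive rescaling. -/
theorem cert_of_check {s : ℤ} (hs : 0 < s) {M : ℕ → ℕ → ℤ} {B : List (List ℤ)}
    (h : check n s M B = true) {c : ℝ} (hc : 0 < c) {S : Fin n → Fin n → ℝ}
    (hS : ∀ i j, S i j = c * (M i j : ℝ)) :
    ∃ (m : ℕ) (B' : Fin n → Fin m → ℝ), Cert S B' := by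
  refine ⟨(B.map List.length).sum,
    fun i k => √(c / s) * ((B.getD i []).getD k 0 : ℤ), fun i => ?_⟩
  have hs' : (0 : ℝ) < s := by exact_mod_cast hs
  have hcs : 0 < c / (s : ℝ) := div_pos hc hs'
  have hr : ∀ a b : Fin n, S a b - ∑ k : Fin (B.map List.length).sum,
      (√(c / s) * ((B.getD a []).getD k 0 : ℤ)) * (√(c / s) * ((B.getD b []).getD k 0 : ℤ))
      = c / s * (resid s M B a b : ℤ) := by
    intro a b
    rw [resid, dot_eq _ _ _ (length_getD_le B a), hS]
    push_cast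
    rw [mul_sub, mul_sum]
    congr 1
    · field_simp
    · refine sum_congr rfl fun k _ => ?_
      have := Real.mul_self_sqrt hcs.le
      linear_combination ((((B.getD a []).getD k 0 : ℤ) : ℝ) * ((B.getD b []).getD k 0 : ℤ)) * this
  have hrow := List.all_eq_true.1 h (i : ℕ) (List.mem_range.2 i.2)
  rw [checkRow, decide_eq_true_eq, ← List.sum_toFinset _ List.nodup_range, List.toFinset_range] at hrow
  have hsum : ∑ j ∈ univ.erase i, (|resid s M B i j| + |resid s M B j i|)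
      < 2 * resid s M B i i := by
    refine lt_of_eq_of_lt ?_ hrow
    rw [← Fin.sum_univ_eq_sum_range
      (fun j => if j = (i : ℕ) then 0 else (|resid s M B i j| + |resid s M B j i|))]
    rw [← add_sum_erase _ _ (mem_univ i), if_pos rfl, zero_add]
    exact sum_congr rfl fun j hj => by
      rw [if_neg fun e => (mem_erase.1 hj).1 (Fin.ext e)]
  simp only [hr, abs_mul, abs_of_pos hcs, ← mul_add, ← mul_sum]
  calc c / s * ∑ j ∈ univ.erase i, (|((resid s M B i j : ℤ) : ℝ)| + |((resid s M B j i : ℤ) : ℝ)|)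
      < c / s * (2 * (resid s M B i i : ℤ)) := by
        refine mul_lt_mul_of_pos_left ?_ hcs
        exact_mod_cast hsum
    _ = _ := by ring

/-- A checked matrix: the form is nonnegative, and stays so eventually along a limit. -/
theorem eventually_form_nonneg_of_check {s : ℤ} (hs : 0 < s) {M : ℕ → ℕ → ℤ} {B : List (List ℤ)}
    (h : check n s M B = true) {c : ℝ} (hc : 0 < c) {α : Type*} {l : Filter α}
    {F : α → Fin n → Fin n → ℝ}
    (hF : ∀ i j, Tendsto (fun a => F a i j) l (𝓝 (c * (M i j : ℝ)))) :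
    ∀ᶠ a in l, ∀ φ : Fin n → E, 0 ≤ form (𝕜 := 𝕜) (F a) φ := by
  obtain ⟨m, B', hB⟩ := cert_of_check hs h hc (S := fun i j => c * (M i j : ℝ)) (fun _ _ => rfl)
  exact hB.eventually_form_nonneg hF

/-- The fixed-matrix form. -/
theorem form_nonneg_of_check {s : ℤ} (hs : 0 < s) {M : ℕ → ℕ → ℤ} {B : List (List ℤ)}
    (h : check n s M B = true) {c : ℝ} (hc : 0 < c) {S : Fin n → Fin n → ℝ}
    (hS : ∀ i j, S i j = c * (M i j : ℝ)) (φ : Fin n → E) : 0 ≤ form (𝕜 := 𝕜) S φ := by
  obtain ⟨m, B', hB⟩ := cert_of_check hs h hc hS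
  exact hB.form_nonneg φ

end Vale.Agent.P359.Psd
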