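import Mathlib
import Vale.Agent.P359.Coef

/-!
The Gram blocks of the moment certificate.

`A_(n,j) = ∑_(M ≤ MM) w(M) • (u_(M+j))† Z1_(n,M)` and `A_0 = Bh_0`. Every Gram matrix of these
operators in a positive bilinear form is positive semidefinite, and its entries are linear in
`tau = ⟨Bh_0, Bh_0⟩`, `Y n = ⟨Z1_(n,0), Z1_(n,0)⟩` and `Z L n n'`, with rational coefficients.
The one-particle operators enter only as linear maps `mu a` (composition with `u_a`) and `ms a`
(composition with its adjoint); ladder orthogonality and inversion are fields of `GData`.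
-/

open Finset

namespace Vale.Agent.P359.MomentsG

open Coef

section coefficients

variable {K : Type*} [Field K]

/-- The coefficient of `Y n` in the entry `[(n,j),(n,j)]`. -/
def gDiag (eps : K) (MM : ℕ) (w w' : ℕ → K) (n j : ℕ) : K :=
  ∑ M ∈ range (MM + 1), w M * w' M * nrm 1 eps (M + j) * nrm (rho3 eps n) eps M

/-- The coefficient of `Y n` in the entry `[A_0,(n,n)]`. -/
def gCross (eps : K) (MM : ℕ) (w : ℕ → K) (n : ℕ) : K :=
  ∑ M ∈ range (MM + 1), w M * nrm 1 eps (n + M) * co eps n M 0 / coNrm eps n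

/-- The `(M, M')` summand of the coefficient of `Z L n n'`. -/
def gTerm (eps : K) (n j n' j' L M M' : ℕ) : K :=
  if n ≤ L ∧ n' ≤ L ∧ L - n ≤ M + M' + j' then
    (nrm (rho3 eps n) eps M * nrm 1 eps (M' + j') *
        g4 eps n (L - n) (M + M' + j' - (L - n)) M) *
      (nrm (rho3 eps n') eps M' * nrm 1 eps (M + j) *
        g4 eps n' (L - n') (M + M' + j' - (L - n)) M') /
      (g4Nrm eps n (L - n) * g4Nrm eps n' (L - n') *
        nrm (rho4 eps L) eps (M + M' + j' - (L - n)))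
  else 0

/-- The coefficient of `-Z L n n'` in the entry `[(n,j),(n',j')]`. -/
def gZ (eps : K) (MM : ℕ) (w w' : ℕ → K) (n j n' j' L : ℕ) : K :=
  ∑ M ∈ range (MM + 1), ∑ M' ∈ range (MM + 1), w M * w' M' * gTerm eps n j n' j' L M M'

/-- The entry `[(n,j),(n',j')]` as a linear form in the moments. -/
def gEntry (eps : K) (MM Lmax : ℕ) (Y : ℕ → K) (Z : ℕ → ℕ → ℕ → K) (w w' : ℕ → K)
    (n j n' j' : ℕ) : K :=
  (if n = n' ∧ j = j' then gDiag eps MM w w' n j * Y n else 0) -
    ∑ L ∈ range (Lmax + 1), gZ eps MM w w' n j n' j' L * Z L n n'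

end coefficients

/-- The facts about the eigenspace functional used by the Gram blocks. All indices are `≤ B`. -/
structure GData (eps : ℝ) (B : ℕ) (Op : Type*) [AddCommGroup Op] [Module ℝ Op] where
  ip : Op →ₗ[ℝ] Op →ₗ[ℝ] ℝ
  comm : ∀ X Y, ip X Y = ip Y X
  pos : ∀ X, 0 ≤ ip X X
  mu : ℕ → Op →ₗ[ℝ] Op
  ms : ℕ → Op →ₗ[ℝ] Op
  adj : ∀ a X Y, ip X (ms a Y) = ip (mu a X) Y
  car : ∀ a b X Y, ip (ms a X) (ms b Y) =
    (if a = b then nrm 1 eps a * ip X Y else 0) - ip (mu b X) (mu a Y)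
  Bh0 : Op
  Z1 : ℕ → ℕ → Op
  Z2 : ℕ → ℕ → ℕ → Op
  orth1 : ∀ n n' M M', n ≤ B → n' ≤ B → M ≤ B → M' ≤ B → ip (Z1 n M) (Z1 n' M') =
    if n = n' ∧ M = M' then nrm (rho3 eps n) eps M * ip (Z1 n 0) (Z1 n 0) else 0
  orth2 : ∀ n n2 n' n2' M M', n ≤ B → n' ≤ B → n2 ≤ B → n2' ≤ B → M ≤ B → M' ≤ B →
    ip (Z2 n n2 M) (Z2 n' n2' M') = if n + n2 = n' + n2' ∧ M = M'
      then nrm (rho4 eps (n + n2)) eps M * ip (Z2 n n2 0) (Z2 n' n2' 0) else 0
  inv3 : ∀ b, b ≤ B → mu b Bh0 = ∑ n ∈ range (b + 1),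
    (nrm 1 eps b * co eps n (b - n) 0 / (coNrm eps n * nrm (rho3 eps n) eps (b - n))) •
      Z1 n (b - n)
  inv4 : ∀ n M b, n ≤ B → M + b ≤ B → mu b (Z1 n M) = ∑ n2 ∈ range (M + b + 1),
    (nrm (rho3 eps n) eps M * nrm 1 eps b * g4 eps n n2 (M + b - n2) M /
        (g4Nrm eps n n2 * nrm (rho4 eps (n + n2)) eps (M + b - n2))) •
      Z2 n n2 (M + b - n2)

namespace GData

variable {Op : Type*} [AddCommGroup Op] [Module ℝ Op] {eps : ℝ} {B : ℕ} (D : GData eps B Op)

/-- The scalar moment. -/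
def tau : ℝ := D.ip D.Bh0 D.Bh0

/-- The channel moments. -/
def Y (n : ℕ) : ℝ := D.ip (D.Z1 n 0) (D.Z1 n 0)

/-- The four-particle moments. -/
def Z (L n n' : ℕ) : ℝ := D.ip (D.Z2 n (L - n) 0) (D.Z2 n' (L - n') 0)

/-- The operators of the blocks. -/
def A (MM : ℕ) (w : ℕ → ℝ) (n j : ℕ) : Op :=
  ∑ M ∈ range (MM + 1), w M • D.ms (M + j) (D.Z1 n M)

lemma tau_nonneg : 0 ≤ D.tau := D.pos _

lemma Y_nonneg (n : ℕ) : 0 ≤ D.Y n := D.pos _

/-- The inner product of two raised channel operators as a sum over the four-particle label. -/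
lemma ip_mu_mu {n j n' j' M M' Lmax : ℕ} (hn : n ≤ B) (hn' : n' ≤ B) (hblk : n + j' = n' + j)
    (h1 : M + M' + j' ≤ B) (h2 : M + M' + j ≤ B) (hL : n + (M + M' + j') ≤ Lmax) :
    D.ip (D.mu (M' + j') (D.Z1 n M)) (D.mu (M + j) (D.Z1 n' M')) =
      ∑ L ∈ range (Lmax + 1), gTerm eps n j n' j' L M M' * D.Z L n n' := by
  rw [D.inv4 n M (M' + j') hn (by omega), D.inv4 n' M' (M + j) hn' (by omega)]
  simp only [map_sum, LinearMap.sum_apply, map_smul, LinearMap.smul_apply, smul_eq_mul,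
    Finset.mul_sum]
  rw [Finset.sum_comm, ← add_assoc M M' j']
  have hre : ∀ f : ℕ → ℝ, ∑ n2 ∈ range (M + M' + j' + 1), f n2 =
      ∑ L ∈ range (Lmax + 1), if n ≤ L ∧ L - n ≤ M + M' + j' then f (L - n) else 0 := by
    intro f
    rw [← Finset.sum_filter]
    refine Finset.sum_nbij' (fun n2 => n + n2) (fun L => L - n) ?_ ?_ ?_ ?_ ?_
    · intro a ha
      simp only [mem_filter, mem_range, Finset.mem_coe] at ha ⊢
      omega
    · intro a ha
      simp only [mem_filter, mem_range, Finset.mem_coe] at ha ⊢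
      omega
    · intro a _
      simp
    · intro a ha
      simp only [mem_filter, mem_range, Finset.mem_coe] at ha ⊢
      omega
    · intro a _
      simp
  rw [hre]
  refine Finset.sum_congr rfl fun L _ => ?_
  by_cases hc : n ≤ L ∧ L - n ≤ M + M' + j'
  swap
  · rw [if_neg hc, gTerm, if_neg (fun h => hc ⟨h.1, h.2.2⟩), zero_mul]
  rw [if_pos hc]
  obtain ⟨hnL, hM4⟩ := hc
  by_cases hc' : n' ≤ L
  swap
  · rw [gTerm, if_neg (fun h => hc' h.2.1), zero_mul]
    refine Finset.sum_eq_zero fun m hm => ?_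
    rw [mem_range] at hm
    rw [D.orth2 _ _ _ _ _ _ hn hn' (by omega) (by omega) (by omega) (by omega),
      if_neg (by omega)]
    ring
  rw [gTerm, if_pos ⟨hnL, hc', hM4⟩, Finset.sum_eq_single (L - n')]
  · rw [D.orth2 _ _ _ _ _ _ hn hn' (by omega) (by omega) (by omega) (by omega),
      if_pos ⟨by omega, by omega⟩,
      show M' + (M + j) - (L - n') = M + M' + j' - (L - n) by omega,
      show n + (L - n) = L by omega, show n' + (L - n') = L by omega, Z]
    rcases eq_or_ne (nrm (rho4 eps L) eps (M + M' + j' - (L - n))) 0 with h0 | h0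
    · simp [h0]
    · field_simp
  · intro m hm hne
    rw [mem_range] at hm
    rw [D.orth2 _ _ _ _ _ _ hn hn' (by omega) (by omega) (by omega) (by omega),
      if_neg (by omega)]
    ring
  · intro h
    exfalso
    apply h
    rw [mem_range]
    omega

/-- The entries inside a block. -/
theorem ip_A_A {MM Lmax n j n' j' : ℕ} (w w' : ℕ → ℝ) (hn : n ≤ B) (hn' : n' ≤ B)
    (hblk : n + j' = n' + j) (hj : 2 * MM + j ≤ B) (hj' : 2 * MM + j' ≤ B)
    (hL : n + (2 * MM + j') ≤ Lmax) :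
    D.ip (D.A MM w n j) (D.A MM w' n' j') = gEntry eps MM Lmax D.Y D.Z w w' n j n' j' := by
  have hterm : ∀ M ∈ range (MM + 1), ∀ M' ∈ range (MM + 1),
      D.ip (D.ms (M + j) (D.Z1 n M)) (D.ms (M' + j') (D.Z1 n' M')) =
        (if n = n' ∧ j = j' ∧ M = M'
          then nrm 1 eps (M + j) * nrm (rho3 eps n) eps M * D.Y n else 0) -
        ∑ L ∈ range (Lmax + 1), gTerm eps n j n' j' L M M' * D.Z L n n' := by
    intro M hM M' hM'
    rw [mem_range] at hM hM'
    rw [D.car, D.ip_mu_mu (Lmax := Lmax) hn hn' hblk (by omega) (by omega) (by omega),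
      D.orth1 n n' M M' hn hn' (by omega) (by omega)]
    congr 1
    by_cases h : n = n' ∧ j = j' ∧ M = M'
    · rw [if_pos h, if_pos (by omega), if_pos ⟨h.1, h.2.2⟩, Y]
      ring
    · rw [if_neg h]
      split_ifs with h1 h2
      · exact absurd ⟨h2.1, by omega, h2.2⟩ h
      · ring
      · rfl
  simp only [A, map_sum, LinearMap.sum_apply, map_smul, LinearMap.smul_apply, smul_eq_mul,
    Finset.mul_sum]
  rw [Finset.sum_comm]
  calc _ = ∑ M ∈ range (MM + 1), ∑ M' ∈ range (MM + 1),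
        (w M * w' M' * (if n = n' ∧ j = j' ∧ M = M'
            then nrm 1 eps (M + j) * nrm (rho3 eps n) eps M * D.Y n else 0) -
          ∑ L ∈ range (Lmax + 1), w M * w' M' * gTerm eps n j n' j' L M M' * D.Z L n n') := by
        refine Finset.sum_congr rfl fun M hM => Finset.sum_congr rfl fun M' hM' => ?_
        rw [hterm M hM M' hM', mul_sub, mul_sub, Finset.mul_sum, Finset.mul_sum]
        congr 1
        · ring
        · exact Finset.sum_congr rfl fun L _ => by ring
    _ = gEntry eps MM Lmax D.Y D.Z w w' n j n' j' := by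
        simp only [Finset.sum_sub_distrib, gEntry]
        congr 1
        · by_cases h : n = n' ∧ j = j'
          · rw [if_pos h, gDiag, Finset.sum_mul]
            refine Finset.sum_congr rfl fun M hM => ?_
            simp only [h.1, h.2, true_and, mul_ite, mul_zero, Finset.sum_ite_eq, hM, if_true]
            ring
          · rw [if_neg h]
            exact Finset.sum_eq_zero fun M _ => Finset.sum_eq_zero fun M' _ => by
              rw [if_neg (fun e => h ⟨e.1, e.2.1⟩), mul_zero]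
        · rw [Finset.sum_comm_cycle]
          simp only [gZ, Finset.sum_mul]

/-- The entry between `A_0` and `A_(n,n)`. -/
theorem ip_Bh0_A {MM n : ℕ} (w : ℕ → ℝ) (hB : n + MM ≤ B)
    (h3 : ∀ M ≤ MM, nrm (rho3 eps n) eps M ≠ 0) :
    D.ip D.Bh0 (D.A MM w n n) = gCross eps MM w n * D.Y n := by
  simp only [A, map_sum, map_smul, smul_eq_mul, gCross, Finset.sum_mul]
  refine Finset.sum_congr rfl fun M hM => ?_
  rw [mem_range] at hM
  rw [D.adj, D.inv3 (M + n) (by omega)]
  simp only [map_sum, LinearMap.sum_apply, map_smul, LinearMap.smul_apply, smul_eq_mul]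
  rw [Finset.sum_eq_single n]
  · rw [D.orth1 n n _ M (by omega) (by omega) (by omega) (by omega),
      if_pos ⟨rfl, by omega⟩, show M + n - n = M by omega, add_comm M n, Y]
    have := h3 M (by omega)
    field_simp
  · intro m hm hne
    rw [mem_range] at hm
    rw [D.orth1 m n _ M (by omega) (by omega) (by omega) (by omega), if_neg (by omega)]
    ring
  · intro h
    exfalso
    apply h
    rw [mem_range]
    omega

/-- A block without `A_0` is positive semidefinite. -/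
theorem block_nonneg {α : Type*} (s : Finset α) (nn jj : α → ℕ) (w : α → ℕ → ℝ) (v : α → ℝ)
    (MM Lmax : ℕ) (hblk : ∀ a ∈ s, ∀ b ∈ s, nn a + jj b = nn b + jj a)
    (hn : ∀ a ∈ s, nn a ≤ B) (hj : ∀ a ∈ s, 2 * MM + jj a ≤ B)
    (hL : ∀ a ∈ s, ∀ b ∈ s, nn a + (2 * MM + jj b) ≤ Lmax) :
    0 ≤ ∑ a ∈ s, ∑ b ∈ s, v a * v b *
      gEntry eps MM Lmax D.Y D.Z (w a) (w b) (nn a) (jj a) (nn b) (jj b) := by
  have h := D.pos (∑ a ∈ s, v a • D.A MM (w a) (nn a) (jj a))
  simp only [map_sum, LinearMap.sum_apply, map_smul, LinearMap.smul_apply, smul_eq_mul,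
    Finset.mul_sum] at h
  rw [Finset.sum_comm] at h
  refine h.trans (le_of_eq ?_)
  refine Finset.sum_congr rfl fun a ha => Finset.sum_congr rfl fun b hb => ?_
  rw [D.ip_A_A (w a) (w b) (hn a ha) (hn b hb) (hblk a ha b hb) (hj a ha) (hj b hb)
    (hL a ha b hb)]
  ring

/-- The block that contains `A_0`. -/
theorem block0_nonneg {α : Type*} (s : Finset α) (nn : α → ℕ) (w : α → ℕ → ℝ) (v : α → ℝ)
    (v0 : ℝ) (MM Lmax : ℕ) (hn : ∀ a ∈ s, 2 * MM + nn a ≤ B)
    (h3 : ∀ a ∈ s, ∀ M ≤ MM, nrm (rho3 eps (nn a)) eps M ≠ 0)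
    (hL : ∀ a ∈ s, ∀ b ∈ s, nn a + (2 * MM + nn b) ≤ Lmax) :
    0 ≤ v0 * v0 * D.tau + 2 * v0 * (∑ a ∈ s, v a * gCross eps MM (w a) (nn a) * D.Y (nn a)) +
      ∑ a ∈ s, ∑ b ∈ s, v a * v b *
        gEntry eps MM Lmax D.Y D.Z (w a) (w b) (nn a) (nn a) (nn b) (nn b) := by
  set S := ∑ a ∈ s, v a • D.A MM (w a) (nn a) (nn a) with hS
  have h := D.pos (v0 • D.Bh0 + S)
  have e : D.ip (v0 • D.Bh0 + S) (v0 • D.Bh0 + S) =
      v0 * v0 * D.tau + 2 * v0 * D.ip D.Bh0 S + D.ip S S := by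
    simp only [map_add, map_smul, LinearMap.add_apply, LinearMap.smul_apply, smul_eq_mul,
      D.comm S D.Bh0, tau]
    ring
  rw [e] at h
  have e1 : D.ip D.Bh0 S = ∑ a ∈ s, v a * gCross eps MM (w a) (nn a) * D.Y (nn a) := by
    simp only [hS, map_sum, map_smul, smul_eq_mul]
    refine Finset.sum_congr rfl fun a ha => ?_
    rw [D.ip_Bh0_A (w a) (by have := hn a ha; omega) (h3 a ha), mul_assoc]
  have e2 : D.ip S S = ∑ a ∈ s, ∑ b ∈ s, v a * v b *
      gEntry eps MM Lmax D.Y D.Z (w a) (w b) (nn a) (nn a) (nn b) (nn b) := by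
    simp only [hS, map_sum, LinearMap.sum_apply, map_smul, LinearMap.smul_apply, smul_eq_mul,
      Finset.mul_sum]
    rw [Finset.sum_comm]
    refine Finset.sum_congr rfl fun a ha => Finset.sum_congr rfl fun b hb => ?_
    rw [D.ip_A_A (w a) (w b) (by have := hn a ha; omega) (by have := hn b hb; omega) (by omega)
      (hn a ha) (hn b hb) (hL a ha b hb)]
    ring
  rwa [e1, e2] at h

end GData

section functional

open scoped InnerProductSpace

variable {E κ : Type*} [NormedAddCommGroup E] [InnerProductSpace ℂ E] [Fintype κ]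

/-- The positive form `(X, Y) ↦ re ∑ k, ⟪X χ_k, Y χ_k⟫` on operators. -/
noncomputable def ipForm (χ : κ → E) :
    Module.End ℂ E →ₗ[ℝ] Module.End ℂ E →ₗ[ℝ] ℝ :=
  LinearMap.mk₂ ℝ (fun X Y => ∑ k, (⟪X (χ k), Y (χ k)⟫_ℂ).re)
    (fun X X' Y => by simp [inner_add_left, Finset.sum_add_distrib])
    (fun r X Y => by
      simp only [LinearMap.smul_apply, ← Complex.coe_smul, inner_smul_left, Complex.conj_ofReal,
        Complex.re_ofReal_mul, Finset.mul_sum, smul_eq_mul])
    (fun X Y Y' => by simp [inner_add_right, Finset.sum_add_distrib])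
    (fun r X Y => by
      simp only [LinearMap.smul_apply, ← Complex.coe_smul, inner_smul_right,
        Complex.re_ofReal_mul, Finset.mul_sum, smul_eq_mul])

variable (χ : κ → E)

lemma ipForm_apply (X Y : Module.End ℂ E) :
    ipForm χ X Y = ∑ k, (⟪X (χ k), Y (χ k)⟫_ℂ).re := rfl

lemma ipForm_comm (X Y : Module.End ℂ E) : ipForm χ X Y = ipForm χ Y X := by
  simp only [ipForm_apply]
  exact Finset.sum_congr rfl fun k _ => by rw [← inner_conj_symm, Complex.conj_re]

lemma ipForm_self_nonneg (X : Module.End ℂ E) : 0 ≤ ipForm χ X X :=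
  Finset.sum_nonneg fun k _ => by
    simpa using inner_self_nonneg (𝕜 := ℂ) (x := X (χ k))

lemma ipForm_adj {u us : Module.End ℂ E} (h : ∀ x y, ⟪us x, y⟫_ℂ = ⟪x, u y⟫_ℂ)
    (X Y : Module.End ℂ E) : ipForm χ X (us * Y) = ipForm χ (u * X) Y := by
  simp only [ipForm_apply, Module.End.mul_apply]
  exact Finset.sum_congr rfl fun k _ => by
    rw [← inner_conj_symm, h, inner_conj_symm]

lemma ipForm_car {u us : ℕ → Module.End ℂ E} {ν : ℕ → ℝ}
    (h : ∀ a x y, ⟪us a x, y⟫_ℂ = ⟪x, u a y⟫_ℂ)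
    (hac : ∀ a b, u a * us b + us b * u a =
      if a = b then (ν a : ℂ) • (1 : Module.End ℂ E) else 0)
    (a b : ℕ) (X Y : Module.End ℂ E) :
    ipForm χ (us a * X) (us b * Y) =
      (if a = b then ν a * ipForm χ X Y else 0) - ipForm χ (u b * X) (u a * Y) := by
  have e : ipForm χ (us a * X) (us b * Y) = ipForm χ X (u a * us b * Y) := by
    rw [ipForm_comm, mul_assoc, ipForm_comm χ X]
    simp only [ipForm_apply, Module.End.mul_apply]
    exact Finset.sum_congr rfl fun k _ => by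
      rw [← inner_conj_symm, h, inner_conj_symm, ← inner_conj_symm, Complex.conj_re]
  rw [e, eq_sub_of_add_eq (hac a b), sub_mul, map_sub, mul_assoc, ipForm_adj χ (h b)]
  congr 1
  split_ifs
  · rw [smul_mul_assoc, one_mul, Complex.coe_smul, map_smul, smul_eq_mul]
  · simp

end functional

end Vale.Agent.P359.MomentsG
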