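import Vale.Agent.P359.MomentsG
import Vale.Agent.P359.YSlack

/-!
The data of the Gram blocks from a ladder of scaled annihilators: the pair ladder, the channel
ladders and the four-particle ladders are composed ladders, and the fields of `GData` are the
ladder lemma and inversion.
-/

open scoped InnerProductSpace
open Finset

namespace Vale.Agent.P359.MomentsG

open Coef Ladder

variable {V κ : Type*} [NormedAddCommGroup V] [InnerProductSpace ℂ V] [Fintype κ]

/-- The complex form `∑ k, ⟪X χ_k, Y χ_k⟫`. -/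
noncomputable def cForm (χ : κ → V) : Module.End ℂ V →ₗ⋆[ℂ] Module.End ℂ V →ₗ[ℂ] ℂ :=
  LinearMap.mk₂'ₛₗ (starRingEnd ℂ) (RingHom.id ℂ) (fun X Y => ∑ k, ⟪X (χ k), Y (χ k)⟫_ℂ)
    (fun X X' Y => by simp [inner_add_left, Finset.sum_add_distrib])
    (fun c X Y => by
      simp only [LinearMap.smul_apply, inner_smul_left, smul_eq_mul, Finset.mul_sum])
    (fun X Y Y' => by simp [inner_add_right, Finset.sum_add_distrib])
    (fun c X Y => by simp [inner_smul_right, Finset.mul_sum])

variable {χ : κ → V}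

lemma cForm_apply (X Y : Module.End ℂ V) : cForm χ X Y = ∑ k, ⟪X (χ k), Y (χ k)⟫_ℂ := rfl

lemma cForm_re (X Y : Module.End ℂ V) : (cForm χ X Y).re = ipForm χ X Y := by
  rw [cForm_apply, ipForm_apply, Complex.re_sum]

lemma pform_eq (X Y : Module.End ℂ V) : Slack.pform χ X Y = ipForm χ X Y := by
  rw [Slack.pform, RCLike.re_to_complex, ipForm_apply, Complex.re_sum]

/-- Invariance of the real form gives invariance of the complex form. -/
lemma cForm_invariant {E F : Module.End ℂ V} (h : Slack.PInvariant χ E F) :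
    IsInvariant (brk (𝕜 := ℂ) E) (brk (𝕜 := ℂ) F) (cForm χ) := by
  have h' : ∀ a b, cForm χ (brk (𝕜 := ℂ) F a) b = cForm χ a (brk (𝕜 := ℂ) E b) := by
    intro a b
    have e : ∀ Y, (cForm χ a (brk (𝕜 := ℂ) E Y)).re = (cForm χ (brk (𝕜 := ℂ) F a) Y).re :=
      fun Y => by rw [cForm_re, cForm_re, ← pform_eq, ← pform_eq]; exact h a Y
    apply Complex.ext
    · exact (e b).symm
    · have := e (Complex.I • b)
      simp only [map_smul, smul_eq_mul, Complex.I_mul_re] at this
      linarith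
  have hc : ∀ X Y, cForm χ X Y = starRingEnd ℂ (cForm χ Y X) := fun X Y => by
    simp only [cForm_apply, map_sum, inner_conj_symm]
  exact ⟨fun a b => by rw [hc, ← h', ← hc], h'⟩

/-- The pair ladder. -/
noncomputable def bh (eps : ℝ) (u : ℕ → Module.End ℂ V) : ℕ → Module.End ℂ V :=
  comp ℂ 1 1 eps 1 u u

/-- The channel ladders. -/
noncomputable def z1 (eps : ℝ) (u : ℕ → Module.End ℂ V) (n : ℕ) : ℕ → Module.End ℂ V :=
  comp ℂ (rhoJ eps) 1 eps n (bh eps u) u

/-- The four-particle ladders. -/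
noncomputable def z2 (eps : ℝ) (u : ℕ → Module.End ℂ V) (n n2 : ℕ) : ℕ → Module.End ℂ V :=
  comp ℂ (rho3 eps n) 1 eps n2 (z1 eps u n) u

variable {E F : Module.End ℂ V} {eps : ℝ} {u : ℕ → Module.End ℂ V}

lemma brk_E_mul (e : Module.End ℂ V) (a b : Module.End ℂ V) :
    brk (𝕜 := ℂ) e (a * b) = brk (𝕜 := ℂ) e a * b + a * brk (𝕜 := ℂ) e b :=
  brk_mul e a b

lemma bh_ladder (hu : IsLadder (brk (𝕜 := ℂ) E) (brk (𝕜 := ℂ) F) 1 eps u) :
    IsLadder (brk (𝕜 := ℂ) E) (brk (𝕜 := ℂ) F) (rhoJ eps) eps (bh eps u) := by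
  have h := comp_ladder (brk_E_mul E) (brk_E_mul F) hu hu 1
  have e : rhoOf 1 1 eps 1 = rhoJ eps := by simp [rhoOf, rhoJ]; ring
  rwa [e] at h

lemma z1_ladder (hu : IsLadder (brk (𝕜 := ℂ) E) (brk (𝕜 := ℂ) F) 1 eps u) (n : ℕ) :
    IsLadder (brk (𝕜 := ℂ) E) (brk (𝕜 := ℂ) F) (rho3 eps n) eps (z1 eps u n) :=
  comp_ladder (brk_E_mul E) (brk_E_mul F) (bh_ladder hu) hu n

lemma rhoOf_rho3 (eps : ℝ) (n n2 : ℕ) : rhoOf (rho3 eps n) 1 eps n2 = rho4 eps (n + n2) := by
  simp only [rhoOf, rho3, rho4]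
  push_cast
  ring

lemma z2_ladder (hu : IsLadder (brk (𝕜 := ℂ) E) (brk (𝕜 := ℂ) F) 1 eps u) (n n2 : ℕ) :
    IsLadder (brk (𝕜 := ℂ) E) (brk (𝕜 := ℂ) F) (rho4 eps (n + n2)) eps (z2 eps u n n2) := by
  rw [← rhoOf_rho3]
  exact comp_ladder (brk_E_mul E) (brk_E_mul F) (z1_ladder hu n) hu n2

/-- The Gram data of an invariant family and a ladder of scaled annihilators. -/
noncomputable def gData (χ : κ → V) (B : ℕ) (heps : 0 < eps) (hB : ((B : ℝ) + 1) * eps ≤ 1)
    (hinv : Slack.PInvariant χ E F)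
    (hu : IsLadder (brk (𝕜 := ℂ) E) (brk (𝕜 := ℂ) F) 1 eps u) (us : ℕ → Module.End ℂ V)
    (hadj : ∀ a x y, ⟪us a x, y⟫_ℂ = ⟪x, u a y⟫_ℂ)
    (hac : ∀ a b, u a * us b + us b * u a =
      if a = b then ((nrm (1 : ℝ) eps a : ℝ) : ℂ) • (1 : Module.End ℂ V) else 0) :
    GData eps B (Module.End ℂ V) where
  ip := ipForm χ
  comm := ipForm_comm χ
  pos := ipForm_self_nonneg χ
  mu a := LinearMap.mulLeft ℝ (u a)
  ms a := LinearMap.mulLeft ℝ (us a)
  adj a X Y := ipForm_adj χ (hadj a) X Y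
  car a b X Y := ipForm_car χ hadj hac a b X Y
  Bh0 := bh eps u 0
  Z1 := z1 eps u
  Z2 := z2 eps u
  orth1 n n' M M' _ _ _ _ := by
    rw [← cForm_re]
    rcases eq_or_ne n n' with rfl | h
    · rw [ladder_lemma (cForm_invariant hinv) (z1_ladder hu n) (z1_ladder hu n)]
      rcases eq_or_ne M M' with rfl | h'
      · rw [if_pos rfl, if_pos ⟨rfl, rfl⟩, RCLike.ofReal_eq_complex_ofReal, Complex.re_ofReal_mul,
          cForm_re]
      · rw [if_neg h', if_neg (fun e => h' e.2), Complex.zero_re]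
    · rw [if_neg (fun e => h e.1), ladder_orth (cForm_invariant hinv) (z1_ladder hu n)
        (z1_ladder hu n'), Complex.zero_re]
      simp only [rho3, rhoOf]
      intro e
      have e' : ((n : ℝ) - n') * eps = 0 := by linarith
      rcases mul_eq_zero.1 e' with e'' | e''
      · exact h (by exact_mod_cast sub_eq_zero.1 e'')
      · exact heps.ne' e''
  orth2 n n2 n' n2' M M' _ _ _ _ _ _ := by
    rw [← cForm_re]
    by_cases h : n + n2 = n' + n2'
    · have hy := z2_ladder hu n' n2'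
      rw [← h] at hy
      rw [ladder_lemma (cForm_invariant hinv) (z2_ladder hu n n2) hy]
      rcases eq_or_ne M M' with rfl | h'
      · rw [if_pos rfl, if_pos ⟨h, rfl⟩, RCLike.ofReal_eq_complex_ofReal, Complex.re_ofReal_mul,
          cForm_re]
      · rw [if_neg h', if_neg (fun e => h' e.2), Complex.zero_re]
    · rw [if_neg (fun e => h e.1), ladder_orth (cForm_invariant hinv) (z2_ladder hu n n2)
        (z2_ladder hu n' n2'), Complex.zero_re]
      simp only [rho4]
      intro e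
      have e' : (((n + n2 : ℕ) : ℝ) - (n' + n2' : ℕ)) * eps = 0 := by linarith
      rcases mul_eq_zero.1 e' with e'' | e''
      · exact h (by exact_mod_cast sub_eq_zero.1 e'')
      · exact heps.ne' e''
  inv3 b hb := by
    have hl : ∀ l < 0 + b, (l : ℝ) * eps + eps ≤ B * eps := fun l hl => by
      have : (l : ℝ) + 1 ≤ B := by exact_mod_cast (by omega : l + 1 ≤ B)
      nlinarith
    have h := inversion (𝕜 := ℂ) (r₁ := rhoJ eps) (r₂ := 1) (eps := eps) (X := bh eps u) (Y := u)
      0 b (fun l h' => by have := hl l h'; simp only [rhoJ]; linarith)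
      (fun l h' => by have := hl l h'; linarith)
    simp only [LinearMap.mulLeft_apply]
    rw [h, zero_add]
    refine Finset.sum_congr rfl fun n _ => ?_
    rw [RCLike.ofReal_eq_complex_ofReal, Complex.coe_smul, show nrm (rhoJ eps) eps 0 = 1 by simp [nrm],
      one_mul]
    rfl
  inv4 n M b hn hb := by
    have hl : ∀ l < M + b, (l : ℝ) * eps + eps ≤ B * eps := fun l hl => by
      have : (l : ℝ) + 1 ≤ B := by exact_mod_cast (by omega : l + 1 ≤ B)
      nlinarith
    have hn' : (n : ℝ) * eps ≤ B * eps := by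
      have : (n : ℝ) ≤ B := by exact_mod_cast hn
      nlinarith
    have h := inversion (𝕜 := ℂ) (r₁ := rho3 eps n) (r₂ := 1) (eps := eps) (X := z1 eps u n)
      (Y := u) M b (fun l h' => by have := hl l h'; simp only [rho3, rhoOf, rhoJ]; linarith)
      (fun l h' => by have := hl l h'; linarith)
    simp only [LinearMap.mulLeft_apply]
    rw [h]
    refine Finset.sum_congr rfl fun n2 _ => ?_
    rw [RCLike.ofReal_eq_complex_ofReal, Complex.coe_smul, rhoOf_rho3]
    rfl

end Vale.Agent.P359.MomentsG
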