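import Vale.Agent.P359.YSlack

/-!
The moment matrices of the channel-particle operators: positivity, the linear relations coming
from antisymmetry and inversion, and the slack form as a quadratic form of these moments.
-/

namespace Vale.Agent.P359.Coef

open Finset

variable {K : Type*} [Field K]

/-- Coefficient of component `n` when `u q * u p * Bh i` of total index `L` is expanded. -/
def exCo (eps : K) (L n i p : ℕ) : K :=
  nrm (rhoJ eps) eps i * nrm 1 eps p * nrm 1 eps (L - (i + p)) * co eps n (i + p - n) i *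
    g4 eps n (L - n) 0 (i + p - n) / (coNrm eps n * g4Nrm eps n (L - n))

/-- The relation coefficient of weight `L`. -/
def relCo (eps : K) (L n n' : ℕ) : K :=
  ∑ M ∈ range (L - n + 1), ∑ i ∈ range (n + M + 1),
    if n' ≤ i + (L - n - M) then
      g4 eps n (L - n) 0 M * co eps n M i * exCo eps L n' i (L - n - M)
    else 0

/-- The coefficient of component `n` in the two-pair operator number `k`. -/
def yCo (eps : K) (k n : ℕ) : K :=
  ∑ i ∈ range (k + 1), ∑ p ∈ range (1 + (k - i) + 1),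
    if n ≤ i + p then
      hw (rhoJ eps) (rhoJ eps) eps k i * desc 1 1 eps 1 (k - i) p * exCo eps (k + 1) n i p
    else 0

end Vale.Agent.P359.Coef

namespace Vale.Agent.P359.Slack

open scoped InnerProductSpace
open Finset RCLike Coef Ladder

variable {𝕜 κ V : Type*} [RCLike 𝕜] [Fintype κ] [NormedAddCommGroup V] [InnerProductSpace 𝕜 V]
  {χ : κ → V} {E F : Module.End 𝕜 V}

/-- The pair operators. -/
noncomputable def bh (eps : ℝ) (u : ℕ → Module.End 𝕜 V) : ℕ → Module.End 𝕜 V :=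
  Ladder.comp 𝕜 1 1 eps 1 u u

/-- The pair-particle operators of channel `n`. -/
noncomputable def z1 (eps : ℝ) (u : ℕ → Module.End 𝕜 V) (n : ℕ) : ℕ → Module.End 𝕜 V :=
  Ladder.comp 𝕜 (rhoJ eps) 1 eps n (bh eps u) u

/-- The channel-particle operators. -/
noncomputable def z2 (eps : ℝ) (u : ℕ → Module.End 𝕜 V) (n n₂ : ℕ) : ℕ → Module.End 𝕜 V :=
  Ladder.comp 𝕜 (rho3 eps n) 1 eps n₂ (z1 eps u n) u

variable {eps : ℝ} {u : ℕ → Module.End 𝕜 V}

theorem bh_ladder (hu : IsLadder (brk (𝕜 := 𝕜) E) (brk (𝕜 := 𝕜) F) 1 eps u) :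
    IsLadder (brk (𝕜 := 𝕜) E) (brk (𝕜 := 𝕜) F) (rhoJ eps) eps (bh eps u) := by
  have h := comp_ladder (brk_mul E) (brk_mul F) hu hu 1
  rw [show rhoOf (1 : ℝ) 1 eps 1 = rhoJ eps by simp [rhoOf, rhoJ]; ring] at h
  exact h

theorem z1_ladder (hu : IsLadder (brk (𝕜 := 𝕜) E) (brk (𝕜 := 𝕜) F) 1 eps u) (n : ℕ) :
    IsLadder (brk (𝕜 := 𝕜) E) (brk (𝕜 := 𝕜) F) (rho3 eps n) eps (z1 eps u n) :=
  comp_ladder (brk_mul E) (brk_mul F) (bh_ladder hu) hu n

theorem z2_ladder (hu : IsLadder (brk (𝕜 := 𝕜) E) (brk (𝕜 := 𝕜) F) 1 eps u) (n n₂ : ℕ) :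
    IsLadder (brk (𝕜 := 𝕜) E) (brk (𝕜 := 𝕜) F) (rhoOf (rho3 eps n) 1 eps n₂) eps
      (z2 eps u n n₂) :=
  comp_ladder (brk_mul E) (brk_mul F) (z1_ladder hu n) hu n₂

theorem z2_hw (hu : IsLadder (brk (𝕜 := 𝕜) E) (brk (𝕜 := 𝕜) F) 1 eps u) (n n₂ : ℕ) :
    brk (𝕜 := 𝕜) F (z2 eps u n n₂ 0) = 0 :=
  (z2_ladder hu n n₂).lower_zero

theorem pform_neg (X Y : Module.End 𝕜 V) : pform χ X (-Y) = -pform χ X Y := by
  simp [pform, sum_neg_distrib]

/-- Only the highest component of `Y b * X i` survives against a highest-weight operator. -/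
theorem pform_hw_top (hinv : PInvariant χ E F) {r₁ r₂ : ℝ} {A B : ℕ → Module.End 𝕜 V}
    (hA : IsLadder (brk (𝕜 := 𝕜) E) (brk (𝕜 := 𝕜) F) r₁ eps A)
    (hB : IsLadder (brk (𝕜 := 𝕜) E) (brk (𝕜 := 𝕜) F) r₂ eps B)
    {X : Module.End 𝕜 V} (hX : brk (𝕜 := 𝕜) F X = 0) (i b : ℕ)
    (h1 : ∀ l < i + b, (l : ℝ) * eps < r₁) (h2 : ∀ l < i + b, (l : ℝ) * eps < r₂) :
    pform χ X (B b * A i) = nrm r₁ eps i * nrm r₂ eps b * desc r₁ r₂ eps (i + b) 0 i /
      hwNrm r₁ r₂ eps (i + b) * pform χ X (Ladder.comp 𝕜 r₁ r₂ eps (i + b) A B 0) := by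
  rw [inversion (𝕜 := 𝕜) (X := A) (Y := B) i b h1 h2,
    pform_sum, sum_eq_single (i + b)]
  · rw [pform_smul, Nat.sub_self]
    simp [nrm]
  · intro n hn hne
    have : n < i + b := by have := mem_range.1 hn; omega
    obtain ⟨M, hM⟩ : ∃ M, i + b - n = M + 1 := ⟨i + b - n - 1, by omega⟩
    rw [pform_smul, hM, ← (comp_ladder (brk_mul E) (brk_mul F) hA hB n).raise M,
      pform_hw_comm hinv hX, mul_zero]
  · simp

theorem bound_one {L l : ℕ} (_he : 0 < eps) (hL : ((L : ℝ) + 1) * eps ≤ 1) (hl : l < L) :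
    (l : ℝ) * eps < 1 := by
  have : (l : ℝ) + 1 ≤ L := by exact_mod_cast hl
  nlinarith

theorem bound_rhoJ {L l : ℕ} (_he : 0 < eps) (hL : ((L : ℝ) + 1) * eps ≤ 1) (hl : l < L) :
    (l : ℝ) * eps < rhoJ eps := by
  have : (l : ℝ) + 1 ≤ L := by exact_mod_cast hl
  rw [rhoJ]
  nlinarith

theorem bound_rho3 {L n l : ℕ} (_he : 0 < eps) (hL : ((L : ℝ) + 1) * eps ≤ 1) (hn : n ≤ L)
    (hl : l < L - n) : (l : ℝ) * eps < rho3 eps n := by
  have : (l : ℝ) + n + 1 ≤ L := by exact_mod_cast (show l + n + 1 ≤ L by omega)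
  have : (n : ℝ) ≤ L := by exact_mod_cast hn
  simp only [rho3, rhoOf, rhoJ]
  nlinarith

/-- Expansion of `u q * u p * Bh i` against a highest-weight operator. -/
theorem pform_expand (hinv : PInvariant χ E F)
    (hu : IsLadder (brk (𝕜 := 𝕜) E) (brk (𝕜 := 𝕜) F) 1 eps u) (he : 0 < eps) {L : ℕ}
    (hL : ((L : ℝ) + 1) * eps ≤ 1) {X : Module.End 𝕜 V} (hX : brk (𝕜 := 𝕜) F X = 0)
    {i p q : ℕ} (hipq : i + p + q = L) :
    pform χ X (u q * (u p * bh eps u i)) =
      ∑ n ∈ range (L + 1), (if n ≤ i + p then exCo eps L n i p else 0) *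
        pform χ X (z2 eps u n (L - n) 0) := by
  have hsum : ∑ n ∈ range (L + 1), (if n ≤ i + p then exCo eps L n i p else 0) *
      pform χ X (z2 eps u n (L - n) 0) =
      ∑ n ∈ range (i + p + 1), exCo eps L n i p * pform χ X (z2 eps u n (L - n) 0) := by
    rw [← sum_subset (range_mono (show i + p + 1 ≤ L + 1 by omega)) fun n _ hn => by
      rw [if_neg (by rw [mem_range] at hn; omega), zero_mul]]
    exact sum_congr rfl fun n hn => by rw [if_pos (Nat.lt_succ_iff.1 (mem_range.1 hn))]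
  rw [hsum, inversion (𝕜 := 𝕜) (r₁ := rhoJ eps) (r₂ := 1)
    (eps := eps) (X := bh eps u) (Y := u) i p (fun l hl => bound_rhoJ he hL (by omega))
    (fun l hl => bound_one he hL (by omega)), mul_sum, pform_sum]
  refine sum_congr rfl fun n hn => ?_
  have hn' : n ≤ i + p := Nat.lt_succ_iff.1 (mem_range.1 hn)
  rw [mul_smul_comm, pform_smul]
  rw [show Ladder.comp 𝕜 (rhoJ eps) 1 eps n (bh eps u) u (i + p - n) = z1 eps u n (i + p - n)
    from rfl]
  rw [pform_hw_top hinv (z1_ladder hu n) hu hX (i + p - n) q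
    (fun l hl => bound_rho3 he hL (by omega) (by omega))
    (fun l hl => bound_one he hL (by omega))]
  rw [show i + p - n + q = L - n by omega]
  rw [show Ladder.comp 𝕜 (rho3 eps n) 1 eps (L - n) (z1 eps u n) u 0 = z2 eps u n (L - n) 0
    from rfl]
  have hN : nrm (rho3 eps n) eps (i + p - n) ≠ 0 :=
    (nrm_pos fun l hl => bound_rho3 he hL (by omega) (show l < L - n by omega)).ne'
  simp only [exCo, show L - (i + p) = q by omega, co, coNrm, g4, g4Nrm]
  rw [show rhoOf (rhoJ eps) 1 eps n = rho3 eps n from rfl]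
  field_simp

/-- The moment matrix of weight `L`. -/
noncomputable def zMat (χ : κ → V) (eps : ℝ) (u : ℕ → Module.End 𝕜 V) (L n n' : ℕ) : ℝ :=
  pform χ (z2 eps u n (L - n) 0) (z2 eps u n' (L - n') 0)

theorem zMat_comm (L n n' : ℕ) : zMat χ eps u L n n' = zMat χ eps u L n' n := pform_comm _ _

theorem pform_sum_left {α : Type*} (s : Finset α) (Y : Module.End 𝕜 V)
    (X : α → Module.End 𝕜 V) : pform χ (∑ a ∈ s, X a) Y = ∑ a ∈ s, pform χ (X a) Y := by
  rw [pform_comm, pform_sum]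
  exact sum_congr rfl fun a _ => pform_comm _ _

/-- The moment matrices are positive semidefinite. -/
theorem zMat_psd (s : Finset ℕ) (a : ℕ → ℝ) (L : ℕ) :
    0 ≤ ∑ n ∈ s, ∑ m ∈ s, a n * a m * zMat χ eps u L n m := by
  have h : ∑ n ∈ s, ∑ m ∈ s, a n * a m * zMat χ eps u L n m =
      pform χ (∑ n ∈ s, ((a n : ℝ) : 𝕜) • z2 eps u n (L - n) 0)
        (∑ n ∈ s, ((a n : ℝ) : 𝕜) • z2 eps u n (L - n) 0) := by
    rw [pform_sum_left]
    refine sum_congr rfl fun n _ => ?_
    rw [pform_comm, pform_smul, pform_comm, pform_sum, mul_sum]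
    exact sum_congr rfl fun m _ => by rw [pform_smul, zMat]; ring
  rw [h]
  exact pform_self_nonneg _

/-- A channel whose highest operator vanishes gives zero rows. -/
theorem z2_eq_zero (hu : IsLadder (brk (𝕜 := 𝕜) E) (brk (𝕜 := 𝕜) F) 1 eps u) {n : ℕ}
    (h : z1 eps u n 0 = 0) (n₂ M₄ : ℕ) : z2 eps u n n₂ M₄ = 0 := by
  have hz : ∀ M, z1 eps u n M = 0 := fun M => by
    induction M with
    | zero => exact h
    | succ M ih => rw [← (z1_ladder hu n).raise M, ih, map_zero]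
  simp [z2, Ladder.comp, hz]

theorem zMat_null (hu : IsLadder (brk (𝕜 := 𝕜) E) (brk (𝕜 := 𝕜) F) 1 eps u) {n : ℕ}
    (h : z1 eps u n 0 = 0) (L m : ℕ) : zMat χ eps u L n m = 0 ∧ zMat χ eps u L m n = 0 := by
  refine ⟨?_, ?_⟩ <;> simp [zMat, z2_eq_zero hu h, pform]

/-- The relations of weight `L`, against any highest-weight operator. -/
theorem pform_relation (hinv : PInvariant χ E F)
    (hu : IsLadder (brk (𝕜 := 𝕜) E) (brk (𝕜 := 𝕜) F) 1 eps u)
    (hanti : ∀ a b, u a * u b = -(u b * u a)) (he : 0 < eps) {L : ℕ}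
    (hL : ((L : ℝ) + 1) * eps ≤ 1) {X : Module.End 𝕜 V} (hX : brk (𝕜 := 𝕜) F X = 0)
    {n : ℕ} (hn : n ≤ L) :
    pform χ X (z2 eps u n (L - n) 0) +
      ∑ n' ∈ range (L + 1), relCo eps L n n' * pform χ X (z2 eps u n' (L - n') 0) = 0 := by
  have h : pform χ X (z2 eps u n (L - n) 0) = ∑ M ∈ range (L - n + 1), ∑ i ∈ range (n + M + 1),
      -(g4 eps n (L - n) 0 M * co eps n M i *
        pform χ X (u (n + M - i) * (u (L - n - M) * bh eps u i))) := by
    rw [z2, Ladder.comp, pform_sum, Nat.add_zero]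
    refine sum_congr rfl fun M _ => ?_
    rw [pform_smul, z1, Ladder.comp, mul_sum, pform_sum, mul_sum]
    refine sum_congr rfl fun i _ => ?_
    rw [mul_smul_comm, pform_smul, ← mul_assoc (u _) (u _), hanti, neg_mul, pform_neg, mul_assoc]
    simp only [g4, co]
    ring
  rw [h]
  have h2 : ∀ M ∈ range (L - n + 1), ∀ i ∈ range (n + M + 1),
      -(g4 eps n (L - n) 0 M * co eps n M i *
        pform χ X (u (n + M - i) * (u (L - n - M) * bh eps u i))) =
      -∑ n' ∈ range (L + 1), (if n' ≤ i + (L - n - M) then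
        g4 eps n (L - n) 0 M * co eps n M i * exCo eps L n' i (L - n - M) else 0) *
          pform χ X (z2 eps u n' (L - n') 0) := by
    intro M hM i hi
    rw [mem_range] at hM hi
    rw [pform_expand hinv hu he hL hX (i := i) (p := L - n - M) (q := n + M - i) (by omega),
      mul_sum]
    refine congrArg _ (sum_congr rfl fun n' _ => ?_)
    split_ifs <;> ring
  rw [sum_congr rfl fun M hM => sum_congr rfl fun i hi => h2 M hM i hi]
  simp only [sum_neg_distrib, relCo, sum_mul]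
  rw [sum_comm (s := range (L + 1))]
  rw [← sub_eq_neg_add, sub_eq_zero]
  refine sum_congr rfl fun M _ => ?_
  rw [sum_comm]

/-- The rows `e_n + relCo n` annihilate the moment matrix. -/
theorem zMat_relation (hinv : PInvariant χ E F)
    (hu : IsLadder (brk (𝕜 := 𝕜) E) (brk (𝕜 := 𝕜) F) 1 eps u)
    (hanti : ∀ a b, u a * u b = -(u b * u a)) (he : 0 < eps) {L : ℕ}
    (hL : ((L : ℝ) + 1) * eps ≤ 1) {n : ℕ} (hn : n ≤ L) (m : ℕ) :
    zMat χ eps u L n m +
      ∑ n' ∈ range (L + 1), relCo eps L n n' * zMat χ eps u L n' m = 0 := by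
  have h := pform_relation hinv hu hanti he hL (z2_hw hu m (L - m)) hn
  have e : ∑ n' ∈ range (L + 1), relCo eps L n n' * zMat χ eps u L n' m =
      ∑ n' ∈ range (L + 1), relCo eps L n n' * zMat χ eps u L m n' :=
    sum_congr rfl fun n' _ => by rw [zMat_comm]
  rw [zMat_comm L n m, e]
  exact h

/-- The highest two-pair operator in the components of weight `k + 1`. -/
theorem pform_ww (hinv : PInvariant χ E F)
    (hu : IsLadder (brk (𝕜 := 𝕜) E) (brk (𝕜 := 𝕜) F) 1 eps u) (he : 0 < eps) {k : ℕ}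
    (hL : (((k + 1 : ℕ) : ℝ) + 1) * eps ≤ 1) {X : Module.End 𝕜 V}
    (hX : brk (𝕜 := 𝕜) F X = 0) :
    pform χ X (ww eps (bh eps u) k 0) =
      ∑ n ∈ range (k + 1 + 1), yCo eps k n * pform χ X (z2 eps u n (k + 1 - n) 0) := by
  have h : pform χ X (ww eps (bh eps u) k 0) =
      ∑ i ∈ range (k + 1), ∑ p ∈ range (1 + (k - i) + 1),
        hw (rhoJ eps) (rhoJ eps) eps k i * desc 1 1 eps 1 (k - i) p *
          pform χ X (u (1 + (k - i) - p) * (u p * bh eps u i)) := by
    rw [ww, Ladder.comp, pform_sum, Nat.add_zero]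
    refine sum_congr rfl fun i _ => ?_
    rw [pform_smul, Ladder.desc_zero]
    conv_lhs => arg 2; arg 3; arg 1; rw [bh, Ladder.comp]
    rw [sum_mul, pform_sum, mul_sum]
    refine sum_congr rfl fun p _ => ?_
    rw [smul_mul_assoc, pform_smul, mul_assoc (u _)]
    ring
  rw [h]
  have h2 : ∀ i ∈ range (k + 1), ∀ p ∈ range (1 + (k - i) + 1),
      hw (rhoJ eps) (rhoJ eps) eps k i * desc 1 1 eps 1 (k - i) p *
          pform χ X (u (1 + (k - i) - p) * (u p * bh eps u i)) =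
      ∑ n ∈ range (k + 1 + 1), (if n ≤ i + p then
        hw (rhoJ eps) (rhoJ eps) eps k i * desc 1 1 eps 1 (k - i) p * exCo eps (k + 1) n i p
        else 0) * pform χ X (z2 eps u n (k + 1 - n) 0) := by
    intro i hi p hp
    rw [mem_range] at hi hp
    rw [pform_expand hinv hu he hL hX (i := i) (p := p) (q := 1 + (k - i) - p) (by omega),
      mul_sum]
    refine sum_congr rfl fun n _ => ?_
    split_ifs <;> ring
  rw [sum_congr rfl fun i hi => sum_congr rfl fun p hp => h2 i hi p hp]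
  simp only [yCo, sum_mul]
  rw [sum_comm (s := range (k + 1 + 1))]
  exact sum_congr rfl fun i _ => sum_comm

/-- The highest two-pair form is `uᵀ Z u`. -/
theorem pform_ww_self (hinv : PInvariant χ E F)
    (hu : IsLadder (brk (𝕜 := 𝕜) E) (brk (𝕜 := 𝕜) F) 1 eps u) (he : 0 < eps) {k : ℕ}
    (hL : (((k + 1 : ℕ) : ℝ) + 1) * eps ≤ 1) :
    pform χ (ww eps (bh eps u) k 0) (ww eps (bh eps u) k 0) =
      ∑ n ∈ range (k + 1 + 1), ∑ m ∈ range (k + 1 + 1),
        yCo eps k n * yCo eps k m * zMat χ eps u (k + 1) n m := by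
  have hW : brk (𝕜 := 𝕜) F (ww eps (bh eps u) k 0) = 0 :=
    (comp_ladder (brk_mul E) (brk_mul F) (bh_ladder hu) (bh_ladder hu) k).lower_zero
  rw [pform_ww hinv hu he hL hW]
  refine sum_congr rfl fun n _ => ?_
  rw [pform_comm, pform_ww hinv hu he hL (z2_hw hu n _), mul_sum]
  exact sum_congr rfl fun m _ => by rw [zMat]; ring

/-- The slack term from the moments. -/
theorem slack_le_zMat (hinv : PInvariant χ E F)
    (hu : IsLadder (brk (𝕜 := 𝕜) E) (brk (𝕜 := 𝕜) F) 1 eps u) (he : 0 < eps) {D NC : ℕ}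
    (hD : rhoJ eps = (D : ℝ) * eps) (hNC : NC ≤ D) (hL : ((NC : ℝ) + 2) * eps ≤ 1)
    (hzero : ∀ k, D < k → bh eps u k = 0) :
    ∑ k ∈ range (NC + 1), ((2 * D - 2 * k + 1 : ℕ) : ℝ) / hwNrm (rhoJ eps) (rhoJ eps) eps k *
        (∑ n ∈ range (k + 1 + 1), ∑ m ∈ range (k + 1 + 1),
          yCo eps k n * yCo eps k m * zMat χ eps u (k + 1) n m) ≤
      ∑ i ∈ range (D + 1), ∑ b ∈ range (D + 1),
        pform χ (bh eps u b * bh eps u i) (bh eps u b * bh eps u i) /
          (nrm (rhoJ eps) eps i * nrm (rhoJ eps) eps b) := by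
  refine le_of_eq_of_le (sum_congr rfl fun k hk => ?_)
    (slack_le hinv he hD hNC (bh_ladder hu) hzero)
  rw [pform_ww_self hinv hu he]
  have : (k : ℝ) ≤ NC := by exact_mod_cast Nat.lt_succ_iff.1 (mem_range.1 hk)
  push_cast
  nlinarith

/-- The pair operators vanish beyond their dimension. -/
theorem bh_eq_zero {Q : ℕ} (hQ : ∀ a, Q < a → u a = 0) (hanti : ∀ a b, u a * u b = -(u b * u a))
    {k : ℕ} (hk : 2 * Q - 2 < k) : bh eps u k = 0 := by
  rw [bh, Ladder.comp]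
  refine sum_eq_zero fun i hi => ?_
  rw [mem_range] at hi
  rcases lt_or_ge Q i with h | h
  · simp [hQ i h]
  rcases lt_or_ge Q (1 + k - i) with h' | h'
  · simp [hQ _ h']
  obtain rfl : i = Q := by omega
  rw [show 1 + k - i = i by omega]
  have h2 : u i * u i + u i * u i = 0 := eq_neg_iff_add_eq_zero.1 (hanti i i)
  rw [← two_smul 𝕜, smul_eq_zero] at h2
  rw [h2.resolve_left two_ne_zero, smul_zero]

/-- The scaled sum of pair products is sixteen times the two-pair form. -/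
theorem pform_pairs {D : ℕ} (B : ℕ → Module.End 𝕜 V) (c : ℕ → ℝ)
    (hB : ∀ k ≤ D, bh eps u k = ((c k : ℝ) : 𝕜) • B k)
    (hc : ∀ k ≤ D, c k ^ 2 = 4 * nrm (rhoJ eps) eps k)
    (hn : ∀ k ≤ D, nrm (rhoJ eps) eps k ≠ 0) :
    ∑ i ∈ range (D + 1), ∑ b ∈ range (D + 1),
        pform χ (bh eps u b * bh eps u i) (bh eps u b * bh eps u i) /
          (nrm (rhoJ eps) eps i * nrm (rhoJ eps) eps b) =
      16 * ∑ i ∈ range (D + 1), ∑ b ∈ range (D + 1), pform χ (B b * B i) (B b * B i) := by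
  rw [mul_sum]
  refine sum_congr rfl fun i hi => ?_
  rw [mul_sum]
  refine sum_congr rfl fun b hb => ?_
  rw [mem_range] at hi hb
  rw [hB i (by omega), hB b (by omega), smul_mul_assoc, mul_smul_comm, smul_smul,
    ← RCLike.ofReal_mul, pform_smul, pform_comm, pform_smul]
  have h1 := hc i (by omega)
  have h2 := hc b (by omega)
  have h3 := hn i (by omega)
  have h4 := hn b (by omega)
  field_simp
  linear_combination pform χ (B b * B i) (B b * B i) * c b ^ 2 * h1 +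
    4 * pform χ (B b * B i) (B b * B i) * nrm (rhoJ eps) eps i * h2

/-- An eigenspace trace annihilating the commutators with `E` gives an invariant form. -/
theorem pinvariant_of_trace [FiniteDimensional 𝕜 V] (hadj : ∀ x y, ⟪F x, y⟫_𝕜 = ⟪x, E y⟫_𝕜)
    (htr : ∀ T : Module.End 𝕜 V,
      ∑ k, ⟪χ k, T (E (χ k))⟫_𝕜 = ∑ k, ⟪χ k, E (T (χ k))⟫_𝕜) :
    PInvariant χ E F := by
  intro X Y
  have h := htr (LinearMap.adjoint X * Y)
  simp only [Module.End.mul_apply, LinearMap.adjoint_inner_right] at h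
  simp only [← hadj, LinearMap.adjoint_inner_right] at h
  simp only [pform, brk_apply, LinearMap.sub_apply, Module.End.mul_apply, inner_sub_left,
    inner_sub_right, sum_sub_distrib, map_sub, hadj]
  rw [h]

end Vale.Agent.P359.Slack
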