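import Mathlib

/-!
# Representations of `sl₂` with adjoint raising and lowering operators

Highest-weight vectors, invariant forms, the expansion of an invariant form in a complete family
of highest-weight vectors, and the average over the multiplet of a highest-weight vector.
-/

open Finset RCLike Module
open scoped InnerProductSpace Nat

namespace Vale.Agent.P359

variable {𝕜 V W U : Type*} [RCLike 𝕜] [NormedAddCommGroup V] [InnerProductSpace 𝕜 V]

/-- A representation of `sl₂` in which the lowering operator is adjoint to the raising one. -/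
structure Sl2 (𝕜 : Type*) (V : Type*) [RCLike 𝕜] [NormedAddCommGroup V]
    [InnerProductSpace 𝕜 V] where
  raise : Module.End 𝕜 V
  lower : Module.End 𝕜 V
  weight : Module.End 𝕜 V
  adj : ∀ x y, ⟪raise x, y⟫_𝕜 = ⟪x, lower y⟫_𝕜
  comm : raise * lower - lower * raise = weight
  comm_raise : weight * raise - raise * weight = (2 : 𝕜) • raise

namespace Sl2

variable (S : Sl2 𝕜 V)

/-- `x` is a highest-weight vector of weight `lam`. -/
def IsHW (x : V) (lam : ℝ) : Prop := S.raise x = 0 ∧ S.weight x = (lam : 𝕜) • x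

/-- A sesquilinear form is invariant. -/
def Invariant (B : V →ₗ⋆[𝕜] V →ₗ[𝕜] 𝕜) : Prop :=
  (∀ u w, B (S.raise u) w = B u (S.lower w)) ∧ ∀ u w, B (S.lower u) w = B u (S.raise w)

/-- The squared norm of the `k`-th vector of the multiplet of a unit highest-weight vector. -/
noncomputable def normFac (lam : ℝ) (k : ℕ) : ℝ := (k ! : ℝ) * ∏ i ∈ range k, (lam - i)

lemma normFac_zero (lam : ℝ) : normFac lam 0 = 1 := by simp [normFac]

lemma normFac_succ (lam : ℝ) (k : ℕ) :
    normFac lam (k + 1) = ((k : ℝ) + 1) * (lam - k) * normFac lam k := by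
  simp only [normFac, Finset.prod_range_succ, Nat.factorial_succ]
  push_cast
  ring

lemma normFac_pos {n k : ℕ} (h : k ≤ n) : 0 < normFac (n : ℝ) k := by
  refine mul_pos (by exact_mod_cast Nat.factorial_pos k) (Finset.prod_pos fun i hi => sub_pos.2 ?_)
  exact_mod_cast lt_of_lt_of_le (mem_range.1 hi) h

lemma adj' (x y : V) : ⟪S.lower x, y⟫_𝕜 = ⟪x, S.raise y⟫_𝕜 := by
  rw [← inner_conj_symm, ← S.adj, inner_conj_symm]

lemma weight_apply (x : V) : S.weight x = S.raise (S.lower x) - S.lower (S.raise x) := by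
  rw [← S.comm]; rfl

lemma weight_symm : LinearMap.IsSymmetric S.weight := fun x y => by
  rw [weight_apply, weight_apply, inner_sub_left, inner_sub_right, S.adj, S.adj', S.adj', S.adj]

lemma weight_raise (x : V) :
    S.weight (S.raise x) = S.raise (S.weight x) + (2 : 𝕜) • S.raise x := by
  have h := LinearMap.congr_fun S.comm_raise x
  simp only [LinearMap.sub_apply, Module.End.mul_apply, LinearMap.smul_apply] at h
  rw [← h]
  abel

lemma weight_lower (x : V) :
    S.weight (S.lower x) = S.lower (S.weight x) - (2 : 𝕜) • S.lower x := by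
  refine ext_inner_right 𝕜 fun y => ?_
  rw [S.weight_symm, S.adj', inner_sub_left, inner_smul_left, S.adj', S.adj', S.weight_symm,
    S.weight_raise, inner_add_right, inner_smul_right, map_ofNat]
  ring

lemma weight_pow {x : V} {lam : ℝ} (hx : S.IsHW x lam) (k : ℕ) :
    S.weight ((S.lower ^ k) x) = ((lam - 2 * k : ℝ) : 𝕜) • (S.lower ^ k) x := by
  induction k with
  | zero => simp [hx.2]
  | succ k ih =>
    rw [pow_succ', Module.End.mul_apply, S.weight_lower, ih, map_smul, ← sub_smul]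
    push_cast
    ring_nf

lemma raise_pow {x : V} {lam : ℝ} (hx : S.IsHW x lam) (k : ℕ) :
    S.raise ((S.lower ^ (k + 1)) x) =
      ((((k : ℝ) + 1) * (lam - k) : ℝ) : 𝕜) • (S.lower ^ k) x := by
  induction k with
  | zero =>
    have h := S.weight_apply x
    rw [hx.1, map_zero, sub_zero, hx.2] at h
    simp [h]
  | succ k ih =>
    have h := S.weight_apply ((S.lower ^ (k + 1)) x)
    rw [ih, map_smul, S.weight_pow hx] at h
    have e : (S.lower ^ (k + 1)) x = S.lower ((S.lower ^ k) x) := by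
      rw [pow_succ', Module.End.mul_apply]
    rw [← e] at h
    rw [pow_succ' _ (k + 1), Module.End.mul_apply, ← sub_add_cancel (S.raise (S.lower _)) _, ← h,
      ← add_smul]
    push_cast
    ring_nf

lemma Invariant.weight {B : V →ₗ⋆[𝕜] V →ₗ[𝕜] 𝕜} (hB : S.Invariant B) (u w : V) :
    B (S.weight u) w = B u (S.weight w) := by
  simp only [weight_apply, map_sub, LinearMap.sub_apply, hB.1, hB.2]

lemma invariant_inner : S.Invariant (innerₛₗ 𝕜) := ⟨S.adj, S.adj'⟩

lemma form_eq_zero_of_weight {B : V →ₗ⋆[𝕜] V →ₗ[𝕜] 𝕜} (hB : S.Invariant B) {x y : V}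
    {lx ly : ℝ} (hx : S.weight x = (lx : 𝕜) • x) (hy : S.weight y = (ly : 𝕜) • y) (h : ly ≠ lx) :
    B y x = 0 := by
  have e := Invariant.weight S hB y x
  rw [hx, hy, map_smulₛₗ, LinearMap.smul_apply, map_smul, conj_ofReal, smul_eq_mul,
    smul_eq_mul] at e
  have h' : ((ly : 𝕜) - (lx : 𝕜)) * B y x = 0 := by rw [sub_mul, e, sub_self]
  exact (mul_eq_zero.1 h').resolve_left (sub_ne_zero.2 fun e' => h (ofReal_inj.1 e'))

/-- An invariant form on two multiplets. -/
lemma form_pow {B : V →ₗ⋆[𝕜] V →ₗ[𝕜] 𝕜} (hB : S.Invariant B) {x y : V} {lx ly : ℝ}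
    (hx : S.IsHW x lx) (hy : S.IsHW y ly) (l k : ℕ) :
    B ((S.lower ^ l) y) ((S.lower ^ k) x) =
      if l = k then (normFac lx k : 𝕜) * B y x else 0 := by
  induction k generalizing l with
  | zero =>
    cases l with
    | zero => simp [normFac_zero]
    | succ l => rw [pow_succ', Module.End.mul_apply, hB.2, pow_zero, Module.End.one_apply, hx.1,
        map_zero, if_neg (Nat.succ_ne_zero l)]
  | succ k ih =>
    cases l with
    | zero =>
      rw [pow_succ' _ k, Module.End.mul_apply, pow_zero, Module.End.one_apply, ← hB.1, hy.1,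
        map_zero, LinearMap.zero_apply, if_neg (Nat.succ_ne_zero k).symm]
    | succ l =>
      rw [pow_succ' _ l, Module.End.mul_apply, hB.2, S.raise_pow hx, map_smul, ih, smul_eq_mul]
      split_ifs with h1 h2 h2
      · rw [normFac_succ]
        push_cast
        ring
      · omega
      · omega
      · rw [mul_zero]

lemma inner_pow {x y : V} {lx ly : ℝ} (hx : S.IsHW x lx) (hy : S.IsHW y ly) (l k : ℕ) :
    ⟪(S.lower ^ l) y, (S.lower ^ k) x⟫_𝕜 =
      if l = k then (normFac lx k : 𝕜) * ⟪y, x⟫_𝕜 else 0 :=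
  S.form_pow S.invariant_inner hx hy l k

/-- The multiplet of weight `n` has `n + 1` vectors. -/
lemma lower_pow_eq_zero {x : V} {n k : ℕ} (hx : S.IsHW x n) (hk : n < k) :
    (S.lower ^ k) x = 0 := by
  refine inner_self_eq_zero (𝕜 := 𝕜).1 ?_
  rw [S.inner_pow hx hx, if_pos rfl]
  have : normFac (n : ℝ) k = 0 := by
    rw [normFac, Finset.prod_eq_zero (mem_range.2 hk) (sub_self _), mul_zero]
  simp [this]

/-- A submodule stable under both operators. -/
def Stable (M : Submodule 𝕜 V) : Prop :=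
  (∀ x ∈ M, S.raise x ∈ M) ∧ ∀ x ∈ M, S.lower x ∈ M

lemma Stable.weight {M : Submodule 𝕜 V} (hM : S.Stable M) {x : V} (hx : x ∈ M) :
    S.weight x ∈ M := by
  rw [S.weight_apply]
  exact sub_mem (hM.1 _ (hM.2 _ hx)) (hM.2 _ (hM.1 _ hx))

lemma Stable.orth {M : Submodule 𝕜 V} (hM : S.Stable M) : S.Stable Mᗮ := by
  refine ⟨fun x hx => (Submodule.mem_orthogonal _ _).2 fun u hu => ?_,
    fun x hx => (Submodule.mem_orthogonal _ _).2 fun u hu => ?_⟩
  · rw [← S.adj']; exact (Submodule.mem_orthogonal _ _).1 hx _ (hM.2 u hu)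
  · rw [← S.adj]; exact (Submodule.mem_orthogonal _ _).1 hx _ (hM.1 u hu)

variable [FiniteDimensional 𝕜 V]

/-- A nonzero stable submodule has a highest-weight vector. -/
theorem exists_hw {M : Submodule 𝕜 V} (hM : S.Stable M) (h0 : M ≠ ⊥) :
    ∃ x ∈ M, x ≠ 0 ∧ ∃ lam : ℝ, S.IsHW x lam := by
  have : Nontrivial M := Submodule.nontrivial_iff_ne_bot.2 h0
  let T : Module.End 𝕜 M := S.weight.restrict fun x hx => hM.weight S hx
  have hT : LinearMap.IsSymmetric T := fun x y => S.weight_symm (x : V) (y : V)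
  let ev := hT.eigenvalues rfl
  let b := hT.eigenvectorBasis rfl
  have : Nonempty (Fin (finrank 𝕜 M)) := ⟨⟨0, finrank_pos⟩⟩
  obtain ⟨i, -, hi⟩ := Finset.exists_max_image Finset.univ ev Finset.univ_nonempty
  have hb : S.weight (b i : V) = (ev i : 𝕜) • (b i : V) :=
    congrArg Subtype.val (hT.apply_eigenvectorBasis rfl i)
  refine ⟨b i, (b i).2, fun h => b.orthonormal.ne_zero i (Subtype.ext h), ev i, ?_, hb⟩
  let z : M := ⟨S.raise (b i : V), hM.1 _ (b i).2⟩
  have hz : T z = ((ev i + 2 : ℝ) : 𝕜) • z := Subtype.ext <| by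
    show S.weight (S.raise (b i : V)) = ((ev i + 2 : ℝ) : 𝕜) • S.raise (b i : V)
    rw [S.weight_raise, hb, map_smul, ← add_smul]
    push_cast
    rfl
  have hz0 : z = 0 := by
    rw [← b.sum_repr z]
    refine Finset.sum_eq_zero fun j _ => ?_
    have h1 : ⟪T (b j), z⟫_𝕜 = ⟪b j, T z⟫_𝕜 := hT _ _
    rw [hT.apply_eigenvectorBasis rfl j, hz, inner_smul_left, inner_smul_right, conj_ofReal] at h1
    have h2 : ((ev j : 𝕜) - ((ev i + 2 : ℝ) : 𝕜)) * ⟪b j, z⟫_𝕜 = 0 := by
      rw [sub_mul, h1, sub_self]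
    have h3 : ⟪b j, z⟫_𝕜 = 0 := (mul_eq_zero.1 h2).resolve_left <| sub_ne_zero.2 fun e => by
      have := ofReal_inj.1 e
      linarith [hi j (mem_univ j)]
    rw [OrthonormalBasis.repr_apply_apply, h3, zero_smul]
  exact congrArg Subtype.val hz0

/-- A stable submodule containing every highest-weight vector is the whole space. -/
theorem eq_top_of_hw {M : Submodule 𝕜 V} (hM : S.Stable M)
    (h : ∀ x lam, S.IsHW x lam → x ∈ M) : M = ⊤ := by
  by_contra hne
  obtain ⟨x, hx, hx0, lam, hw⟩ := S.exists_hw (hM.orth S)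
    (fun e => hne (Submodule.orthogonal_eq_bot_iff.1 e))
  exact hx0 (inner_self_eq_zero (𝕜 := 𝕜).1 ((Submodule.mem_orthogonal _ _).1 hx x (h x lam hw)))

/-- An operator commuting with the representation that kills the highest-weight vectors is `0`. -/
theorem eq_zero_of_hw (T : V →ₗ[𝕜] V) (hE : ∀ v, T (S.raise v) = S.raise (T v))
    (hF : ∀ v, T (S.lower v) = S.lower (T v)) (h : ∀ x lam, S.IsHW x lam → T x = 0) : T = 0 := by
  have hk : S.Stable (LinearMap.ker T) :=
    ⟨fun x hx => by rw [LinearMap.mem_ker, hE, LinearMap.mem_ker.1 hx, map_zero],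
      fun x hx => by rw [LinearMap.mem_ker, hF, LinearMap.mem_ker.1 hx, map_zero]⟩
  exact LinearMap.ker_eq_top.1 (S.eq_top_of_hw hk fun x lam hw => LinearMap.mem_ker.2 (h x lam hw))

/-- A symmetric operator commuting with the representation is positive when it is positive on
the highest-weight vectors. -/
theorem form_nonneg_of_hw {T : Module.End 𝕜 V} (hT : LinearMap.IsSymmetric T)
    (hE : ∀ v, T (S.raise v) = S.raise (T v)) (hF : ∀ v, T (S.lower v) = S.lower (T v))
    (h : ∀ x lam, S.IsHW x lam → 0 ≤ re ⟪x, T x⟫_𝕜) (y : V) : 0 ≤ re ⟪y, T y⟫_𝕜 := by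
  let b := hT.eigenvectorBasis rfl
  have hev : ∀ i, 0 ≤ hT.eigenvalues rfl i := by
    intro i
    have hk : S.Stable (Module.End.eigenspace T (hT.eigenvalues rfl i : 𝕜)) :=
      ⟨fun x hx => Module.End.mem_eigenspace_iff.2 (by
          rw [hE, Module.End.mem_eigenspace_iff.1 hx, map_smul]),
        fun x hx => Module.End.mem_eigenspace_iff.2 (by
          rw [hF, Module.End.mem_eigenspace_iff.1 hx, map_smul])⟩
    have hne : Module.End.eigenspace T (hT.eigenvalues rfl i : 𝕜) ≠ ⊥ := fun e =>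
      b.orthonormal.ne_zero i ((Submodule.mem_bot 𝕜).1
        (e ▸ Module.End.mem_eigenspace_iff.2 (hT.apply_eigenvectorBasis rfl i)))
    obtain ⟨x, hx, hx0, lam, hw⟩ := S.exists_hw hk hne
    have hp := h x lam hw
    rw [Module.End.mem_eigenspace_iff.1 hx, inner_smul_right, inner_self_eq_norm_sq_to_K,
      ← ofReal_pow, ← ofReal_mul, ofReal_re] at hp
    exact nonneg_of_mul_nonneg_left hp (pow_pos (norm_pos_iff.2 hx0) 2)
  rw [← b.sum_inner_mul_inner y (T y), map_sum]
  refine Finset.sum_nonneg fun i _ => ?_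
  rw [← hT (b i) y, hT.apply_eigenvectorBasis rfl i, inner_smul_left, conj_ofReal,
    mul_left_comm, re_ofReal_mul]
  refine mul_nonneg (hev i) ?_
  rw [← inner_conj_symm y (b i), RCLike.conj_mul, ← ofReal_pow, ofReal_re]
  positivity

/-- A bound by `c` on highest-weight vectors is a bound everywhere. -/
theorem form_le_of_hw {T : Module.End 𝕜 V} (hT : LinearMap.IsSymmetric T)
    (hE : ∀ v, T (S.raise v) = S.raise (T v)) (hF : ∀ v, T (S.lower v) = S.lower (T v)) {c : ℝ}
    (h : ∀ x lam, S.IsHW x lam → re ⟪x, T x⟫_𝕜 ≤ c * ‖x‖ ^ 2) (y : V) :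
    re ⟪y, T y⟫_𝕜 ≤ c * ‖y‖ ^ 2 := by
  have e : ∀ z, re ⟪z, ((c : 𝕜) • (1 : Module.End 𝕜 V) - T) z⟫_𝕜 =
      c * ‖z‖ ^ 2 - re ⟪z, T z⟫_𝕜 := fun z => by
    rw [LinearMap.sub_apply, LinearMap.smul_apply, Module.End.one_apply, inner_sub_right,
      inner_smul_right, inner_self_eq_norm_sq_to_K, map_sub, ← ofReal_pow, ← ofReal_mul, ofReal_re]
  have h' := S.form_nonneg_of_hw (T := (c : 𝕜) • (1 : Module.End 𝕜 V) - T)
    (fun x z => by
      simp only [LinearMap.sub_apply, LinearMap.smul_apply, Module.End.one_apply, inner_sub_left,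
        inner_sub_right, inner_smul_left, inner_smul_right, conj_ofReal, hT x z])
    (fun v => by simp [hE]) (fun v => by simp [hF])
    (fun x lam hw => by rw [e]; exact sub_nonneg.2 (h x lam hw)) y
  rw [e] at h'
  linarith

/-- A weight of a nonzero highest-weight vector is a natural number. -/
theorem exists_weight_eq_nat {x : V} {lam : ℝ} (hx : S.IsHW x lam) (h0 : x ≠ 0) :
    ∃ n : ℕ, lam = n := by
  classical
  by_cases hex : ∃ k, (S.lower ^ k) x = 0
  · have hk := Nat.find_spec hex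
    rcases hkk : Nat.find hex with _ | m
    · rw [hkk] at hk; exact absurd (by simpa using hk) h0
    rw [hkk] at hk
    have h1 := S.raise_pow hx m
    rw [hk, map_zero, eq_comm, smul_eq_zero] at h1
    rcases h1 with h1 | h1
    · refine ⟨m, sub_eq_zero.1 ?_⟩
      exact (mul_eq_zero.1 (ofReal_eq_zero.1 h1)).resolve_left (by positivity)
    · exact absurd h1 (Nat.find_min hex (by omega))
  · have hli : LinearIndependent 𝕜 fun k : ℕ => (S.lower ^ k) x :=
      linearIndependent_of_ne_zero_of_inner_eq_zero (fun k h => hex ⟨k, h⟩)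
        fun k l hkl => by
          show ⟪(S.lower ^ k) x, (S.lower ^ l) x⟫_𝕜 = 0
          rw [S.inner_pow hx hx, if_neg hkl]
    exact absurd hli.finite fun h => not_finite ℕ

section Family

variable {κ : Type*} [Fintype κ] (h : κ → V) (lam : κ → ℕ)

/-- A complete orthogonal family of highest-weight vectors. -/
structure IsFamily : Prop where
  hw : ∀ i, S.IsHW (h i) (lam i)
  ne : ∀ i, h i ≠ 0
  orth : ∀ i j, i ≠ j → ⟪h i, h j⟫_𝕜 = 0
  complete : ∀ x l, S.IsHW x l → x ∈ Submodule.span 𝕜 (Set.range h)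

variable {h lam}

/-- The coefficient of `w` on the `k`-th vector of the multiplet of `h i`. -/
noncomputable def comp (i : κ) (k : ℕ) (w : V) (h : κ → V) (lam : κ → ℕ) : 𝕜 :=
  ⟪(S.lower ^ k) (h i), w⟫_𝕜 / ((normFac (lam i) k * ‖h i‖ ^ 2 : ℝ) : 𝕜)

/-- The multiplets of a complete family span. -/
theorem resolution (hf : S.IsFamily h lam) (w : V) :
    w = ∑ i, ∑ k ∈ range (lam i + 1), S.comp i k w h lam • (S.lower ^ k) (h i) := by
  let P : V →ₗ[𝕜] V :=
    { toFun := fun w => ∑ i, ∑ k ∈ range (lam i + 1), S.comp i k w h lam • (S.lower ^ k) (h i)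
      map_add' := fun a b => by simp [comp, inner_add_right, add_div, add_smul, sum_add_distrib]
      map_smul' := fun c a => by
        simp [comp, inner_smul_right, mul_div_assoc, smul_smul, Finset.smul_sum] }
  let M : Submodule 𝕜 V := Submodule.span 𝕜 (Set.range fun p : κ × ℕ => (S.lower ^ p.2) (h p.1))
  have hM : S.Stable M := by
    refine ⟨fun x hx => ?_, fun x hx => ?_⟩
    · refine (Submodule.span_le (p := M.comap S.raise)).2 ?_ hx
      rintro _ ⟨⟨i, k⟩, rfl⟩
      show S.raise ((S.lower ^ k) (h i)) ∈ M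
      cases k with
      | zero => rw [pow_zero, Module.End.one_apply, (hf.hw i).1]; exact M.zero_mem
      | succ k =>
        rw [S.raise_pow (hf.hw i)]
        exact M.smul_mem _ (Submodule.subset_span ⟨(i, k), rfl⟩)
    · refine (Submodule.span_le (p := M.comap S.lower)).2 ?_ hx
      rintro _ ⟨⟨i, k⟩, rfl⟩
      exact Submodule.subset_span ⟨(i, k + 1), by simp only [pow_succ', Module.End.mul_apply]⟩
  have htop : M = ⊤ := S.eq_top_of_hw hM fun x l hx =>
    Submodule.span_mono (by rintro _ ⟨i, rfl⟩; exact ⟨(i, 0), by simp⟩) (hf.complete x l hx)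
  have hP : LinearMap.eqLocus P LinearMap.id = ⊤ := by
    rw [eq_top_iff, ← htop]
    refine Submodule.span_le.2 ?_
    rintro _ ⟨⟨i, k⟩, rfl⟩
    show P ((S.lower ^ k) (h i)) = (S.lower ^ k) (h i)
    show ∑ j, ∑ l ∈ range (lam j + 1), S.comp j l _ h lam • (S.lower ^ l) (h j) = _
    rw [Finset.sum_eq_single i (fun j _ hj => Finset.sum_eq_zero fun l _ => by
      simp [comp, S.inner_pow (hf.hw i) (hf.hw j), hf.orth j i hj]) (by simp)]
    by_cases hk : k ≤ lam i
    · rw [Finset.sum_eq_single k (fun l _ hl => by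
        simp [comp, S.inner_pow (hf.hw i) (hf.hw i), hl]) (fun hk' => absurd
          (mem_range.2 (by omega)) hk')]
      rw [comp, S.inner_pow (hf.hw i) (hf.hw i), if_pos rfl, inner_self_eq_norm_sq_to_K,
        ofReal_mul, ofReal_pow, div_self, one_smul]
      exact mul_ne_zero (ofReal_ne_zero.2 (normFac_pos hk).ne')
        (pow_ne_zero 2 (ofReal_ne_zero.2 (norm_ne_zero_iff.2 (hf.ne i))))
    · rw [S.lower_pow_eq_zero (hf.hw i) (not_le.1 hk)]
      simp [comp]
  have := LinearMap.mem_eqLocus.1 (hP ▸ Submodule.mem_top (x := w))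
  exact this.symm

/-- An invariant form is decided on the highest-weight vectors of a complete family. -/
theorem form_expand (hf : S.IsFamily h lam) {B : V →ₗ⋆[𝕜] V →ₗ[𝕜] 𝕜} (hB : S.Invariant B)
    (u w : V) : B u w = ∑ i, ∑ j, B (h i) (h j) * ∑ k ∈ range (lam i + 1),
      ⟪u, (S.lower ^ k) (h i)⟫_𝕜 * ⟪(S.lower ^ k) (h j), w⟫_𝕜 /
        ((normFac (lam i) k * (‖h i‖ ^ 2 * ‖h j‖ ^ 2) : ℝ) : 𝕜) := by
  conv_lhs => rw [S.resolution hf u, S.resolution hf w]
  simp only [map_sum, LinearMap.sum_apply, map_smulₛₗ, LinearMap.smul_apply, smul_eq_mul]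
  simp only [RingHom.id_apply, Finset.mul_sum]
  conv_rhs => rw [Finset.sum_comm]
  refine Finset.sum_congr rfl fun j _ => ?_
  rw [Finset.sum_comm]
  refine Finset.sum_congr rfl fun i _ => ?_
  by_cases hl : lam i = lam j
  · rw [hl]
    refine Finset.sum_congr rfl fun k hk => ?_
    rw [Finset.sum_eq_single k (fun l _ hlk => by
      simp [S.form_pow hB (hf.hw j) (hf.hw i), hlk]) (fun hk' => absurd hk hk'),
      S.form_pow hB (hf.hw j) (hf.hw i), if_pos rfl]
    have hn := (normFac_pos (n := lam j) (k := k) (by have := mem_range.1 hk; omega)).ne'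
    have hi : ‖h i‖ ≠ 0 := norm_ne_zero_iff.2 (hf.ne i)
    have hj : ‖h j‖ ≠ 0 := norm_ne_zero_iff.2 (hf.ne j)
    simp only [comp, map_div₀, conj_ofReal, inner_conj_symm, hl]
    push_cast
    have hn' : ((normFac (lam j) k : ℝ) : 𝕜) ≠ 0 := ofReal_ne_zero.2 hn
    have hi' : ((‖h i‖ : ℝ) : 𝕜) ≠ 0 := ofReal_ne_zero.2 hi
    have hj' : ((‖h j‖ : ℝ) : 𝕜) ≠ 0 := ofReal_ne_zero.2 hj
    field_simp
  · have hz : B (h i) (h j) = 0 := S.form_eq_zero_of_weight hB (hf.hw j).2 (hf.hw i).2
      (fun e => hl (by exact_mod_cast e))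
    simp only [hz, zero_mul, Finset.sum_const_zero]
    refine Finset.sum_eq_zero fun k _ => Finset.sum_eq_zero fun l _ => ?_
    rw [S.form_pow hB (hf.hw j) (hf.hw i)]
    simp [hz]

/-- Schur: with one multiplet per weight, an invariant form is a combination of the projections. -/
theorem form_expand_simple (hf : S.IsFamily h lam) (hlam : Function.Injective lam)
    {B : V →ₗ⋆[𝕜] V →ₗ[𝕜] 𝕜} (hB : S.Invariant B) (u w : V) :
    B u w = ∑ i, B (h i) (h i) / ((‖h i‖ ^ 2 : ℝ) : 𝕜) * ∑ k ∈ range (lam i + 1),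
      ⟪u, (S.lower ^ k) (h i)⟫_𝕜 * ⟪(S.lower ^ k) (h i), w⟫_𝕜 /
        ((normFac (lam i) k * ‖h i‖ ^ 2 : ℝ) : 𝕜) := by
  rw [S.form_expand hf hB]
  refine Finset.sum_congr rfl fun i _ => ?_
  rw [Finset.sum_eq_single i (fun j _ hj => ?_) (by simp)]
  · simp only [Finset.mul_sum, ofReal_mul]
    exact Finset.sum_congr rfl fun k _ => by ring
  · rw [S.form_eq_zero_of_weight hB (hf.hw j).2 (hf.hw i).2
      (fun e => hj (hlam (by exact_mod_cast e.symm))), zero_mul]

end Family

omit [FiniteDimensional 𝕜 V]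

section Average

variable {x : V} {n : ℕ}

/-- Reindexing along a multiplet. -/
lemma sum_shift (hx : S.IsHW x n) (f : V →ₗ⋆[𝕜] V →ₗ[𝕜] 𝕜) :
    ∑ k ∈ range (n + 1), f ((S.lower ^ k) x) (S.lower ((S.lower ^ k) x)) /
        (normFac (n : ℝ) k : 𝕜) =
      ∑ k ∈ range (n + 1), f (S.raise ((S.lower ^ k) x)) ((S.lower ^ k) x) /
        (normFac (n : ℝ) k : 𝕜) := by
  have e : ∀ k, S.lower ((S.lower ^ k) x) = (S.lower ^ (k + 1)) x := fun k => by
    rw [pow_succ', Module.End.mul_apply]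
  rw [Finset.sum_range_succ, e n, S.lower_pow_eq_zero hx (Nat.lt_succ_self n), map_zero, zero_div,
    add_zero, Finset.sum_range_succ' (fun k => f (S.raise ((S.lower ^ k) x)) ((S.lower ^ k) x) /
      (normFac (n : ℝ) k : 𝕜)), pow_zero, Module.End.one_apply, hx.1, map_zero,
    LinearMap.zero_apply, zero_div, add_zero]
  refine Finset.sum_congr rfl fun k hk => ?_
  have hkn := mem_range.1 hk
  have hc : (0 : ℝ) < ((k : ℝ) + 1) * ((n : ℝ) - k) :=
    mul_pos (by positivity) (sub_pos.2 (by exact_mod_cast hkn))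
  rw [e, S.raise_pow hx, map_smulₛₗ, LinearMap.smul_apply, conj_ofReal, smul_eq_mul,
    normFac_succ, ofReal_mul (((k : ℝ) + 1) * ((n : ℝ) - k)) (normFac (n : ℝ) k),
    mul_div_mul_left _ _ (ofReal_ne_zero.2 hc.ne')]

/-- The average of `X` over the multiplet of `x`. -/
noncomputable def avg (x : V) (n : ℕ) (X : Module.End 𝕜 V) : 𝕜 :=
  ∑ k ∈ range (n + 1),
    ⟪(S.lower ^ k) x, X ((S.lower ^ k) x)⟫_𝕜 / (normFac (n : ℝ) k : 𝕜)

lemma avg_add (X Y : Module.End 𝕜 V) : S.avg x n (X + Y) = S.avg x n X + S.avg x n Y := by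
  simp [avg, inner_add_right, add_div, sum_add_distrib]

lemma avg_smul (c : 𝕜) (X : Module.End 𝕜 V) : S.avg x n (c • X) = c * S.avg x n X := by
  simp [avg, inner_smul_right, Finset.mul_sum, mul_div_assoc]

/-- The average vanishes on commutators with the raising operator. -/
theorem avg_raise_comm (hx : S.IsHW x n) (X : Module.End 𝕜 V) :
    S.avg x n (S.raise * X) = S.avg x n (X * S.raise) := by
  simp only [avg, Module.End.mul_apply, ← S.adj']
  exact (Finset.sum_congr rfl fun k _ => by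
    rw [← inner_conj_symm _ (X _)]).trans <| by
    have h := congrArg (starRingEnd 𝕜) (S.sum_shift hx ((innerₛₗ 𝕜).comp X))
    simp only [map_sum, map_div₀, conj_ofReal, LinearMap.comp_apply, innerₛₗ_apply_apply,
      inner_conj_symm] at h ⊢
    exact h

/-- The average vanishes on commutators with the lowering operator. -/
theorem avg_lower_comm (hx : S.IsHW x n) (X : Module.End 𝕜 V) :
    S.avg x n (S.lower * X) = S.avg x n (X * S.lower) := by
  simp only [avg, Module.End.mul_apply, ← S.adj]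
  exact (S.sum_shift hx (((innerₛₗ 𝕜 (E := V))).compl₂ X)).symm

/-- An operator commuting with the representation has constant average. -/
theorem avg_of_comm (hx : S.IsHW x n) {X : Module.End 𝕜 V}
    (hE : ∀ v, X (S.raise v) = S.raise (X v)) (hF : ∀ v, X (S.lower v) = S.lower (X v)) :
    S.avg x n X = ((n : 𝕜) + 1) * ⟪x, X x⟫_𝕜 := by
  have hpow : ∀ k, X ((S.lower ^ k) x) = (S.lower ^ k) (X x) := by
    intro k
    induction k with
    | zero => simp
    | succ k ih => rw [pow_succ', Module.End.mul_apply, Module.End.mul_apply, hF, ih]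
  have hX : S.IsHW (X x) n := by
    refine ⟨by rw [← hE, hx.1, map_zero], ?_⟩
    rw [S.weight_apply, ← hF, ← hE, ← hE, ← hF, ← map_sub, ← S.weight_apply, hx.2, map_smul]
  rw [avg, Finset.sum_congr rfl fun k (hk : k ∈ range (n + 1)) => by
    rw [hpow, S.inner_pow hX hx, if_pos rfl, mul_div_cancel_left₀ _ (ofReal_ne_zero.2
      (normFac_pos (Nat.lt_succ_iff.1 (mem_range.1 hk))).ne')]]
  simp

/-- The average of a positive operator is nonnegative. -/
theorem avg_nonneg {X : Module.End 𝕜 V} (hX : ∀ v, 0 ≤ re ⟪v, X v⟫_𝕜) :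
    0 ≤ re (S.avg x n X) := by
  rw [avg, map_sum]
  refine Finset.sum_nonneg fun k hk => ?_
  rw [div_eq_inv_mul, ← ofReal_inv, re_ofReal_mul]
  exact mul_nonneg (inv_nonneg.2 (normFac_pos (Nat.lt_succ_iff.1 (mem_range.1 hk))).le) (hX _)

variable [NormedAddCommGroup W] [InnerProductSpace 𝕜 W] [AddCommGroup U] [Module 𝕜 U]

/-- The form `(u, w) ↦ Σ_k ⟪Ψ u v_k, Ψ w v_k⟫ / ‖v_k‖²` over the multiplet of `x`. -/
noncomputable def avgForm (x : V) (n : ℕ) (Ψ : U →ₗ[𝕜] V →ₗ[𝕜] W) : U →ₗ⋆[𝕜] U →ₗ[𝕜] 𝕜 :=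
  LinearMap.mk₂'ₛₗ (starRingEnd 𝕜) (RingHom.id 𝕜)
    (fun u w => ∑ k ∈ range (n + 1),
      ⟪Ψ u ((S.lower ^ k) x), Ψ w ((S.lower ^ k) x)⟫_𝕜 / (normFac (n : ℝ) k : 𝕜))
    (fun a b c => by simp [inner_add_left, add_div, sum_add_distrib])
    (fun r a c => by simp [inner_smul_left, Finset.mul_sum, mul_div_assoc])
    (fun a b c => by simp [inner_add_right, add_div, sum_add_distrib])
    (fun r a c => by simp [inner_smul_right, Finset.mul_sum, mul_div_assoc])

lemma avgForm_apply (Ψ : U →ₗ[𝕜] V →ₗ[𝕜] W) (u w : U) : S.avgForm x n Ψ u w =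
    ∑ k ∈ range (n + 1),
      ⟪Ψ u ((S.lower ^ k) x), Ψ w ((S.lower ^ k) x)⟫_𝕜 / (normFac (n : ℝ) k : 𝕜) := rfl

lemma avgForm_self_nonneg (Ψ : U →ₗ[𝕜] V →ₗ[𝕜] W) (u : U) :
    0 ≤ re (S.avgForm x n Ψ u u) := by
  rw [avgForm_apply, map_sum]
  refine Finset.sum_nonneg fun k hk => ?_
  rw [div_eq_inv_mul, ← ofReal_inv, re_ofReal_mul]
  exact mul_nonneg (inv_nonneg.2 (normFac_pos (Nat.lt_succ_iff.1 (mem_range.1 hk))).le)
    inner_self_nonneg

lemma avgForm_conj (Ψ : U →ₗ[𝕜] V →ₗ[𝕜] W) (u w : U) :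
    starRingEnd 𝕜 (S.avgForm x n Ψ u w) = S.avgForm x n Ψ w u := by
  simp [avgForm_apply, inner_conj_symm, conj_ofReal]

/-- A covariant family gives an invariant form: `A` and `A'` are the actions on `U` matching
raising and lowering. -/
theorem avgForm_invariant (hx : S.IsHW x n) (S' : Sl2 𝕜 W) (Ψ : U →ₗ[𝕜] V →ₗ[𝕜] W)
    (A A' : U →ₗ[𝕜] U) (hA : ∀ u v, S'.raise (Ψ u v) = Ψ (A u) v + Ψ u (S.raise v))
    (hA' : ∀ u v, S'.lower (Ψ u v) = Ψ (A' u) v + Ψ u (S.lower v)) (u w : U) :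
    S.avgForm x n Ψ (A u) w = S.avgForm x n Ψ u (A' w) ∧
      S.avgForm x n Ψ (A' u) w = S.avgForm x n Ψ u (A w) := by
  have key : ∀ u w, S.avgForm x n Ψ (A u) w = S.avgForm x n Ψ u (A' w) := by
    intro u w
    let g : V →ₗ⋆[𝕜] V →ₗ[𝕜] 𝕜 := ((innerₛₗ 𝕜 (E := W)).comp (Ψ u)).compl₂ (Ψ w)
    have hs := S.sum_shift hx g
    simp only [g, LinearMap.compl₂_apply, LinearMap.comp_apply, innerₛₗ_apply_apply] at hs
    have h1 : ∀ v, Ψ (A u) v = S'.raise (Ψ u v) - Ψ u (S.raise v) := fun v => by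
      rw [hA, add_sub_cancel_right]
    have h2 : ∀ v, Ψ (A' w) v = S'.lower (Ψ w v) - Ψ w (S.lower v) := fun v => by
      rw [hA', add_sub_cancel_right]
    simp only [avgForm_apply, h1, h2, inner_sub_left, inner_sub_right, S'.adj, sub_div,
      Finset.sum_sub_distrib, hs]
  refine ⟨key u w, ?_⟩
  rw [← S.avgForm_conj Ψ w, ← key, S.avgForm_conj]

end Average

end Sl2

end Vale.Agent.P359
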