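import Mathlib

/-!
# P359: checked level-two certificates

A block is a list of entries `(i, j, c + ∑ a x_p)`; it is positive at the moments `x` when its
quadratic form is. The multiplier of a block is `L Lᵀ`, given by the rows of `L`, so no test of
semidefiniteness is needed. `certVal` is the constant part plus the residual linear form weighted by
bounds on the moments. It bounds the objective (`obj_le`), and it is continuous in a parameter
(`eventually_obj_le`), so a value below `c` computed over `ℚ` at the limit suffices.
-/

open Filter
open scoped Topology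

namespace Vale.Agent.P359.Sos

variable {K K' : Type*}

/-- An entry of an affine matrix block: position, constant part, linear part. -/
structure Entry (K : Type*) where
  /-- row -/
  i : ℕ
  /-- column -/
  j : ℕ
  /-- constant part -/
  c : K
  /-- linear part: index and coefficient -/
  lin : List (ℕ × K)

/-- Finitely supported linear forms on `ℕ → K`, as a binary trie. -/
inductive Trie (K : Type*) where
  | leaf : Trie K
  | node : K → Trie K → Trie K → Trie K

section defs

variable [CommRing K]

/-- The value of the linear form at `x`. -/
def Trie.eval : Trie K → (ℕ → K) → K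
  | .leaf, _ => 0
  | .node v l r, x => v * x 0 + l.eval (fun k => x (2 * k + 1)) + r.eval (fun k => x (2 * k + 2))

/-- Root coefficient. -/
def Trie.val : Trie K → K
  | .leaf => 0
  | .node v _ _ => v

/-- Left branch. -/
def Trie.left : Trie K → Trie K
  | .leaf => .leaf
  | .node _ l _ => l

/-- Right branch. -/
def Trie.right : Trie K → Trie K
  | .leaf => .leaf
  | .node _ _ r => r

/-- Add `a x_p`; the first argument is fuel, at least `p + 1`. -/
def Trie.put : ℕ → ℕ → K → Trie K → Trie K
  | 0, _, _, t => t
  | f + 1, p, a, t =>
    if p = 0 then .node (t.val + a) t.left t.right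
    else if p % 2 = 1 then .node t.val (Trie.put f (p / 2) a t.left) t.right
    else .node t.val t.left (Trie.put f (p / 2 - 1) a t.right)

/-- Collect a list of terms. -/
def collect : List (ℕ × K) → Trie K
  | [] => .leaf
  | q :: l => Trie.put (q.1 + 1) q.1 q.2 (collect l)

/-- The product `∑ k a_k b_k`. -/
def dot : List K → List K → K
  | a :: l, b :: l' => a * b + dot l l'
  | _, _ => 0

/-- Entry `(i, j)` of `L Lᵀ`. -/
def weight (L : List (List K)) (e : Entry K) : K := dot (L.getD e.i []) (L.getD e.j [])

/-- The value of an affine entry at `x`. -/
def Entry.at (e : Entry K) (x : ℕ → K) : K := e.c + (e.lin.map fun q => q.2 * x q.1).sum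

/-- The quadratic form of a block. -/
def form (b : List (Entry K)) (x v : ℕ → K) : K :=
  (b.map fun e => v e.i * v e.j * e.at x).sum

/-- The constant part of the multiplied blocks. -/
def constPart (B : List (List (Entry K))) (Ls : List (List (List K))) : K :=
  ((B.zip Ls).map fun p => (p.1.map fun e => weight p.2 e * e.c).sum).sum

/-- The linear part of the multiplied blocks. -/
def linPart (B : List (List (Entry K))) (Ls : List (List (List K))) : List (ℕ × K) :=
  (B.zip Ls).flatMap fun p => p.1.flatMap fun e =>
    let w := weight p.2 e
    e.lin.map fun q => (q.1, w * q.2)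

/-- The residual: objective plus multiplied linear parts. -/
def resid (obj : List (ℕ × K)) (B : List (List (Entry K))) (Ls : List (List (List K))) : Trie K :=
  collect (obj ++ linPart B Ls)

variable [LinearOrder K]

/-- The absolute coefficients weighted by `bd`. -/
def Trie.tot : Trie K → (ℕ → K) → K
  | .leaf, _ => 0
  | .node v l r, bd => |v| * bd 0 + l.tot (fun k => bd (2 * k + 1)) + r.tot (fun k => bd (2 * k + 2))

/-- The certified bound. -/
def certVal (obj : List (ℕ × K)) (B : List (List (Entry K))) (Ls : List (List (List K))) (bd : ℕ → K) : K :=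
  constPart B Ls + (resid obj B Ls).tot bd

end defs

/-! ### soundness -/

section sound

variable [CommRing K]

lemma eval_node (v : K) (l r : Trie K) (x : ℕ → K) :
    (Trie.node v l r).eval x = v * x 0 + l.eval (fun k => x (2 * k + 1)) + r.eval (fun k => x (2 * k + 2)) := rfl

lemma eval_split (t : Trie K) (x : ℕ → K) :
    t.eval x = t.val * x 0 + t.left.eval (fun k => x (2 * k + 1)) + t.right.eval (fun k => x (2 * k + 2)) := by
  cases t <;> simp [Trie.eval, Trie.val, Trie.left, Trie.right]

lemma eval_put : ∀ (f p : ℕ) (a : K) (t : Trie K) (x : ℕ → K), p < f →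
    (Trie.put f p a t).eval x = t.eval x + a * x p := by
  intro f
  induction f with
  | zero => intro p a t x h; omega
  | succ f ih =>
    intro p a t x h
    rw [Trie.put, eval_split t x]
    split_ifs with h0 h1
    · subst h0; rw [eval_node]; ring
    · rw [eval_node, ih _ _ _ _ (by omega), show 2 * (p / 2) + 1 = p by omega]; ring
    · rw [eval_node, ih _ _ _ _ (by omega), show 2 * (p / 2 - 1) + 2 = p by omega]; ring

lemma eval_collect (l : List (ℕ × K)) (x : ℕ → K) :
    (collect l).eval x = (l.map fun q => q.2 * x q.1).sum := by
  induction l with
  | nil => rfl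
  | cons q l ih => rw [collect, eval_put _ _ _ _ _ (Nat.lt_succ_self _), ih, List.map_cons, List.sum_cons]; ring

lemma dot_split (a b : List K) : dot a b = a.headD 0 * b.headD 0 + dot a.tail b.tail := by
  cases a <;> cases b <;> simp [dot]

omit [CommRing K] in
lemma getD_map_tail (L : List (List K)) (i : ℕ) : (L.map List.tail).getD i [] = (L.getD i []).tail := by
  induction L generalizing i with
  | nil => rfl
  | cons a L ih => cases i with
    | zero => rfl
    | succ i => exact ih i

variable [LinearOrder K] [IsStrictOrderedRing K]

lemma weighted_nonneg {b : List (Entry K)} {x : ℕ → K} (hb : ∀ v, 0 ≤ form b x v) :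
    ∀ (m : ℕ) (L : List (List K)), (∀ i, (L.getD i []).length ≤ m) →
      0 ≤ (b.map fun e => weight L e * e.at x).sum := by
  intro m
  induction m with
  | zero =>
    intro L hL
    refine List.sum_nonneg fun y hy => ?_
    obtain ⟨e, -, rfl⟩ := List.mem_map.1 hy
    rw [weight, List.eq_nil_of_length_eq_zero (Nat.le_zero.1 (hL e.i))]
    simp [dot]
  | succ m ih =>
    intro L hL
    have h1 := hb fun i => (L.getD i []).headD 0
    have h2 := ih (L.map List.tail) fun i => by
      rw [getD_map_tail, List.length_tail]
      have := hL i
      omega
    refine (add_nonneg h1 h2).trans_eq ?_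
    rw [form, ← List.sum_map_add]
    refine congrArg List.sum (List.map_congr_left fun e _ => ?_)
    rw [weight, weight, getD_map_tail, getD_map_tail, dot_split (L.getD e.i [])]
    ring

lemma eval_le_tot : ∀ (t : Trie K) (x bd : ℕ → K), (∀ p, |x p| ≤ bd p) → t.eval x ≤ t.tot bd := by
  intro t
  induction t with
  | leaf => exact fun _ _ _ => le_rfl
  | node v l r ihl ihr =>
    intro x bd h
    refine add_le_add (add_le_add ((le_abs_self _).trans ?_) (ihl _ _ fun p => h _)) (ihr _ _ fun p => h _)
    rw [abs_mul]
    exact mul_le_mul_of_nonneg_left (h 0) (abs_nonneg v)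

/-- The objective is at most the certified value at every admissible moment vector. -/
theorem obj_le (obj : List (ℕ × K)) (B : List (List (Entry K))) (Ls : List (List (List K))) {x bd : ℕ → K}
    (hpos : ∀ b ∈ B, ∀ v, 0 ≤ form b x v) (hbd : ∀ p, |x p| ≤ bd p) :
    (obj.map fun q => q.2 * x q.1).sum ≤ certVal obj B Ls bd := by
  have h1 := eval_le_tot (resid obj B Ls) x bd hbd
  rw [resid, eval_collect, List.map_append, List.sum_append] at h1
  have key : ∀ (B : List (List (Entry K))) (Ls : List (List (List K))), (∀ b ∈ B, ∀ v, 0 ≤ form b x v) →
      0 ≤ constPart B Ls + ((linPart B Ls).map fun q => q.2 * x q.1).sum := by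
    intro B
    induction B with
    | nil => intro Ls _; simp [constPart, linPart]
    | cons b B ih =>
      intro Ls hB
      cases Ls with
      | nil => simp [constPart, linPart]
      | cons L Ls =>
        have h2 := weighted_nonneg (hB b (List.mem_cons_self ..)) ((L.map List.length).sum) L fun i => by
          rw [List.getD_eq_getElem?_getD]
          rcases h : L[i]? with _ | r
          · simp
          · exact List.le_sum_of_mem (List.mem_map.2 ⟨r, List.mem_of_getElem? h, rfl⟩)
        have h3 := ih Ls fun b' hb' => hB b' (List.mem_cons_of_mem _ hb')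
        refine (add_nonneg h2 h3).trans_eq ?_
        have e : ∀ b : List (Entry K), ((b.flatMap fun e => e.lin.map fun q => (q.1, weight L e * q.2)).map
            fun q => q.2 * x q.1).sum + (b.map fun e => weight L e * e.c).sum =
            (b.map fun e => weight L e * e.at x).sum := by
          intro b
          induction b with
          | nil => simp
          | cons f b ihb =>
            have hf : ((f.lin.map fun q => (q.1, weight L f * q.2)).map fun q => q.2 * x q.1).sum =
                weight L f * (f.lin.map fun q => q.2 * x q.1).sum := by
              rw [List.map_map, ← List.sum_map_mul_left]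
              refine congrArg List.sum (List.map_congr_left fun q _ => ?_)
              simp only [Function.comp_apply]; ring
            simp only [List.flatMap_cons, List.map_append, List.sum_append, List.map_cons, List.sum_cons]
            rw [hf, ← ihb, Entry.at]; ring
        simp only [constPart, linPart, List.zip_cons_cons, List.map_cons, List.sum_cons, List.flatMap_cons,
          List.map_append, List.sum_append, ← e b]
        ring
  have h4 := key B Ls hpos
  rw [certVal, resid]
  linarith

end sound

/-! ### change of coefficients and continuity -/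

/-- Map the coefficients of a block. -/
def Entry.map (f : K → K') (e : Entry K) : Entry K' := ⟨e.i, e.j, f e.c, e.lin.map (Prod.map id f)⟩

/-- Map the coefficients of a linear form. -/
def Trie.map (f : K → K') : Trie K → Trie K'
  | .leaf => .leaf
  | .node v l r => .node (f v) (l.map f) (r.map f)

/-- Map the coefficients of the blocks. -/
def mapBlocks (f : K → K') (B : List (List (Entry K))) : List (List (Entry K')) := B.map (List.map (Entry.map f))

/-- Map the multipliers. -/
def mapRows (f : K → K') (Ls : List (List (List K))) : List (List (List K')) := Ls.map (List.map (List.map f))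

section hom

variable [CommRing K] [CommRing K'] (f : K →+* K')

lemma map_put : ∀ (n p : ℕ) (a : K) (t : Trie K), (Trie.put n p a t).map f = Trie.put n p (f a) (t.map f) := by
  intro n
  induction n with
  | zero => exact fun _ _ _ => rfl
  | succ n ih =>
    intro p a t
    cases t <;> simp only [Trie.put, Trie.map, Trie.val, Trie.left, Trie.right] <;> split_ifs <;>
      simp [Trie.map, ih, map_add]

lemma map_collect (l : List (ℕ × K)) : (collect l).map f = collect (l.map (Prod.map id f)) := by
  induction l with
  | nil => rfl
  | cons q l ih => simp [collect, map_put, ih]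

lemma map_dot : ∀ a b : List K, f (dot a b) = dot (a.map f) (b.map f)
  | [], _ => by simp [dot]
  | _ :: _, [] => by simp [dot]
  | x :: a, y :: b => by simp [dot, map_dot a b]

lemma map_weight (L : List (List K)) (e : Entry K) :
    f (weight L e) = weight (L.map (List.map f)) (e.map f) := by
  have h : ∀ i, (L.getD i []).map f = (L.map (List.map f)).getD i [] := fun i => by
    simp only [List.getD_eq_getElem?_getD, List.getElem?_map]
    cases L[i]? <;> simp
  rw [weight, weight, map_dot, h, h]
  rfl

lemma map_constPart : ∀ (B : List (List (Entry K))) (Ls : List (List (List K))),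
    f (constPart B Ls) = constPart (mapBlocks f B) (mapRows f Ls)
  | [], _ => by simp [constPart, mapBlocks]
  | _ :: _, [] => by simp [constPart, mapBlocks, mapRows]
  | b :: B, L :: Ls => by
    have := map_constPart B Ls
    simp only [constPart, mapBlocks, mapRows, List.map_cons, List.zip_cons_cons, List.sum_cons, map_add] at this ⊢
    rw [this, map_list_sum]
    congr 2
    simp only [List.map_map]
    exact List.map_congr_left fun e _ => by simp [map_weight, Entry.map]

lemma map_linPart : ∀ (B : List (List (Entry K))) (Ls : List (List (List K))),
    (linPart B Ls).map (Prod.map id f) = linPart (mapBlocks f B) (mapRows f Ls)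
  | [], _ => by simp [linPart, mapBlocks]
  | _ :: _, [] => by simp [linPart, mapBlocks, mapRows]
  | b :: B, L :: Ls => by
    have := map_linPart B Ls
    simp only [linPart, mapBlocks, mapRows, List.map_cons, List.zip_cons_cons, List.flatMap_cons,
      List.map_append] at this ⊢
    rw [this]
    congr 1
    rw [List.map_flatMap, List.flatMap_map]
    exact List.flatMap_congr fun e _ => by simp [map_weight, Entry.map, Function.comp_def]

lemma map_resid (obj : List (ℕ × K)) (B : List (List (Entry K))) (Ls : List (List (List K))) :
    (resid obj B Ls).map f = resid (obj.map (Prod.map id f)) (mapBlocks f B) (mapRows f Ls) := by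
  rw [resid, map_collect, List.map_append, map_linPart, resid]

end hom

/-- The certified value commutes with `ℚ → ℝ`. -/
theorem certVal_cast (obj : List (ℕ × ℚ)) (B : List (List (Entry ℚ))) (Ls : List (List (List ℚ))) (bd : ℕ → ℚ) :
    ((certVal obj B Ls bd : ℚ) : ℝ) = certVal (obj.map (Prod.map id ((↑) : ℚ → ℝ))) (mapBlocks (↑) B)
      (mapRows (↑) Ls) fun p => (bd p : ℝ) := by
  have h : ∀ (t : Trie ℚ) (d : ℕ → ℚ), ((t.tot d : ℚ) : ℝ) = (t.map ((↑) : ℚ → ℝ)).tot fun p => (d p : ℝ) := by
    intro t
    induction t with
    | leaf => intro d; simp [Trie.tot, Trie.map]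
    | node v l r ihl ihr => intro d; simp [Trie.tot, Trie.map, ihl, ihr]
  rw [certVal, certVal, Rat.cast_add, h]
  congr 1
  · exact map_constPart (Rat.castHom ℝ) B Ls
  · exact congrArg (fun t : Trie ℝ => t.tot fun p => (bd p : ℝ)) (map_resid (Rat.castHom ℝ) obj B Ls)

variable {T : Type*} [TopologicalSpace T]

/-- Real functions continuous at `t₀`. -/
def contRing (t₀ : T) : Subring (T → ℝ) where
  carrier := {φ | ContinuousAt φ t₀}
  zero_mem' := continuousAt_const
  one_mem' := continuousAt_const
  add_mem' ha hb := ContinuousAt.add ha hb
  mul_mem' ha hb := ContinuousAt.mul ha hb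
  neg_mem' ha := ContinuousAt.neg ha

/-- Evaluation at `t`. -/
def evalAt {t₀ : T} (t : T) : contRing t₀ →+* ℝ := (Pi.evalRingHom _ t).comp (contRing t₀).subtype

lemma tot_cont {t₀ : T} : ∀ (u : Trie (contRing t₀)) (bd : ℕ → ℝ),
    ContinuousAt (fun t => (u.map (evalAt t)).tot bd) t₀ := by
  intro u
  induction u with
  | leaf => intro bd; exact continuousAt_const
  | node v l r ihl ihr => exact fun bd => ((v.2.abs.mul continuousAt_const).add (ihl _)).add (ihr _)

/-- If the value at `t₀` is below `c`, then near `t₀` the objective is at most `c`. -/
theorem eventually_obj_le {t₀ : T} (obj : List (ℕ × contRing t₀)) (B : List (List (Entry (contRing t₀))))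
    (Ls : List (List (List (contRing t₀)))) (bd : ℕ → ℝ) {c : ℝ}
    (h : certVal (obj.map (Prod.map id (evalAt t₀))) (mapBlocks (evalAt t₀) B) (mapRows (evalAt t₀) Ls) bd < c) :
    ∀ᶠ t in 𝓝 t₀, ∀ x : ℕ → ℝ, (∀ p, |x p| ≤ bd p) → (∀ b ∈ mapBlocks (evalAt t) B, ∀ v, 0 ≤ form b x v) →
      ((obj.map (Prod.map id (evalAt t))).map fun q => q.2 * x q.1).sum ≤ c := by
  have hc : ContinuousAt (fun t => certVal (obj.map (Prod.map id (evalAt t))) (mapBlocks (evalAt t) B)
      (mapRows (evalAt t) Ls) bd) t₀ := by
    simp only [certVal, ← map_constPart, ← map_resid]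
    exact (constPart B Ls).2.add (tot_cont _ bd)
  filter_upwards [hc.eventually_lt_const h] with t ht x hx hpos
  exact (obj_le _ _ _ hpos hx).trans ht.le

end Vale.Agent.P359.Sos
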