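import Mathlib
import Vale.Agent.P359.Chan

/-!
Rotated monomial bases of the homogeneous polynomials of degree `P`, and an exact averaging
rule on the unit sphere of `ℂ²` (finitely many phases times a Beta integral).
-/

open Finset
open scoped ComplexConjugate

namespace Vale.Agent.P359

theorem coeff_zero_of_eval {N : ℕ} {a : ℕ → ℂ} (h : ∀ x : ℂ, ∑ k ∈ range N, a k * x ^ k = 0) :
    ∀ k < N, a k = 0 := by
  intro k hk
  have hp : (∑ m ∈ range N, Polynomial.C (a m) * Polynomial.X ^ m) = 0 := by
    apply Polynomial.funext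
    intro x
    simp [Polynomial.eval_finsetSum, h x]
  have := congrArg (fun p => Polynomial.coeff p k) hp
  simpa [Polynomial.finsetSum_coeff, Polynomial.coeff_C_mul_X_pow, hk] using this

theorem coeff_eq_of_eval {N : ℕ} {a b : ℕ → ℂ}
    (h : ∀ x : ℂ, ∑ k ∈ range N, a k * x ^ k = ∑ k ∈ range N, b k * x ^ k) :
    ∀ k < N, a k = b k := by
  intro k hk
  refine sub_eq_zero.1 (coeff_zero_of_eval (a := fun k => a k - b k) (fun x => ?_) k hk)
  simp only [sub_mul, sum_sub_distrib, h x, sub_self]

theorem coeff₂_eq_of_eval {N K : ℕ} {a b : ℕ → ℕ → ℂ}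
    (h : ∀ x y : ℂ, ∑ k ∈ range N, ∑ l ∈ range K, a k l * x ^ k * y ^ l =
      ∑ k ∈ range N, ∑ l ∈ range K, b k l * x ^ k * y ^ l) :
    ∀ k < N, ∀ l < K, a k l = b k l := by
  intro k hk
  apply coeff_eq_of_eval
  intro y
  refine coeff_eq_of_eval (N := N) (a := fun k => ∑ l ∈ range K, a k l * y ^ l)
    (b := fun k => ∑ l ∈ range K, b k l * y ^ l) (fun x => ?_) k hk
  simpa only [sum_mul, mul_right_comm] using h x y

/-- Coefficient `i` of `(a + b X)^(P-k) (c + e X)^k`. -/
noncomputable def pc (P : ℕ) (a b c e : ℂ) (k i : ℕ) : ℂ :=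
  ((Polynomial.C b * Polynomial.X + Polynomial.C a) ^ (P - k) *
    (Polynomial.C e * Polynomial.X + Polynomial.C c) ^ k).coeff i

theorem pc_eval {P k : ℕ} (hk : k ≤ P) (a b c e x : ℂ) :
    ∑ i ∈ range (P + 1), pc P a b c e k i * x ^ i = (a + b * x) ^ (P - k) * (c + e * x) ^ k := by
  unfold pc
  rw [← Polynomial.eval_eq_sum_range']
  · simp [add_comm]
  · have h1 := Polynomial.natDegree_pow_le_of_le (P - k)
      (Polynomial.natDegree_linear_le (a := b) (b := a))
    have h2 := Polynomial.natDegree_pow_le_of_le k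
      (Polynomial.natDegree_linear_le (a := e) (b := c))
    have h3 := Polynomial.natDegree_mul_le
      (p := (Polynomial.C b * Polynomial.X + Polynomial.C a) ^ (P - k))
      (q := (Polynomial.C e * Polynomial.X + Polynomial.C c) ^ k)
    omega

theorem pc_gen (P : ℕ) (a b c e lam : ℂ) {i : ℕ} (hi : i < P + 1) :
    ∑ k ∈ range (P + 1), (P.choose k : ℂ) * lam ^ k * pc P a b c e k i =
      (P.choose i : ℂ) * (b + lam * e) ^ i * (a + lam * c) ^ (P - i) := by
  refine coeff_eq_of_eval (a := fun i => ∑ k ∈ range (P + 1),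
    (P.choose k : ℂ) * lam ^ k * pc P a b c e k i)
    (b := fun i => (P.choose i : ℂ) * (b + lam * e) ^ i * (a + lam * c) ^ (P - i))
    (fun x => ?_) i hi
  calc ∑ i ∈ range (P + 1), (∑ k ∈ range (P + 1), (P.choose k : ℂ) * lam ^ k * pc P a b c e k i)
        * x ^ i
      = ∑ k ∈ range (P + 1), (P.choose k : ℂ) * lam ^ k *
          ((a + b * x) ^ (P - k) * (c + e * x) ^ k) := by
        simp only [sum_mul]
        rw [sum_comm]
        refine sum_congr rfl fun k hk => ?_
        rw [← pc_eval (Nat.le_of_lt_succ (mem_range.1 hk)), mul_sum]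
        simp only [mul_assoc]
    _ = (lam * (c + e * x) + (a + b * x)) ^ P := by
        rw [add_pow]
        refine sum_congr rfl fun k _ => ?_
        simp only [mul_pow]
        ring
    _ = ((b + lam * e) * x + (a + lam * c)) ^ P := by ring
    _ = _ := by
        rw [add_pow]
        refine sum_congr rfl fun k _ => ?_
        simp only [mul_pow]
        ring

/-- The rotated monomials are orthogonal for the invariant inner product. -/
theorem pc_orth {P : ℕ} {a b c e a' b' c' e' : ℂ} (h1 : a * a' + b * b' = 1)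
    (h2 : c * c' + e * e' = 1) (h3 : a * c' + b * e' = 0) (h4 : c * a' + e * b' = 0) :
    ∀ k < P + 1, ∀ l < P + 1,
      ∑ i ∈ range (P + 1), pc P a b c e k i * pc P a' b' c' e' l i / (P.choose i : ℂ) =
        if k = l then 1 / (P.choose k : ℂ) else 0 := by
  intro k hk l hl
  have h := coeff₂_eq_of_eval (N := P + 1) (K := P + 1)
    (a := fun k l => (P.choose k : ℂ) * (P.choose l : ℂ) *
      ∑ i ∈ range (P + 1), pc P a b c e k i * pc P a' b' c' e' l i / (P.choose i : ℂ))
    (b := fun k l => if k = l then (P.choose k : ℂ) else 0) ?_ k hk l hl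
  · have hk0 : (P.choose k : ℂ) ≠ 0 := by
      exact_mod_cast (Nat.choose_pos (Nat.le_of_lt_succ hk)).ne'
    have hl0 : (P.choose l : ℂ) ≠ 0 := by
      exact_mod_cast (Nat.choose_pos (Nat.le_of_lt_succ hl)).ne'
    apply mul_left_cancel₀ (mul_ne_zero hk0 hl0)
    rw [h]
    split_ifs with hkl
    · subst hkl; field_simp
    · simp
  intro x y
  calc ∑ k ∈ range (P + 1), ∑ l ∈ range (P + 1), (P.choose k : ℂ) * (P.choose l : ℂ) *
        (∑ i ∈ range (P + 1), pc P a b c e k i * pc P a' b' c' e' l i / (P.choose i : ℂ))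
        * x ^ k * y ^ l
      = ∑ i ∈ range (P + 1), (∑ k ∈ range (P + 1), (P.choose k : ℂ) * x ^ k * pc P a b c e k i) *
          (∑ l ∈ range (P + 1), (P.choose l : ℂ) * y ^ l * pc P a' b' c' e' l i) /
            (P.choose i : ℂ) := by
        simp only [mul_sum, sum_mul, sum_div]
        rw [sum_comm_cycle]
        refine sum_congr rfl fun i _ => ?_
        rw [sum_comm]
        refine sum_congr rfl fun k _ => sum_congr rfl fun l _ => ?_
        ring
    _ = ∑ i ∈ range (P + 1), ((b + x * e) * (b' + y * e')) ^ i *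
          ((a + x * c) * (a' + y * c')) ^ (P - i) * (P.choose i : ℂ) := by
        refine sum_congr rfl fun i hi => ?_
        rw [pc_gen P a b c e x (mem_range.1 hi), pc_gen P a' b' c' e' y (mem_range.1 hi)]
        have : (P.choose i : ℂ) ≠ 0 := by
          exact_mod_cast (Nat.choose_pos (Nat.le_of_lt_succ (mem_range.1 hi))).ne'
        simp only [mul_pow]
        field_simp
    _ = (x * y + 1) ^ P := by
        rw [← add_pow]
        congr 1
        linear_combination h1 + x * y * h2 + y * h3 + x * h4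
    _ = _ := by
        rw [add_pow]
        refine sum_congr rfl fun k hk => ?_
        rw [sum_eq_single_of_mem k hk]
        · simp [mul_pow]; ring
        · intro l _ hl
          simp [Ne.symm hl]

theorem conj_pc {P k i : ℕ} (hk : k ≤ P) (hi : i < P + 1) (a b c e : ℂ) :
    conj (pc P a b c e k i) = pc P (conj a) (conj b) (conj c) (conj e) k i := by
  refine coeff_eq_of_eval (a := fun i => conj (pc P a b c e k i))
    (b := fun i => pc P (conj a) (conj b) (conj c) (conj e) k i) (fun x => ?_) i hi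
  rw [pc_eval hk]
  have h := congrArg conj (pc_eval hk a b c e (conj x))
  simpa using h

theorem linear_pow_coeff (a b : ℂ) (m j : ℕ) :
    ((Polynomial.C b * Polynomial.X + Polynomial.C a) ^ m).coeff j =
      if j ∈ range (m + 1) then b ^ j * a ^ (m - j) * (m.choose j : ℂ) else 0 := by
  have h : (Polynomial.C b * Polynomial.X + Polynomial.C a) ^ m =
      ∑ k ∈ range (m + 1),
        Polynomial.C (b ^ k * a ^ (m - k) * (m.choose k : ℂ)) * Polynomial.X ^ k := by
    rw [add_pow]
    refine sum_congr rfl fun k _ => ?_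
    simp only [map_mul, map_pow, map_natCast, mul_pow]
    ring
  rw [h, Polynomial.finsetSum_coeff]
  simp only [Polynomial.coeff_C_mul_X_pow, sum_ite_eq]

theorem continuous_pc (P k i : ℕ) {Y : Type*} [TopologicalSpace Y]
    {a b c e : Y → ℂ} (ha : Continuous a) (hb : Continuous b) (hc : Continuous c)
    (he : Continuous e) : Continuous fun z => pc P (a z) (b z) (c z) (e z) k i := by
  simp only [pc, Polynomial.coeff_mul, linear_pow_coeff]
  refine continuous_finset_sum _ fun p _ => Continuous.mul ?_ ?_ <;>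
    (split_ifs <;> fun_prop)

/-- The averaging nodes: phase `l` of `L`, height `t`. -/
noncomputable def node (L l : ℕ) (t : ℝ) : ℂ × ℂ :=
  ((Real.sqrt t : ℂ),
    (Real.sqrt (1 - t) : ℂ) * Complex.exp (2 * Real.pi * Complex.I / L) ^ l)

/-- The average of a complex function over the nodes. -/
noncomputable def avg (L : ℕ) (F : ℂ × ℂ → ℂ) : ℂ :=
  (L : ℂ)⁻¹ * ∑ l ∈ range L, ∫ t in (0 : ℝ)..1, F (node L l t)

/-- The average of a real function over the nodes. -/
noncomputable def avgR (L : ℕ) (F : ℂ × ℂ → ℝ) : ℝ :=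
  (L : ℝ)⁻¹ * ∑ l ∈ range L, ∫ t in (0 : ℝ)..1, F (node L l t)

theorem continuous_node (L l : ℕ) : Continuous (node L l) := by
  unfold node
  fun_prop

theorem norm_phase (L l : ℕ) : ‖Complex.exp (2 * Real.pi * Complex.I / L) ^ l‖ = 1 := by
  rw [norm_pow, Complex.norm_exp]
  simp [Complex.div_re]

theorem node_sphere (L l : ℕ) {t : ℝ} (ht : t ∈ Set.Icc (0 : ℝ) 1) :
    (node L l t).1 * conj (node L l t).1 + (node L l t).2 * conj (node L l t).2 = 1 := by
  simp only [node, Complex.mul_conj, Complex.normSq_eq_norm_sq, norm_mul, norm_phase,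
    Complex.norm_real, Real.norm_eq_abs, mul_one, sq_abs]
  rw [Real.sq_sqrt ht.1, Real.sq_sqrt (by linarith [ht.2])]
  push_cast
  ring

theorem avg_congr {L : ℕ} {F G : ℂ × ℂ → ℂ}
    (h : ∀ z : ℂ × ℂ, z.1 * conj z.1 + z.2 * conj z.2 = 1 → F z = G z) : avg L F = avg L G := by
  unfold avg
  congr 1
  refine sum_congr rfl fun l _ => intervalIntegral.integral_congr fun t ht => ?_
  rw [Set.uIcc_of_le zero_le_one] at ht
  exact h _ (node_sphere L l ht)

theorem avg_const_mul (L : ℕ) (c : ℂ) (F : ℂ × ℂ → ℂ) :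
    avg L (fun z => c * F z) = c * avg L F := by
  simp [avg, intervalIntegral.integral_const_mul, ← mul_sum]
  ring

theorem avg_sum {ι : Type*} (L : ℕ) (s : Finset ι) (F : ι → ℂ × ℂ → ℂ)
    (hF : ∀ i ∈ s, Continuous (F i)) :
    avg L (fun z => ∑ i ∈ s, F i z) = ∑ i ∈ s, avg L (F i) := by
  unfold avg
  rw [← mul_sum]
  congr 1
  rw [sum_comm]
  refine sum_congr rfl fun l _ => ?_
  exact intervalIntegral.integral_finsetSum
    fun i hi => ((hF i hi).comp (continuous_node L l)).intervalIntegrable _ _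

theorem avg_ofReal (L : ℕ) (F : ℂ × ℂ → ℝ) :
    avg L (fun z => (F z : ℂ)) = (avgR L F : ℂ) := by
  unfold avg avgR
  simp [intervalIntegral.integral_ofReal]

theorem avgR_mono (L : ℕ) {F G : ℂ × ℂ → ℝ} (hF : Continuous F) (hG : Continuous G)
    (h : ∀ z : ℂ × ℂ, z.1 * conj z.1 + z.2 * conj z.2 = 1 → F z ≤ G z) :
    avgR L F ≤ avgR L G := by
  unfold avgR
  refine mul_le_mul_of_nonneg_left (sum_le_sum fun l _ => ?_) (by positivity)
  exact intervalIntegral.integral_mono_on zero_le_one
    ((hF.comp (continuous_node L l)).intervalIntegrable _ _)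
    ((hG.comp (continuous_node L l)).intervalIntegrable _ _)
    fun t ht => h _ (node_sphere L l ht)

theorem beta_int (a b : ℕ) :
    ∫ t in (0 : ℝ)..1, t ^ a * (1 - t) ^ b =
      (a.factorial : ℝ) * (b.factorial : ℝ) / ((a + b + 1).factorial : ℝ) := by
  induction b generalizing a with
  | zero =>
    rw [Nat.add_zero, Nat.factorial_succ]
    have : (a.factorial : ℝ) ≠ 0 := by positivity
    simp only [pow_zero, mul_one, integral_pow]
    push_cast
    field_simp
    simp
  | succ b ih =>
    have hd : ∀ t : ℝ, HasDerivAt (fun t : ℝ => t ^ (a + 1) * (1 - t) ^ (b + 1))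
        (((a : ℝ) + 1) * (t ^ a * (1 - t) ^ (b + 1))
          - ((b : ℝ) + 1) * (t ^ (a + 1) * (1 - t) ^ b)) t := by
      intro t
      have h1 := hasDerivAt_pow (a + 1) t
      have h2 := ((hasDerivAt_id t).const_sub 1).pow (b + 1)
      refine (h1.mul h2).congr_deriv ?_
      simp
      ring
    have hI := intervalIntegral.integral_eq_sub_of_hasDerivAt (a := (0 : ℝ)) (b := 1)
      (fun t _ => hd t) ((Continuous.intervalIntegrable (by fun_prop) _ _))
    rw [intervalIntegral.integral_sub (Continuous.intervalIntegrable (by fun_prop) _ _)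
      (Continuous.intervalIntegrable (by fun_prop) _ _), intervalIntegral.integral_const_mul,
      intervalIntegral.integral_const_mul, ih (a + 1)] at hI
    simp only [one_pow, sub_self, zero_pow (Nat.succ_ne_zero _), mul_zero, zero_mul] at hI
    rw [show a + (b + 1) + 1 = a + 1 + b + 1 by ring]
    rw [Nat.factorial_succ a, Nat.cast_mul] at hI
    rw [Nat.factorial_succ b, Nat.cast_mul]
    push_cast at hI ⊢
    have : ((a : ℝ) + 1) ≠ 0 := by positivity
    have : ((a + 1 + b + 1).factorial : ℝ) ≠ 0 := by positivity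
    apply mul_left_cancel₀ (show ((a : ℝ) + 1) ≠ 0 by positivity)
    rw [sub_eq_zero.1 hI]
    ring

theorem phase_sum {L M M' : ℕ} (hM : M < L) (hM' : M' < L) :
    ∑ l ∈ range L, conj ((Complex.exp (2 * Real.pi * Complex.I / L) ^ l) ^ M) *
      (Complex.exp (2 * Real.pi * Complex.I / L) ^ l) ^ M' =
        if M = M' then (L : ℂ) else 0 := by
  have key : ∀ A B, A ≤ B → B < L →
      ∑ l ∈ range L, conj ((Complex.exp (2 * Real.pi * Complex.I / L) ^ l) ^ A) *
        (Complex.exp (2 * Real.pi * Complex.I / L) ^ l) ^ B = if A = B then (L : ℂ) else 0 := by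
    intro A B hAB hB
    set ζ := Complex.exp (2 * Real.pi * Complex.I / L)
    have hp : IsPrimitiveRoot ζ L := Complex.isPrimitiveRoot_exp L (by omega)
    have hone : ∀ l, conj ((ζ ^ l) ^ A) * (ζ ^ l) ^ A = 1 := fun l => by
      rw [mul_comm, Complex.mul_conj, Complex.normSq_eq_norm_sq, norm_pow, norm_phase]
      simp
    have hterm : ∀ l, conj ((ζ ^ l) ^ A) * (ζ ^ l) ^ B = (ζ ^ (B - A)) ^ l := fun l => by
      calc conj ((ζ ^ l) ^ A) * (ζ ^ l) ^ B
          = conj ((ζ ^ l) ^ A) * (ζ ^ l) ^ A * (ζ ^ l) ^ (B - A) := by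
            rw [mul_assoc, ← pow_add, Nat.add_sub_cancel' hAB]
        _ = _ := by rw [hone, one_mul, ← pow_mul, ← pow_mul, mul_comm]
    simp only [hterm]
    split_ifs with h
    · simp [h]
    · have hne : ζ ^ (B - A) ≠ 1 := hp.pow_ne_one_of_pos_of_lt (by omega) (by omega)
      have hL : (ζ ^ (B - A)) ^ L = 1 := by
        rw [← pow_mul, mul_comm, pow_mul, hp.pow_eq_one, one_pow]
      rw [geom_sum_eq hne, hL, sub_self, zero_div]
  rcases le_total M M' with h | h
  · exact key M M' h hM'
  · have := congrArg conj (key M' M h hM)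
    rw [map_sum] at this
    simp only [map_mul, RingHomCompTriple.comp_apply, RingHom.id_apply] at this
    rw [show (if M = M' then (L : ℂ) else 0) = conj (if M' = M then (L : ℂ) else 0) by
      simp [eq_comm, apply_ite conj]]
    rw [← this]
    exact sum_congr rfl fun l _ => mul_comm _ _

/-- The moments of the averaging rule. -/
theorem avg_moment {L S M M' : ℕ} (hL : S < L) (hM : M ≤ S) (hM' : M' ≤ S) :
    avg L (fun z => conj (z.1 ^ (S - M) * z.2 ^ M) * (z.1 ^ (S - M') * z.2 ^ M')) =
      if M = M' then 1 / (((S : ℂ) + 1) * (S.choose M : ℂ)) else 0 := by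
  set ζ := Complex.exp (2 * Real.pi * Complex.I / L) with hζ
  have hterm : ∀ l, (∫ t in (0 : ℝ)..1,
      conj ((node L l t).1 ^ (S - M) * (node L l t).2 ^ M) *
        ((node L l t).1 ^ (S - M') * (node L l t).2 ^ M')) =
      conj ((ζ ^ l) ^ M) * (ζ ^ l) ^ M' * ∫ t in (0 : ℝ)..1,
        ((Real.sqrt t ^ (S - M + (S - M')) * Real.sqrt (1 - t) ^ (M + M') : ℝ) : ℂ) := by
    intro l
    rw [← intervalIntegral.integral_const_mul]
    refine intervalIntegral.integral_congr fun t _ => ?_
    simp only [node, ← hζ, mul_pow, map_mul, map_pow, Complex.conj_ofReal]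
    push_cast
    ring
  unfold avg
  simp only [hterm, ← sum_mul]
  rw [phase_sum (by omega) (by omega)]
  split_ifs with h
  · subst h
    have hreal : ∫ t in (0 : ℝ)..1,
        ((Real.sqrt t ^ (S - M + (S - M)) * Real.sqrt (1 - t) ^ (M + M) : ℝ) : ℂ) =
        ((∫ t in (0 : ℝ)..1, t ^ (S - M) * (1 - t) ^ M : ℝ) : ℂ) := by
      rw [← intervalIntegral.integral_ofReal]
      refine intervalIntegral.integral_congr fun t ht => ?_
      rw [Set.uIcc_of_le zero_le_one] at ht
      norm_num only [← two_mul, pow_mul, Real.sq_sqrt ht.1,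
        Real.sq_sqrt (show (0 : ℝ) ≤ 1 - t by linarith [ht.2])]
    rw [hreal, beta_int, Nat.sub_add_cancel hM, Nat.factorial_succ,
      Nat.cast_choose ℂ hM]
    have hL0 : (L : ℂ) ≠ 0 := by
      exact_mod_cast (show L ≠ 0 by omega)
    have : ((S : ℂ) + 1) ≠ 0 := by exact_mod_cast Nat.succ_ne_zero S
    have : (S.factorial : ℂ) ≠ 0 := by exact_mod_cast S.factorial_ne_zero
    push_cast
    field_simp
  · simp

end Vale.Agent.P359
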