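import Mathlib
import Vale.Agent.P359.Car
import Vale.Agent.P359.Twirl

/-!
The coherent-state bound of one channel form, uniform in the flux, and the resulting bound
on all odd channels from a given one on.
-/

open Finset
open scoped ComplexConjugate InnerProductSpace

namespace Vale.Agent.P359

/-- The rotated orthonormal basis vector `k` of degree `P`, coefficient `i`. -/
noncomputable def rotv (P k i : ℕ) (z : ℂ × ℂ) : ℂ :=
  pc P z.1 z.2 (-conj z.2) (conj z.1) k i *
    ((Real.sqrt (P.choose k) : ℂ) / (Real.sqrt (P.choose i) : ℂ))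

theorem sqrt_choose_pos {P i : ℕ} (h : i ≤ P) : 0 < Real.sqrt (P.choose i) :=
  Real.sqrt_pos.2 (by exact_mod_cast Nat.choose_pos h)

theorem conj_mul_rotv {P k i i' : ℕ} (hk : k ≤ P) (hi : i ≤ P) (z : ℂ × ℂ) :
    conj (rotv P k i z) * rotv P k i' z =
      pc P (conj z.1) (conj z.2) (-z.2) z.1 k i * pc P z.1 z.2 (-conj z.2) (conj z.1) k i' *
        ((P.choose k : ℂ) / ((Real.sqrt (P.choose i) : ℂ) * (Real.sqrt (P.choose i') : ℂ))) := by
  have h : (Real.sqrt (P.choose k) : ℂ) * (Real.sqrt (P.choose k) : ℂ) = (P.choose k : ℂ) := by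
    rw [← Complex.ofReal_mul, Real.mul_self_sqrt (Nat.cast_nonneg _), Complex.ofReal_natCast]
  simp only [rotv, map_mul, map_div₀, Complex.conj_ofReal, conj_pc hk (Nat.lt_succ_of_le hi),
    map_neg, Complex.conj_conj]
  rw [← h]
  ring

theorem continuous_rotv (P k i : ℕ) : Continuous (rotv P k i) := by
  unfold rotv
  exact (continuous_pc P k i (by fun_prop) (by fun_prop) (by fun_prop) (by fun_prop)).mul
    continuous_const

theorem rotv_unit {P k : ℕ} (hk : k ≤ P) {z : ℂ × ℂ}
    (hz : z.1 * conj z.1 + z.2 * conj z.2 = 1) :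
    ∑ i ∈ range (P + 1), ‖rotv P k i z‖ ^ 2 = 1 := by
  have h := pc_orth (P := P) (a := conj z.1) (b := conj z.2) (c := -z.2) (e := z.1)
    (a' := z.1) (b' := z.2) (c' := -conj z.2) (e' := conj z.1)
    (by linear_combination hz) (by linear_combination hz) (by ring) (by ring)
    k (Nat.lt_succ_of_le hk) k (Nat.lt_succ_of_le hk)
  rw [if_pos rfl] at h
  have hk0 : (P.choose k : ℂ) ≠ 0 := by exact_mod_cast (Nat.choose_pos hk).ne'
  apply Complex.ofReal_injective
  calc ((∑ i ∈ range (P + 1), ‖rotv P k i z‖ ^ 2 : ℝ) : ℂ)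
      = ∑ i ∈ range (P + 1), conj (rotv P k i z) * rotv P k i z := by
        push_cast
        refine sum_congr rfl fun i _ => ?_
        rw [Complex.conj_mul']
    _ = (P.choose k : ℂ) * ∑ i ∈ range (P + 1),
          pc P (conj z.1) (conj z.2) (-z.2) z.1 k i * pc P z.1 z.2 (-conj z.2) (conj z.1) k i /
            (P.choose i : ℂ) := by
        rw [mul_sum]
        refine sum_congr rfl fun i hi => ?_
        rw [conj_mul_rotv hk (Nat.le_of_lt_succ (mem_range.1 hi)), ← Complex.ofReal_mul,
          Real.mul_self_sqrt (Nat.cast_nonneg _), Complex.ofReal_natCast]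
        ring
    _ = ((1 : ℝ) : ℂ) := by rw [h]; field_simp; simp

theorem choose_geom (P : ℕ) (s : ℂ) :
    ∑ l ∈ range (P + 1), ((P + 1).choose (l + 1) : ℂ) * (1 - s) ^ l * s ^ (P - l) =
      ∑ k ∈ range (P + 1), s ^ k := by
  by_cases hs : s = 1
  · subst hs
    rw [sum_range_succ']
    simp
  · apply mul_right_cancel₀ (sub_ne_zero.2 (Ne.symm hs))
    rw [geom_sum_mul_neg, sum_mul]
    have h := add_pow (1 - s) s (P + 1)
    rw [sub_add_cancel, one_pow, sum_range_succ'] at h
    simp at h
    rw [eq_sub_iff_add_eq]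
    conv_rhs => rw [h]
    congr 1
    refine sum_congr rfl fun l _ => ?_
    ring

theorem avg_pow {L l : ℕ} (hl : l < L) (x y : ℂ) :
    avg L (fun z => ((conj z.1 + conj z.2 * x) * (z.1 + z.2 * y)) ^ l) =
      (1 + x * y) ^ l / ((l : ℂ) + 1) := by
  have he : ∀ z : ℂ × ℂ, ((conj z.1 + conj z.2 * x) * (z.1 + z.2 * y)) ^ l =
      ∑ a ∈ range (l + 1), ∑ b ∈ range (l + 1),
        ((l.choose a : ℂ) * x ^ a * ((l.choose b : ℂ) * y ^ b)) *
          (conj (z.1 ^ (l - a) * z.2 ^ a) * (z.1 ^ (l - b) * z.2 ^ b)) := by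
    intro z
    rw [mul_pow, add_comm (conj z.1), add_comm z.1, add_pow, add_pow, sum_mul_sum]
    refine sum_congr rfl fun a _ => sum_congr rfl fun b _ => ?_
    simp only [map_mul, map_pow, mul_pow]
    ring
  simp only [he]
  rw [avg_sum _ _ _ (fun a _ => by fun_prop)]
  rw [show (1 + x * y) = x * y + 1 by ring, add_pow, sum_div]
  refine sum_congr rfl fun a ha => ?_
  rw [avg_sum _ _ _ (fun b _ => by fun_prop)]
  simp only [avg_const_mul]
  rw [sum_eq_single_of_mem a ha]
  · rw [avg_moment hl (Nat.le_of_lt_succ (mem_range.1 ha)) (Nat.le_of_lt_succ (mem_range.1 ha)),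
      if_pos rfl]
    have : (l.choose a : ℂ) ≠ 0 := by
      exact_mod_cast (Nat.choose_pos (Nat.le_of_lt_succ (mem_range.1 ha))).ne'
    have : ((l : ℂ) + 1) ≠ 0 := by exact_mod_cast Nat.succ_ne_zero l
    simp only [mul_pow, one_pow, mul_one]
    field_simp
  · intro b hb hba
    rw [avg_moment hl (Nat.le_of_lt_succ (mem_range.1 ha)) (Nat.le_of_lt_succ (mem_range.1 hb)),
      if_neg (Ne.symm hba), mul_zero]

theorem pc_avg {L P k i i' : ℕ} (hL : P < L) (hk : k < P + 1) (hi : i < P + 1)
    (hi' : i' < P + 1) :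
    (P.choose k : ℂ) * avg L (fun z => pc P (conj z.1) (conj z.2) (-z.2) z.1 k i *
      pc P z.1 z.2 (-conj z.2) (conj z.1) k i') =
      if i = i' then (P.choose i : ℂ) / ((P : ℂ) + 1) else 0 := by
  set g : ℕ → ℕ → ℕ → ℂ := fun k i i' => avg L (fun z =>
    pc P (conj z.1) (conj z.2) (-z.2) z.1 k i * pc P z.1 z.2 (-conj z.2) (conj z.1) k i') with hg
  refine coeff₂_eq_of_eval (a := fun i i' => (P.choose k : ℂ) * g k i i')
    (b := fun i i' => if i = i' then (P.choose i : ℂ) / ((P : ℂ) + 1) else 0)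
    (fun x y => ?_) i hi i' hi'
  refine coeff_eq_of_eval (N := P + 1)
    (a := fun k => ∑ i ∈ range (P + 1), ∑ i' ∈ range (P + 1),
      (P.choose k : ℂ) * g k i i' * x ^ i * y ^ i')
    (b := fun _ => ∑ i ∈ range (P + 1), ∑ i' ∈ range (P + 1),
      (if i = i' then (P.choose i : ℂ) / ((P : ℂ) + 1) else 0) * x ^ i * y ^ i')
    (fun s => ?_) k hk
  have hR : ∑ i ∈ range (P + 1), ∑ i' ∈ range (P + 1),
      (if i = i' then (P.choose i : ℂ) / ((P : ℂ) + 1) else 0) * x ^ i * y ^ i' =
      (1 + x * y) ^ P / ((P : ℂ) + 1) := by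
    rw [show (1 + x * y) = x * y + 1 by ring, add_pow, sum_div]
    refine sum_congr rfl fun i hi => ?_
    rw [sum_eq_single_of_mem i hi]
    · simp [mul_pow]; ring
    · intro j _ hj; simp [Ne.symm hj]
  rw [hR, ← mul_sum]
  calc ∑ k ∈ range (P + 1), (∑ i ∈ range (P + 1), ∑ i' ∈ range (P + 1),
        (P.choose k : ℂ) * g k i i' * x ^ i * y ^ i') * s ^ k
      = avg L (fun z => ∑ k ∈ range (P + 1), ∑ i ∈ range (P + 1), ∑ i' ∈ range (P + 1),
          ((P.choose k : ℂ) * x ^ i * y ^ i' * s ^ k) *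
            (pc P (conj z.1) (conj z.2) (-z.2) z.1 k i *
              pc P z.1 z.2 (-conj z.2) (conj z.1) k i')) := by
        have hc : ∀ k i i', Continuous fun z : ℂ × ℂ =>
            ((P.choose k : ℂ) * x ^ i * y ^ i' * s ^ k) *
              (pc P (conj z.1) (conj z.2) (-z.2) z.1 k i *
                pc P z.1 z.2 (-conj z.2) (conj z.1) k i') := fun k i i' =>
          continuous_const.mul
            ((continuous_pc P k i (by fun_prop) (by fun_prop) (by fun_prop) (by fun_prop)).mul
              (continuous_pc P k i' (by fun_prop) (by fun_prop) (by fun_prop) (by fun_prop)))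
        rw [avg_sum _ _ _ (fun k _ => continuous_finsetSum _ fun i _ =>
          continuous_finsetSum _ fun i' _ => hc k i i')]
        refine sum_congr rfl fun k _ => ?_
        rw [avg_sum _ _ _ (fun i _ => continuous_finsetSum _ fun i' _ => hc k i i'), sum_mul]
        refine sum_congr rfl fun i _ => ?_
        rw [avg_sum _ _ _ (fun i' _ => hc k i i'), sum_mul]
        refine sum_congr rfl fun i' _ => ?_
        rw [avg_const_mul, hg]
        ring
    _ = avg L (fun z => ∑ l ∈ range (P + 1), ((P.choose l : ℂ) * (1 - s) ^ l *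
          (s * (1 + x * y)) ^ (P - l)) * ((conj z.1 + conj z.2 * x) * (z.1 + z.2 * y)) ^ l) := by
        refine avg_congr fun z hz => ?_
        calc _ = ∑ k ∈ range (P + 1), (s * ((-z.2 + z.1 * x) * (-conj z.2 + conj z.1 * y))) ^ k *
              ((conj z.1 + conj z.2 * x) * (z.1 + z.2 * y)) ^ (P - k) * (P.choose k : ℂ) := by
              refine sum_congr rfl fun k hk => ?_
              have hk' := Nat.le_of_lt_succ (mem_range.1 hk)
              simp only [mul_pow]
              calc _ = (P.choose k : ℂ) * s ^ k *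
                    ((∑ i ∈ range (P + 1), pc P (conj z.1) (conj z.2) (-z.2) z.1 k i * x ^ i) *
                     (∑ i' ∈ range (P + 1),
                       pc P z.1 z.2 (-conj z.2) (conj z.1) k i' * y ^ i')) := by
                    rw [sum_mul_sum]
                    simp only [mul_sum]
                    refine sum_congr rfl fun i _ => sum_congr rfl fun i' _ => ?_
                    ring
                _ = _ := by
                    rw [pc_eval hk', pc_eval hk']
                    ring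
          _ = ((1 - s) * ((conj z.1 + conj z.2 * x) * (z.1 + z.2 * y))
                + s * (1 + x * y)) ^ P := by
              rw [← add_pow]
              congr 1
              linear_combination (s * (1 + x * y)) * hz
          _ = _ := by
              rw [add_pow]
              refine sum_congr rfl fun l _ => ?_
              simp only [mul_pow]
              ring
    _ = ∑ l ∈ range (P + 1), ((P.choose l : ℂ) * (1 - s) ^ l *
          (s * (1 + x * y)) ^ (P - l)) * ((1 + x * y) ^ l / ((l : ℂ) + 1)) := by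
        rw [avg_sum _ _ _ (fun l _ => by fun_prop)]
        refine sum_congr rfl fun l hl => ?_
        rw [avg_const_mul, avg_pow (lt_of_le_of_lt (Nat.le_of_lt_succ (mem_range.1 hl)) hL)]
    _ = (1 + x * y) ^ P / ((P : ℂ) + 1) * ∑ k ∈ range (P + 1), s ^ k := by
        rw [← choose_geom, mul_sum]
        refine sum_congr rfl fun l hl => ?_
        have hl' := Nat.le_of_lt_succ (mem_range.1 hl)
        have h : ((P + 1).choose (l + 1) : ℂ) * ((l : ℂ) + 1) = ((P : ℂ) + 1) * (P.choose l : ℂ) :=
          by exact_mod_cast (Nat.add_one_mul_choose_eq P l).symm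
        have : ((l : ℂ) + 1) ≠ 0 := by exact_mod_cast Nat.succ_ne_zero l
        have : ((P : ℂ) + 1) ≠ 0 := by exact_mod_cast Nat.succ_ne_zero P
        rw [show (1 + x * y) ^ P = (1 + x * y) ^ l * (1 + x * y) ^ (P - l) by
          rw [← pow_add, Nat.add_sub_cancel' hl']]
        simp only [mul_pow]
        field_simp
        linear_combination (-(1 - s) ^ l * s ^ (P - l) * (1 + x * y) ^ l
          * (1 + x * y) ^ (P - l)) * h

theorem rotv_avg {L P k i i' : ℕ} (hL : P < L) (hk : k < P + 1) (hi : i < P + 1)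
    (hi' : i' < P + 1) :
    avg L (fun z => conj (rotv P k i z) * rotv P k i' z) =
      if i = i' then 1 / ((P : ℂ) + 1) else 0 := by
  simp only [conj_mul_rotv (Nat.le_of_lt_succ hk) (Nat.le_of_lt_succ hi)]
  have e : ∀ A B D : ℂ, A * (B / D) = D⁻¹ * (B * A) := fun A B D => by ring
  simp only [e, avg_const_mul]
  rw [pc_avg hL hk hi hi']
  split_ifs with h
  · subst h
    rw [← Complex.ofReal_mul, Real.mul_self_sqrt (Nat.cast_nonneg _), Complex.ofReal_natCast]
    have : (P.choose i : ℂ) ≠ 0 := by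
      exact_mod_cast (Nat.choose_pos (Nat.le_of_lt_succ hi)).ne'
    field_simp
  · simp

/-- The highest weight vector rotated, in both descriptions. -/
theorem chan_gen {P f n i j : ℕ} (hn : n ≤ P) (hn' : n ≤ f) (hi : i < P + 1) (hj : j < f + 1)
    {z : ℂ × ℂ} (hz : z.1 * conj z.1 + z.2 * conj z.2 = 1) :
    ∑ r ∈ range (n + 1), (-1) ^ r * (n.choose r : ℂ) *
        pc P z.1 z.2 (-conj z.2) (conj z.1) r i * pc f z.1 z.2 (-conj z.2) (conj z.1) (n - r) j =
      ∑ M ∈ range (P + f - 2 * n + 1),
        z.1 ^ (P + f - 2 * n - M) * z.2 ^ M * (gCoef P f n M i j : ℂ) := by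
  set u := z.1 with hu
  set v := z.2 with hv
  refine coeff₂_eq_of_eval
    (a := fun i j => ∑ r ∈ range (n + 1), (-1) ^ r * (n.choose r : ℂ) *
        pc P u v (-conj v) (conj u) r i * pc f u v (-conj v) (conj u) (n - r) j)
    (b := fun i j => ∑ M ∈ range (P + f - 2 * n + 1),
        u ^ (P + f - 2 * n - M) * v ^ M * (gCoef P f n M i j : ℂ))
    (fun x y => ?_) i hi j hj
  calc ∑ i ∈ range (P + 1), ∑ j ∈ range (f + 1), (∑ r ∈ range (n + 1), (-1) ^ r *
          (n.choose r : ℂ) * pc P u v (-conj v) (conj u) r i *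
          pc f u v (-conj v) (conj u) (n - r) j) * x ^ i * y ^ j
      = ∑ r ∈ range (n + 1), (-1) ^ r * (n.choose r : ℂ) *
          ((∑ i ∈ range (P + 1), pc P u v (-conj v) (conj u) r i * x ^ i) *
           (∑ j ∈ range (f + 1), pc f u v (-conj v) (conj u) (n - r) j * y ^ j)) := by
        simp only [sum_mul_sum]
        simp only [sum_mul, mul_sum]
        rw [sum_comm_cycle]
        refine sum_congr rfl fun r _ => sum_congr rfl fun i _ => sum_congr rfl fun j _ => ?_
        ring
    _ = (u + v * x) ^ (P - n) * (u + v * y) ^ (f - n) *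
          ((-((-conj v + conj u * x) * (u + v * y))) +
            (u + v * x) * (-conj v + conj u * y)) ^ n := by
        rw [add_pow (-((-conj v + conj u * x) * (u + v * y))) _ n, mul_sum]
        refine sum_congr rfl fun r hr => ?_
        have hr' := Nat.le_of_lt_succ (mem_range.1 hr)
        rw [pc_eval (by omega), pc_eval (by omega), show P - r = P - n + (n - r) by omega,
          show f - (n - r) = f - n + r by omega, pow_add, pow_add,
          neg_pow ((-conj v + conj u * x) * (u + v * y)) r, mul_pow, mul_pow]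
        ring
    _ = (-x + y) ^ n * (v * x + u) ^ (P - n) * (v * y + u) ^ (f - n) := by
        rw [show (-((-conj v + conj u * x) * (u + v * y))) +
          (u + v * x) * (-conj v + conj u * y) = -x + y by linear_combination (y - x) * hz]
        ring
    _ = _ := by
        rw [add_pow, add_pow, add_pow]
        simp only [gCoef, Complex.ofReal_sum, apply_ite (fun t : ℝ => (t : ℂ)),
          Complex.ofReal_zero, mul_sum, sum_mul, ite_mul, zero_mul, mul_ite, mul_zero]
        symm
        simp only [sum_comm (s := range (f + 1)) (t := range (P + f - 2 * n + 1))]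
        rw [sum_comm]
        simp only [sum_comm (t := range (n + 1))]
        refine sum_congr rfl fun r hr => ?_
        simp only [sum_comm (t := range (P - n + 1))]
        refine sum_congr rfl fun a ha => ?_
        simp only [sum_comm (t := range (f - n + 1))]
        refine sum_congr rfl fun b hb => ?_
        simp only [mem_range] at hr ha hb
        rw [sum_eq_single_of_mem (a + b) (mem_range.2 (by omega)),
          sum_eq_single_of_mem (r + a) (mem_range.2 (by omega)),
          sum_eq_single_of_mem (n - r + b) (mem_range.2 (by omega)), if_pos ⟨rfl, rfl, rfl⟩]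
        · rw [show P + f - 2 * n - (a + b) = (P - n - a) + (f - n - b) by omega]
          push_cast
          simp only [mul_pow, pow_add, neg_pow x r]
          ring
        · intro c _ hc
          rw [if_neg (fun h => hc h.2.1.symm)]
        · intro c _ hc
          exact sum_eq_zero fun _ _ => if_neg (fun h => hc h.1.symm)
        · intro c _ hc
          exact sum_eq_zero fun _ _ => sum_eq_zero fun _ _ => if_neg (fun h => hc h.2.2.symm)

variable {E : Type*} [NormedAddCommGroup E] [InnerProductSpace ℂ E]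

/-- A normalised combination of annihilators is a contraction. -/
theorem ann_norm_le {ι : Type*} [Fintype ι] [DecidableEq ι] (C : Car ℂ E ι) (w : ι → ℂ) (y : E) :
    ‖∑ j, w j • C.ann j y‖ ^ 2 ≤ (∑ j, ‖w j‖ ^ 2) * ‖y‖ ^ 2 := by
  have hin : ∀ (a : ι) (u v : E), ⟪u, C.cre a v⟫_ℂ = ⟪C.ann a u, v⟫_ℂ := fun a u v => by
    rw [← inner_conj_symm, C.adj, inner_conj_symm]
  have h1 : ⟪∑ j, w j • C.ann j y, ∑ j, w j • C.ann j y⟫_ℂ =
      ∑ i, ∑ j, conj (w i) * w j * ⟪y, C.cre i (C.ann j y)⟫_ℂ := by
    rw [sum_inner]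
    refine sum_congr rfl fun i _ => ?_
    rw [inner_sum]
    refine sum_congr rfl fun j _ => ?_
    rw [inner_smul_left, inner_smul_right, ← hin]
    ring
  have h2 : ⟪∑ j, conj (w j) • C.cre j y, ∑ j, conj (w j) • C.cre j y⟫_ℂ =
      ∑ i, ∑ j, conj (w i) * w j * ⟪y, C.ann j (C.cre i y)⟫_ℂ := by
    rw [inner_sum]
    refine sum_congr rfl fun i _ => ?_
    rw [sum_inner]
    refine sum_congr rfl fun j _ => ?_
    rw [inner_smul_left, inner_smul_right, C.adj, Complex.conj_conj]
    ring
  have hsum : ⟪∑ j, w j • C.ann j y, ∑ j, w j • C.ann j y⟫_ℂ +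
      ⟪∑ j, conj (w j) • C.cre j y, ∑ j, conj (w j) • C.cre j y⟫_ℂ =
      (∑ j, ((‖w j‖ : ℂ)) ^ 2) * ⟪y, y⟫_ℂ := by
    rw [h1, h2, ← sum_add_distrib, sum_mul]
    refine sum_congr rfl fun i _ => ?_
    rw [← sum_add_distrib, sum_eq_single_of_mem i (mem_univ i)]
    · have h := congrArg (fun t => ⟪y, t⟫_ℂ) (LinearMap.congr_fun (C.mix i i) y)
      simp only [if_true, LinearMap.add_apply, Module.End.mul_apply, Module.End.one_apply,
        inner_add_right] at h
      rw [← Complex.conj_mul']
      linear_combination (conj (w i) * w i) * h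
    · intro j _ hj
      have h := congrArg (fun t => ⟪y, t⟫_ℂ) (LinearMap.congr_fun (C.mix j i) y)
      simp only [if_neg hj, LinearMap.add_apply, Module.End.mul_apply, LinearMap.zero_apply,
        inner_add_right, inner_zero_right] at h
      linear_combination (conj (w i) * w j) * h
  have e : ∀ u : E, ⟪u, u⟫_ℂ = ((‖u‖ ^ 2 : ℝ) : ℂ) := fun u => by
    simp [inner_self_eq_norm_sq_to_K]
  have e' : (∑ j, ((‖w j‖ : ℂ)) ^ 2) = ((∑ j, ‖w j‖ ^ 2 : ℝ) : ℂ) := by push_cast; rfl
  rw [e, e, e, e', ← Complex.ofReal_add, ← Complex.ofReal_mul, Complex.ofReal_inj] at hsum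
  nlinarith [sq_nonneg ‖∑ j, conj (w j) • C.cre j y‖]

/-- One channel: the coherent-state bound, uniform in the flux and in the particle number. -/
theorem chan_form_le {P f n : ℕ} (C : Car ℂ E (Fin (f + 1))) (x : Fin (P + 1) → E)
    (hn : n ≤ P) (hn' : n ≤ f) :
    ∑ M ∈ range (P + f - 2 * n + 1),
        ‖∑ i : Fin (P + 1), ∑ j : Fin (f + 1), (chan P f n M i j : ℂ) • C.ann j (x i)‖ ^ 2 ≤
      (((P + f - 2 * n : ℕ) : ℝ) + 1) * ((n : ℝ) + 1) / ((P : ℝ) + 1) * ∑ i, ‖x i‖ ^ 2 := by
  set S := P + f - 2 * n with hS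
  set Z := chanZ P f n with hZ
  set y : ℕ → E := fun M =>
    ∑ i : Fin (P + 1), ∑ j : Fin (f + 1), (chan P f n M i j : ℂ) • C.ann j (x i) with hy
  set β : ℕ → ℝ := fun r =>
    (-1) ^ r * (n.choose r : ℝ) / (Real.sqrt (P.choose r) * Real.sqrt (f.choose (n - r))) with hβ
  set φ : ℕ → ℂ × ℂ → E := fun r z => ∑ i : Fin (P + 1), rotv P r i z • x i with hφ
  set Φ : ℂ × ℂ → E := fun z => ∑ M ∈ range (S + 1),
    (z.1 ^ (S - M) * z.2 ^ M * ((Real.sqrt (S.choose M) * Real.sqrt Z : ℝ) : ℂ)) • y M with hΦ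
  have hβZ : ∑ r ∈ range (n + 1), β r ^ 2 = Z := by
    refine sum_congr rfl fun r _ => ?_
    simp only [hβ, div_pow, mul_pow, ← pow_mul, Real.sq_sqrt (Nat.cast_nonneg _)]
    simp
  have hZpos : 0 < Z := by
    refine sum_pos (fun r hr => ?_) (by simp)
    have hr' := Nat.le_of_lt_succ (mem_range.1 hr)
    have h1 := Nat.choose_pos hr'
    have h2 := Nat.choose_pos (show r ≤ P by omega)
    have h3 := Nat.choose_pos (show n - r ≤ f by omega)
    positivity
  have cφ : ∀ r, Continuous (φ r) := fun r =>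
    continuous_finsetSum _ fun i _ => (continuous_rotv P r i).smul continuous_const
  have cΦ : Continuous Φ := by fun_prop
  -- the rotated vector, decomposed over the rotated basis
  have hdec : ∀ z : ℂ × ℂ, z.1 * conj z.1 + z.2 * conj z.2 = 1 →
      Φ z = ∑ r ∈ range (n + 1), (β r : ℂ) • ∑ j : Fin (f + 1),
        rotv f (n - r) j z • C.ann j (φ r z) := by
    intro z hz
    simp only [hΦ, hy, hφ, map_sum, map_smul, smul_sum, smul_smul]
    rw [sum_comm]
    conv_rhs => rw [sum_comm, sum_congr rfl fun j _ => sum_comm, sum_comm]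
    refine sum_congr rfl fun i _ => ?_
    rw [sum_comm]
    refine sum_congr rfl fun j _ => ?_
    rw [← sum_smul, ← sum_smul]
    congr 1
    have hi := Nat.le_of_lt_succ i.isLt
    have hj := Nat.le_of_lt_succ j.isLt
    have hb : ((Real.sqrt (P.choose (i : ℕ)) * Real.sqrt (f.choose (j : ℕ)) : ℝ) : ℂ) ≠ 0 :=
      Complex.ofReal_ne_zero.2 (mul_pos (sqrt_choose_pos hi) (sqrt_choose_pos hj)).ne'
    apply mul_right_cancel₀ hb
    rw [sum_mul, sum_mul]
    calc _ = ∑ M ∈ range (S + 1), z.1 ^ (S - M) * z.2 ^ M * (gCoef P f n M i j : ℂ) := by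
          refine sum_congr rfl fun M hM => ?_
          have h1 := (sqrt_choose_pos (Nat.le_of_lt_succ (mem_range.1 hM))).ne'
          have h2 := (Real.sqrt_pos.2 hZpos).ne'
          have h3 := (sqrt_choose_pos hi).ne'
          have h4 := (sqrt_choose_pos hj).ne'
          simp only [chan, ← hS, ← hZ, Real.sqrt_mul (Nat.cast_nonneg _)]
          push_cast
          have := Complex.ofReal_ne_zero.2 h1
          have := Complex.ofReal_ne_zero.2 h2
          have := Complex.ofReal_ne_zero.2 h3
          have := Complex.ofReal_ne_zero.2 h4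
          field_simp
      _ = _ := by
          rw [← chan_gen hn hn' i.isLt j.isLt hz]
          refine sum_congr rfl fun r hr => ?_
          have hr' := Nat.le_of_lt_succ (mem_range.1 hr)
          have h1 := Complex.ofReal_ne_zero.2 (sqrt_choose_pos (show r ≤ P by omega)).ne'
          have h2 := Complex.ofReal_ne_zero.2 (sqrt_choose_pos (show n - r ≤ f by omega)).ne'
          have h3 := Complex.ofReal_ne_zero.2 (sqrt_choose_pos hi).ne'
          have h4 := Complex.ofReal_ne_zero.2 (sqrt_choose_pos hj).ne'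
          simp only [hβ, rotv]
          push_cast
          field_simp
  -- pointwise bound
  have hpt : ∀ z : ℂ × ℂ, z.1 * conj z.1 + z.2 * conj z.2 = 1 →
      ‖Φ z‖ ^ 2 ≤ Z * ∑ r ∈ range (n + 1), ‖φ r z‖ ^ 2 := by
    intro z hz
    have hc : ∀ r ∈ range (n + 1),
        ‖(β r : ℂ) • ∑ j : Fin (f + 1), rotv f (n - r) j z • C.ann j (φ r z)‖ ≤
          |β r| * ‖φ r z‖ := by
      intro r _
      rw [norm_smul, Complex.norm_real, Real.norm_eq_abs]
      refine mul_le_mul_of_nonneg_left ?_ (abs_nonneg _)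
      refine pow_le_pow_iff_left₀ (norm_nonneg _) (norm_nonneg _) two_ne_zero |>.1 ?_
      refine (ann_norm_le C _ _).trans (le_of_eq ?_)
      rw [← Finset.sum_range (fun j => ‖rotv f (n - r) j z‖ ^ 2),
        rotv_unit (by omega) hz, one_mul]
    rw [hdec z hz, ← hβZ]
    calc _ ≤ (∑ r ∈ range (n + 1), |β r| * ‖φ r z‖) ^ 2 :=
          pow_le_pow_left₀ (norm_nonneg _) ((norm_sum_le _ _).trans (sum_le_sum hc)) 2
      _ ≤ _ := (sum_mul_sq_le_sq_mul_sq _ _ _).trans (by simp [sq_abs])
  -- the two averages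
  have hself : ∀ w : E, ((‖w‖ ^ 2 : ℝ) : ℂ) = ⟪w, w⟫_ℂ := fun w => by
    simp [inner_self_eq_norm_sq_to_K]
  have hA : avgR (P + f + 1) (fun z => ‖Φ z‖ ^ 2) = Z / ((S : ℝ) + 1) *
      ∑ M ∈ range (S + 1), ‖y M‖ ^ 2 := by
    apply Complex.ofReal_injective
    rw [← avg_ofReal]
    have hexp : ∀ z : ℂ × ℂ, ((‖Φ z‖ ^ 2 : ℝ) : ℂ) = ∑ M ∈ range (S + 1), ∑ M' ∈ range (S + 1),
        z.1 ^ (S - M') * z.2 ^ M' * ((Real.sqrt (S.choose M') * Real.sqrt Z : ℝ) : ℂ) *
          (conj (z.1 ^ (S - M)) * conj (z.2 ^ M) *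
            ((Real.sqrt (S.choose M) * Real.sqrt Z : ℝ) : ℂ) * ⟪y M, y M'⟫_ℂ) := fun z => by
      rw [hself]
      simp only [hΦ]
      rw [sum_inner]
      refine sum_congr rfl fun M _ => ?_
      rw [inner_sum]
      refine sum_congr rfl fun M' _ => ?_
      rw [inner_smul_left, inner_smul_right, map_mul, map_mul, Complex.conj_ofReal]
      ring
    simp only [hexp]
    rw [avg_sum _ _ _ (fun M _ => by fun_prop), Complex.ofReal_mul, Complex.ofReal_sum, mul_sum]
    refine sum_congr rfl fun M hM => ?_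
    rw [avg_sum _ _ _ (fun M' _ => by fun_prop)]
    have hMS := Nat.le_of_lt_succ (mem_range.1 hM)
    have key : ∀ M' ≤ S, avg (P + f + 1) (fun z : ℂ × ℂ =>
        z.1 ^ (S - M') * z.2 ^ M' * ((Real.sqrt (S.choose M') * Real.sqrt Z : ℝ) : ℂ) *
          (conj (z.1 ^ (S - M)) * conj (z.2 ^ M) *
            ((Real.sqrt (S.choose M) * Real.sqrt Z : ℝ) : ℂ) * ⟪y M, y M'⟫_ℂ)) =
        (((Real.sqrt (S.choose M') * Real.sqrt Z : ℝ) : ℂ) *
          ((Real.sqrt (S.choose M) * Real.sqrt Z : ℝ) : ℂ) * ⟪y M, y M'⟫_ℂ) *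
          (if M = M' then 1 / (((S : ℂ) + 1) * (S.choose M : ℂ)) else 0) := fun M' hM' => by
      rw [← avg_moment (show S < P + f + 1 by omega) hMS hM', ← avg_const_mul]
      refine avg_congr fun z _ => ?_
      simp only [map_mul]
      ring
    rw [sum_eq_single_of_mem M hM]
    · rw [hself, key M hMS, if_pos rfl, ← Complex.ofReal_mul,
        show Real.sqrt (S.choose M) * Real.sqrt Z * (Real.sqrt (S.choose M) * Real.sqrt Z) =
          (S.choose M : ℝ) * Z by
          rw [mul_mul_mul_comm, Real.mul_self_sqrt (Nat.cast_nonneg _),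
            Real.mul_self_sqrt hZpos.le]]
      have : (S.choose M : ℂ) ≠ 0 := by exact_mod_cast (Nat.choose_pos hMS).ne'
      have : ((S : ℂ) + 1) ≠ 0 := by exact_mod_cast Nat.succ_ne_zero S
      push_cast
      field_simp
    · intro M' hM' hne
      rw [key M' (Nat.le_of_lt_succ (mem_range.1 hM')), if_neg (Ne.symm hne), mul_zero]
  have hB : avgR (P + f + 1) (fun z => Z * ∑ r ∈ range (n + 1), ‖φ r z‖ ^ 2) =
      Z * (((n : ℝ) + 1) / ((P : ℝ) + 1) * ∑ i, ‖x i‖ ^ 2) := by
    apply Complex.ofReal_injective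
    rw [← avg_ofReal]
    simp only [Complex.ofReal_mul, Complex.ofReal_sum, hself, avg_const_mul]
    congr 1
    rw [avg_sum _ _ _ (fun r _ => (cφ r).inner (cφ r))]
    calc _ = ∑ r ∈ range (n + 1), (1 / ((P : ℂ) + 1)) * ∑ i : Fin (P + 1), ⟪x i, x i⟫_ℂ := by
          refine sum_congr rfl fun r hr => ?_
          have hr' := Nat.le_of_lt_succ (mem_range.1 hr)
          have hexp : ∀ z : ℂ × ℂ, ⟪φ r z, φ r z⟫_ℂ = ∑ i : Fin (P + 1), ∑ i' : Fin (P + 1),
              rotv P r i' z * (conj (rotv P r i z) * ⟪x i, x i'⟫_ℂ) := fun z => by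
            simp only [hφ]
            rw [sum_inner]
            refine sum_congr rfl fun i _ => ?_
            rw [inner_sum]
            refine sum_congr rfl fun i' _ => ?_
            rw [inner_smul_left, inner_smul_right]
            ring
          simp only [hexp]
          have hc : ∀ (i i' : Fin (P + 1)) (c : ℂ), Continuous fun z : ℂ × ℂ =>
              rotv P r i' z * (conj (rotv P r i z) * c) := fun i i' c =>
            (continuous_rotv P r i').mul
              ((Complex.continuous_conj.comp (continuous_rotv P r i)).mul continuous_const)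
          rw [avg_sum _ _ _ (fun i _ => continuous_finsetSum _ fun i' _ => hc i i' _), mul_sum]
          refine sum_congr rfl fun i _ => ?_
          rw [avg_sum _ _ _ (fun i' _ => hc i i' _)]
          have e : ∀ (i' : Fin (P + 1)), avg (P + f + 1) (fun z =>
              rotv P r i' z * (conj (rotv P r i z) * ⟪x i, x i'⟫_ℂ)) =
              ⟪x i, x i'⟫_ℂ * (if (i : ℕ) = i' then 1 / ((P : ℂ) + 1) else 0) := fun i' => by
            rw [← rotv_avg (show P < P + f + 1 by omega) (show r < P + 1 by omega) i.isLt i'.isLt,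
              ← avg_const_mul]
            exact avg_congr fun z _ => by ring
          simp only [e]
          rw [sum_eq_single_of_mem i (mem_univ i)]
          · simp [mul_comm]
          · intro i' _ hne
            simp [Fin.val_inj, Ne.symm hne]
      _ = _ := by
          rw [sum_const, card_range, nsmul_eq_mul]
          push_cast
          ring
  have h := avgR_mono (P + f + 1) (by fun_prop) (by fun_prop) hpt
  rw [hA, hB] at h
  have hS1 : (0 : ℝ) < (S : ℝ) + 1 := by positivity
  show ∑ M ∈ range (S + 1), ‖y M‖ ^ 2 ≤ _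
  rw [div_mul_eq_mul_div, div_le_iff₀ hS1] at h
  refine le_of_mul_le_mul_left (h.trans (le_of_eq ?_)) hZpos
  ring

/-- All odd channels from `a` on, at flux `q + 1`: their positive part is at most `tailT a`,
for every flux and every particle number. -/
theorem tail_form_le {q a L : ℕ} (C : Car ℂ E (Fin (q + 1 + 1))) (x : Fin (2 * q + 1) → E)
    (ha : 3 ≤ a) (ho : Odd a) (hL : ∀ k < L, a + 2 * k ≤ q + 1) :
    ∑ k ∈ range L, max (kap q (a + 2 * k)) 0 *
      ∑ M ∈ range (2 * q + (q + 1) - 2 * (a + 2 * k) + 1),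
        ‖∑ i : Fin (2 * q + 1), ∑ j : Fin (q + 1 + 1),
          (chan (2 * q) (q + 1) (a + 2 * k) M i j : ℂ) • C.ann j (x i)‖ ^ 2 ≤
      tailT a * ∑ i, ‖x i‖ ^ 2 := by
  calc _ ≤ ∑ k ∈ range L, max (kap q (a + 2 * k)) 0 *
        (3 / 2 * (((a + 2 * k : ℕ) : ℝ) + 1) * ∑ i, ‖x i‖ ^ 2) := by
        refine sum_le_sum fun k hk => mul_le_mul_of_nonneg_left ?_ (le_max_right _ _)
        have hk' := hL k (mem_range.1 hk)
        refine (chan_form_le C x (by omega) hk').trans
          (mul_le_mul_of_nonneg_right ?_ (by positivity))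
        rw [div_le_iff₀ (by positivity)]
        have h1 : ((2 * q + (q + 1) - 2 * (a + 2 * k) : ℕ) : ℝ) + 1 ≤
            3 / 2 * (((2 * q : ℕ) : ℝ) + 1) := by
          have : 2 * ((2 * q + (q + 1) - 2 * (a + 2 * k)) + 1) ≤ 3 * (2 * q + 1) := by omega
          have : (2 : ℝ) * (((2 * q + (q + 1) - 2 * (a + 2 * k) : ℕ) : ℝ) + 1) ≤
              3 * (((2 * q : ℕ) : ℝ) + 1) := by exact_mod_cast this
          linarith
        have := mul_le_mul_of_nonneg_right h1
          (show (0 : ℝ) ≤ ((a + 2 * k : ℕ) : ℝ) + 1 by positivity)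
        linarith
    _ = (∑ k ∈ range L, max (kap q (a + 2 * k)) 0 *
        (3 / 2 * (((a + 2 * k : ℕ) : ℝ) + 1))) * ∑ i, ‖x i‖ ^ 2 := by
        rw [sum_mul]
        simp only [mul_assoc]
    _ ≤ _ := mul_le_mul_of_nonneg_right (kap_tail q a L ha ho) (by positivity)

end Vale.Agent.P359
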